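import Vale.Agent.P236K.SS.One
import Vale.Agent.P257.H919.Steps
import Vale.Agent.P257.H545.InfP
import Vale.Agent.P257.H545.T1P

/-!
# P236K: the multiplication by `b` is bijective above a line

* `inj_four`, `inj_bP`: injectivity of the multiplication by the class of a four term sequence;
* `both_step`: the five lemma for `Laz / I_h ⟶ Laz / I_(h+1)`;
* `aSurj_line`, `aInj_line`, `algVan_b`: the statements modulo `3`.
-/

namespace Vale.Agent.P236K.Alg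

section Four

open Vale.Agent.P251.F.F3 Vale.Agent.P257.H919 Vale.Agent.P257.H93 Vale.Agent.P257.H93.Coch

variable {p : ℕ} {𝒢 : Grp p} {𝒳 : GSet 𝒢} {ℳ 𝒩 : Rep 𝒢} {s : ℕ} {v w : ℤ}

/-- Multiplication on the right by `b` is injective. -/
theorem inj_four (S : Four (triv 𝒢) ℳ 𝒩 ((triv 𝒢).shift v)) (τ : Coch 𝒳 𝒩 0) (σ : Coch 𝒳 ℳ 1)
    (b : Coch 𝒳 (triv 𝒢) 2)
    (hτ : ∀ {B : Type} [CommRing B] [FpA p B] (x : 𝒳.obj B) (g : ℕ → 𝒢.obj B),
      S.r.h (τ.f x g) = (1 : B))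
    (hτσ : τ.d = σ.push S.δ) (hσb : σ.d = b.push S.i) (hτw : τ.IsWt v) (hσw : σ.IsWt v)
    (hM : Van 𝒳 ℳ (s + 2) (w + v)) (hN : Van 𝒳 𝒩 (s + 1) (w + v))
    {c : Coch 𝒳 (triv 𝒢) (s + 1)} (hc : c.IsWt w) (hd : c.d = 0)
    {e : Coch 𝒳 (triv 𝒢) (s + 2)} (he : e.IsWt (w + v)) (hde : e.d = c.cup b) :
    ∃ y : Coch 𝒳 (triv 𝒢) s, y.IsWt w ∧ y.d = c := by
  rw [van_succ] at hM hN
  obtain ⟨E, hE, hdE⟩ := hM (c.cup σ - ((-1 : ℤ) ^ (s + 1)) • e.push S.i)
    (IsWt.sub (hc.cup hσw) (IsWt.zsmul (he.push _) _)) (by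
      rw [d_sub, d_zsmul, d_cup_left hd, hσb, push_d, hde, push_cup]
      exact sub_self _)
  obtain ⟨F, hF, hdF⟩ := hN (c.cup τ - ((-1 : ℤ) ^ (s + 1)) • E.push S.δ)
    (IsWt.sub (hc.cup hτw) (IsWt.zsmul (hE.push _) _)) (by
      rw [d_sub, d_zsmul, d_cup_left hd, hτσ, push_d, hdE, push_sub, push_zsmul, S.push_push_i,
        smul_zero, sub_zero, push_cup]
      exact sub_self _)
  refine ⟨(F.push S.r).ofShift, ?_, ?_⟩
  · have h : (F.push S.r).ofShift.IsWt (w + v - v) := isWt_ofShift (hF.push S.r)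
    rwa [add_sub_cancel_right] at h
  · rw [d_ofShift, push_d, hdF, push_sub, push_zsmul, S.push_push_δ, smul_zero, sub_zero,
      push_cup]
    refine ext' fun {B} _ _ x g => ?_
    rw [ofShift_f, cup_f, push_f, hτ]
    exact mul_one (c.f x g : B)

end Four

section Add

open Vale.Agent.P251.F Vale.Agent.P251.F.F3 Vale.Agent.P257.H919 Vale.Agent.P257.H93
  Vale.Agent.P257.H134 Vale.Agent.P257.H327

variable {p : ℕ} [hp : Fact p.Prime]

/-- Right multiplication by `b_{1,k}` is injective. -/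
theorem inj_bP (hp2 : p ≠ 2) {k n : ℕ} {w : ℤ}
    (h1 : Van (pt (addG p)) (DG p k).rep (n + 2) (w + eD p (k + 1)))
    (h2 : Van (pt (addG p)) (DG p k).rep (n + 1) (w + eD p (k + 1) - eD p k)) {z : CobP p (n + 1)}
    (hz : IsWtP p (n + 1) w z) (hd : dP (n + 1) z = 0) {e : CobP p (n + 2)}
    (he : IsWtP p (n + 2) (w + eD p (k + 1)) e)
    (hde : dP (n + 2) e = cupP (a := n + 1) (b := 2) z (bP p 1 k)) :
    ∃ y : CobP p n, IsWtP p n w y ∧ dP n y = z := by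
  obtain ⟨F, hF, hdF⟩ := inj_four (𝒳 := pt (addG p)) (s := n) (w := w)
    (fourD k) (tauD p k) (sigD p k) (ofP (-(bP p 1 k)))
    (fun {B} _ _ x g => coeff_pT (zc p k (g 0))) (tauD_d k) (sigD_d hp2 k) (isWt_tauD k)
    (isWt_sigD k) h1 (van_shift.2 h2) (c := ofP z) (isWt_ofP.2 hz)
    (by rw [← ofP_dP, hd, ofP_zero]) (e := ofP (-e)) (isWt_ofP.2 he.neg) (by
      rw [← ofP_dP, map_neg, hde, ofP_neg, ofP_neg, ofP_cupP]
      exact Coch.ext' fun x g => by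
        rw [Coch.neg_f, Coch.cup_f, Coch.cup_f, Coch.neg_f]
        change -(_ * _) = _ * _
        ring)
  refine ⟨toP F, isWt_toP.2 hF, ?_⟩
  apply ofP_injective
  rw [ofP_dP, ofP_toP, hdF]

lemma wt_three (a : ℕ × ℕ) (ha : a ≠ (0, 0)) :
    3 ≤ wt 3 a ∧ (a = (0, 1) ∨ 4 ≤ wt 3 a) ∧ (a = (0, 1) ∨ a = (1, 0) ∨ 9 ≤ wt 3 a) := by
  obtain ⟨i, j⟩ := a
  have h1 := Mon.pow_le_wt 3 (i, j)
  by_cases h2 : 2 ≤ i + j
  · have h3 : 3 ^ 2 ≤ 3 ^ (i + j) := Nat.pow_le_pow_right (by norm_num) h2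
    have h4 : 9 ≤ wt 3 (i, j) := le_trans h3 h1
    exact ⟨by omega, Or.inr (by omega), Or.inr (Or.inr h4)⟩
  · have h3 : (i = 0 ∧ j = 1) ∨ (i = 1 ∧ j = 0) := by
      have : ¬ (i = 0 ∧ j = 0) := fun h => ha (by rw [h.1, h.2])
      omega
    rcases h3 with ⟨rfl, rfl⟩ | ⟨rfl, rfl⟩
    · exact ⟨by decide, Or.inl rfl, Or.inl rfl⟩
    · exact ⟨by decide, Or.inr (by decide), Or.inr (Or.inl rfl)⟩

lemma sum_b_le (x : Mon) (c : ℕ) (h : ∀ a ∈ x.b.support, c ≤ wt 3 a) :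
    c * x.b.sum (fun _ n => n) ≤ x.b.sum (fun a n => n * wt 3 a) := by
  rw [Finsupp.sum, Finsupp.sum, Finset.mul_sum]
  exact Finset.sum_le_sum fun a ha => by
    rw [mul_comm]
    exact Nat.mul_le_mul_left _ (h a ha)

/-- The line for the monomials without `h_{1,0}` and `b_{1,0}`. -/
lemma mon_line (x : Mon) (hh : (0, 0) ∉ x.h) (hb : (0, 0) ∉ x.b.support) :
    9 * x.s ≤ 2 * x.W 3 + 4 := by
  have h1 := sum_b_le x 3 fun a ha => (wt_three a fun e => hb (e ▸ ha)).1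
  have h2 : ∑ a ∈ x.h, 9 ≤ ∑ a ∈ x.h, (2 * wt 3 a + ((if a = (0, 1) then 3 else 0) +
      if a = (1, 0) then 1 else 0)) := by
    refine Finset.sum_le_sum fun a ha => ?_
    obtain ⟨k1, k2, k3⟩ := wt_three a fun e => hh (e ▸ ha)
    by_cases e1 : a = (0, 1)
    · rw [if_pos e1]
      omega
    · by_cases e2 : a = (1, 0)
      · rw [if_pos e2]
        have := k2.resolve_left e1
        omega
      · have := (k3.resolve_left e1).resolve_left e2
        omega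
  rw [Finset.sum_add_distrib, Finset.sum_add_distrib, Finset.sum_ite_eq', Finset.sum_ite_eq',
    ← Finset.mul_sum, Finset.sum_const, smul_eq_mul] at h2
  rw [Mon.s, Mon.W]
  split_ifs at h2 <;> omega

/-- The line for all monomials. -/
lemma mon_line' (x : Mon) : 3 * x.s ≤ 2 * x.W 3 + 1 := by
  have h1 := sum_b_le x 1 fun a _ => le_trans (Nat.one_le_pow _ _ (by norm_num))
    (Mon.pow_le_wt 3 a)
  have h2 : ∑ a ∈ x.h, 3 ≤ ∑ a ∈ x.h, (2 * wt 3 a + if a = (0, 0) then 1 else 0) := by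
    refine Finset.sum_le_sum fun a _ => ?_
    by_cases e1 : a = (0, 0)
    · rw [if_pos e1, e1]
      decide
    · have := (wt_three a e1).1
      omega
  rw [Finset.sum_add_distrib, Finset.sum_ite_eq', ← Finset.mul_sum, Finset.sum_const,
    smul_eq_mul] at h2
  rw [Mon.s, Mon.W]
  split_ifs at h2 <;> omega

lemma van_D {s : ℕ} {w : ℤ} (h : w + 4 < 9 * s ∨ ¬ 2 ∣ w) :
    Van (pt (addG 3)) (DG 3 0).rep s w :=
  van_DG fun x hh hb hs hW => by
    have h1 := mon_line x hh hb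
    push_cast at hW
    omega

end Add

section Five

open MvPolynomial Vale.Agent.P251 Vale.Agent.P251.F Vale.Agent.P257.H314 Vale.Agent.P257.H545
  Vale.Agent.P236K.SS

variable {N : Type} [CommRing N] [LawRing N]

/-- The right cup product with a cochain of degree two. -/
noncomputable def cupR (b : Cob N 2) (n : ℕ) : Cob N n →+ Cob N (n + 1 + 1) :=
  AddMonoidHom.mk' (fun x => Cob.cup (a := n) (b := 2) x b) fun x y => add_cup x y b

lemma cupR_apply (b : Cob N 2) (n : ℕ) (x : Cob N n) :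
    cupR b n x = Cob.cup (a := n) (b := 2) x b := rfl

lemma d_cupR {b : Cob N 2} (hb : Cob.d 2 b = 0) (n : ℕ) (x : Cob N n) :
    Cob.d (n + 1 + 1) (cupR b n x) = cupR b (n + 1) (Cob.d n x) := d_cup_two x hb

lemma isWt_cupR {b : Cob N 2} {n : ℕ} {w v : ℤ} {x : Cob N n} (hx : Cob.IsWt w x)
    (hb : Cob.IsWt v b) : Cob.IsWt (w + v) (cupR b n x) :=
  isWt_cupC (s := n) (σ := 2) rfl hx hb rfl

/-- The multiplication by `b` is onto from the degree `n` and injective in the degree `n + 1`. -/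
def Both (b : Cob N 2) (v : ℤ) (n : ℕ) (w : ℤ) : Prop :=
  (∀ c : Cob N (n + 1 + 1), Cob.IsWt (w + v) c → Cob.d (n + 1 + 1) c = 0 →
    ∃ (z : Cob N n) (y : Cob N (n + 1)), Cob.IsWt w z ∧ Cob.IsWt (w + v) y ∧
      Cob.d n z = 0 ∧ c = cupR b n z + Cob.d (n + 1) y) ∧
  ∀ (z : Cob N (n + 1)) (y : Cob N (n + 1 + 1)), Cob.IsWt w z → Cob.IsWt (w + v) y →
    Cob.d (n + 1) z = 0 → Cob.d (n + 1 + 1) y = cupR b (n + 1) z →
    ∃ x : Cob N n, Cob.IsWt w x ∧ Cob.d n x = z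

lemma isWt_sub {s : ℕ} {w : ℤ} {x y : Cob N s} (hx : Cob.IsWt w x) (hy : Cob.IsWt w y) :
    Cob.IsWt w (x - y) := (Cob.wt N s w).sub_mem hx hy

lemma isWt_zero {s : ℕ} {w : ℤ} : Cob.IsWt w (0 : Cob N s) := (Cob.wt N s w).zero_mem

variable {p h : ℕ} [Fact p.Prime]

lemma cupR_vQ (b : Cob (QI p h) 2) (n : ℕ) (x : Cob (QI p h) n) :
    cupR b n (C (vQ p h) * x) = C (vQ p h) * cupR b n x := by
  have h1 : ∀ {a c : ℕ} (x : Cob (QI p h) a) (y : Cob (QI p h) c),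
      Cob.cup (C (vQ p h) * x) y = C (vQ p h) * Cob.cup x y := fun x y => by
    rw [Cob.cup, Cob.cup, map_mul, map_C_vQ, mul_assoc]
  exact h1 x b

lemma isWt_vQ_mul {s : ℕ} {w : ℤ} {x : Cob (QI p h) s}
    (hx : Cob.IsWt (w - ((p ^ h : ℤ) - 1)) x) : Cob.IsWt w (C (vQ p h) * x) := by
  have := (isWt_C_vQ p h s).mul hx
  rwa [add_sub_cancel] at this

lemma mapRing_cupR {M : Type} [CommRing M] [LawRing M] {φ : N →+* M} (hφ : IsLawHom φ)
    (b : Cob N 2) (n : ℕ) (x : Cob N n) : Cob.mapRing φ (n + 1 + 1) (cupR b n x) =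
      cupR (Cob.mapRing φ 2 b) n (Cob.mapRing φ n x) :=
  Cob.mapRing_cup hφ (a := n) (b := 2) x b

lemma red_cupR (b : Cob (QI p h) 2) (n : ℕ) (x : Cob (QI p h) n) :
    red p h (n + 1 + 1) (cupR b n x) = cupR (red p h 2 b) n (red p h n x) :=
  mapRing_cupR (isLawHom_redQ p h) b n x

/-- The five lemma. -/
theorem both_step {b : Cob (QI p h) 2} {v w : ℤ} {n : ℕ} (hb : Cob.IsWt v b)
    (hdb : Cob.d 2 b = 0) (H1 : Both b v n (w - ((p ^ h : ℤ) - 1)))
    (H2 : Both (red p h 2 b) v n w) : Both b v n w := by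
  have e : w + v - ((p ^ h : ℤ) - 1) = w - ((p ^ h : ℤ) - 1) + v := by ring
  have key : ∀ c : Cob (QI p h) (n + 1 + 1), Cob.IsWt (w + v) c →
      red p h (n + 1 + 1 + 1) (Cob.d (n + 1 + 1) c) = 0 →
      ∃ (z : Cob (QI p h) n) (y u : Cob (QI p h) (n + 1)) (c' : Cob (QI p h) (n + 1 + 1)),
        Cob.IsWt w z ∧ Cob.IsWt (w + v) y ∧ Cob.IsWt (w - ((p ^ h : ℤ) - 1)) u ∧
        Cob.IsWt (w - ((p ^ h : ℤ) - 1) + v) c' ∧ Cob.d n z = C (vQ p h) * u ∧
        Cob.d (n + 1) u = 0 ∧ c = cupR b n z + Cob.d (n + 1) y + C (vQ p h) * c' := by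
    intro c hc hd
    obtain ⟨z, y, hz, hy, hdz, hcz⟩ := H2.1 (red p h _ c) (isWt_red hc) (by rw [← red_d, hd])
    obtain ⟨z, hz', rfl⟩ := exists_red_eq hz
    obtain ⟨y, hy', rfl⟩ := exists_red_eq hy
    obtain ⟨u, hu, hzu⟩ := exists_of_red_eq_zero hz'.d (by rw [red_d, hdz])
    obtain ⟨c', hc', hcc⟩ := exists_of_red_eq_zero
      (isWt_sub (isWt_sub hc (isWt_cupR hz' hb)) hy'.d) (by
        rw [map_sub, map_sub, hcz, red_d, red_cupR, add_sub_cancel_left, sub_self])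
    refine ⟨z, y, u, c', hz', hy', hu, e ▸ hc', hzu, ?_, ?_⟩
    · apply vQ_mul_eq_zero p h
      rw [← d_vQ_mul, ← hzu, Cob.d_d]
    · rw [← hcc]
      abel
  constructor
  · intro c hc hd
    obtain ⟨z, y, u, c', hz, hy, hu, hc', hzu, hdu, rfl⟩ := key c hc (by rw [hd, map_zero])
    have h1 : Cob.d (n + 1 + 1) (-c') = cupR b (n + 1) u := by
      apply vQ_mul_cancel p h
      rw [map_add, map_add, Cob.d_d, add_zero, d_vQ_mul, d_cupR hdb, hzu, cupR_vQ] at hd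
      rw [map_neg]
      linear_combination -hd
    obtain ⟨u', hu', rfl⟩ := H1.2 u (-c') hu hc'.neg hdu h1
    obtain ⟨z', y', hz', hy', hdz', hcz'⟩ := H1.1 (c' + cupR b n u')
      (hc'.add (isWt_cupR hu' hb)) (by rw [map_add, d_cupR hdb, ← h1, map_neg, add_neg_cancel])
    refine ⟨z - C (vQ p h) * u' + C (vQ p h) * z', y + C (vQ p h) * y',
      (isWt_sub hz (isWt_vQ_mul hu')).add (isWt_vQ_mul hz'), hy.add (isWt_vQ_mul (e ▸ hy')),
      ?_, ?_⟩
    · rw [map_add, map_sub, d_vQ_mul, d_vQ_mul, hzu, hdz', sub_self, mul_zero, add_zero]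
    · rw [map_add, map_sub, cupR_vQ, cupR_vQ, map_add, d_vQ_mul, eq_sub_of_add_eq hcz']
      ring
  · intro z y hz hy hdz hyz
    obtain ⟨x, hx, hxz⟩ := H2.2 (red p h _ z) (red p h _ y) (isWt_red hz) (isWt_red hy)
      (by rw [← red_d, hdz, map_zero]) (by rw [← red_d, hyz, red_cupR])
    obtain ⟨x, hx', rfl⟩ := exists_red_eq hx
    obtain ⟨u₀, hu₀, hzu₀⟩ := exists_of_red_eq_zero (isWt_sub hz hx'.d)
      (by rw [map_sub, red_d, hxz, sub_self])
    have hdu₀ : Cob.d (n + 1) u₀ = 0 := by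
      apply vQ_mul_eq_zero p h
      rw [← d_vQ_mul, ← hzu₀, map_sub, hdz, Cob.d_d, sub_zero]
    have h0 : Cob.d (n + 1 + 1) (y - cupR b n x) = C (vQ p h) * cupR b (n + 1) u₀ := by
      rw [← cupR_vQ, ← hzu₀, map_sub, map_sub, hyz, d_cupR hdb]
    obtain ⟨z₁, y₁, u, c', hz₁, hy₁, hu, hc', hzu, hdu, hc⟩ := key (y - cupR b n x)
      (isWt_sub hy (isWt_cupR hx' hb)) (by rw [h0, red_C_vQ_mul])
    have h1 : Cob.d (n + 1 + 1) c' = cupR b (n + 1) (u₀ - u) := by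
      apply vQ_mul_cancel p h
      rw [hc, map_add, map_add, Cob.d_d, add_zero, d_vQ_mul, d_cupR hdb, hzu, cupR_vQ] at h0
      rw [map_sub, mul_sub, ← h0, add_sub_cancel_left]
    obtain ⟨u', hu', hdu'⟩ := H1.2 (u₀ - u) c' (isWt_sub hu₀ hu) hc'
      (by rw [map_sub, hdu₀, hdu, sub_zero]) h1
    refine ⟨x + z₁ + C (vQ p h) * u', (hx'.add hz₁).add (isWt_vQ_mul hu'), ?_⟩
    rw [map_add, map_add, d_vQ_mul, hdu', hzu, mul_sub, ← hzu₀]
    ring

/-- From the quotient to the ideals. -/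
lemma both_iff {b : Cob Laz 2} {v w : ℤ} {n : ℕ} :
    Both (Cob.mapRing (Ideal.Quotient.mk (Laz.I p h)) 2 b) v n w ↔
      ASurj p h h b v n w ∧ AInj p h h b v (n + 1) w := by
  have hq := isLawHom_mkI p h
  constructor
  · rintro ⟨H1, H2⟩
    refine ⟨fun c hc hd => ?_, fun z hz hd hc => ?_⟩
    · obtain ⟨z, y, hz, hy, hdz, hcz⟩ := H1 (Cob.mapRing _ (n + 1 + 1) c) (hc.mapRing hq)
        (by rw [← Cob.mapRing_d hq, mapRing_eq_zero_iff]; exact hd)
      obtain ⟨z, rfl⟩ := exists_lift_wt hz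
      obtain ⟨y, rfl⟩ := exists_lift_wt hy
      refine ⟨z.1, z.2, by rwa [← Cob.mapRing_d hq, mapRing_eq_zero_iff] at hdz, y.1, y.2, ?_⟩
      rw [← mapRing_cupR hq, ← Cob.mapRing_d hq, ← sub_eq_zero, ← map_add, ← map_sub,
        mapRing_eq_zero_iff, ← sub_sub] at hcz
      exact hcz
    · obtain ⟨y, hy, hc⟩ := hc
      have hc' : cupR b (n + 1) z - Cob.d (n + 1 + 1) y ∈ IC p h (n + 1 + 1 + 1) := hc
      obtain ⟨x, hx, hxz⟩ := H2 (Cob.mapRing _ (n + 1) z) (Cob.mapRing _ (n + 1 + 1) y)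
        (hz.mapRing hq) (hy.mapRing hq) (by rwa [← Cob.mapRing_d hq, mapRing_eq_zero_iff]) (by
          rw [← mapRing_cupR hq, ← Cob.mapRing_d hq, eq_comm, ← sub_eq_zero, ← map_sub,
            mapRing_eq_zero_iff]
          exact hc')
      obtain ⟨x, rfl⟩ := exists_lift_wt hx
      refine ⟨x.1, x.2, ?_⟩
      rwa [← Cob.mapRing_d hq, eq_comm, ← sub_eq_zero, ← map_sub, mapRing_eq_zero_iff] at hxz
  · rintro ⟨H1, H2⟩
    refine ⟨fun c hc hd => ?_, fun z y hz hy hd hc => ?_⟩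
    · obtain ⟨c, rfl⟩ := exists_lift_wt hc
      rw [← Cob.mapRing_d hq, mapRing_eq_zero_iff] at hd
      obtain ⟨z, hz, hdz, y, hy, hc⟩ := H1 c.1 c.2 hd
      have hc' : c.1 - cupR b n z - Cob.d (n + 1) y ∈ IC p h (n + 1 + 1) := hc
      refine ⟨_, _, hz.mapRing hq, hy.mapRing hq,
        by rwa [← Cob.mapRing_d hq, mapRing_eq_zero_iff], ?_⟩
      rw [← mapRing_cupR hq, ← Cob.mapRing_d hq, ← sub_eq_zero, ← map_add, ← map_sub,
        mapRing_eq_zero_iff, ← sub_sub]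
      exact hc'
    · obtain ⟨z, rfl⟩ := exists_lift_wt hz
      obtain ⟨y, rfl⟩ := exists_lift_wt hy
      rw [← Cob.mapRing_d hq, mapRing_eq_zero_iff] at hd
      rw [← mapRing_cupR hq, ← Cob.mapRing_d hq, eq_comm, ← sub_eq_zero, ← map_sub,
        mapRing_eq_zero_iff] at hc
      obtain ⟨x, hx, hxz⟩ := H2 z.1 z.2 hd ⟨y.1, y.2, hc⟩
      refine ⟨_, hx.mapRing hq, ?_⟩
      rwa [← Cob.mapRing_d hq, eq_comm, ← sub_eq_zero, ← map_sub, mapRing_eq_zero_iff]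

end Five

section Line

open Vale.Agent.P251 Vale.Agent.P251.F Vale.Agent.P251.I Vale.Agent.P257.H314
  Vale.Agent.P257.H545 Vale.Agent.P257.H93 Vale.Agent.P257.H919 Vale.Agent.P236K.SS

lemma eD_zero : P257.H93.eD 3 0 = 2 := by
  rw [P257.H93.eD]
  norm_num

lemma eD_one : P257.H93.eD 3 (0 + 1) = 6 := by
  rw [P257.H93.eD]
  norm_num

lemma fP_inj {p : ℕ} [Fact p.Prime] {h n : ℕ} {w : ℤ} (hh : 1 ≤ h) (hw : w < (p : ℤ) ^ h - 1)
    {z : Cob Laz (n + 1)} (hz : Cob.IsWt w z) (hd : Cob.d (n + 1) z ∈ IC p h (n + 2))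
    {y : CobP p n} (hy : IsWtP p n w y) (hyz : dP n y = fP p (n + 1) z) : ACob p h w z :=
  (cmpP (infCmp p)).inj hh hw hz hd hy hyz

lemma fP_surj {p : ℕ} [Fact p.Prime] {h n : ℕ} {w : ℤ} (hh : 1 ≤ h) (hw : w < (p : ℤ) ^ h - 1)
    {c : CobP p (n + 1)} (hc : IsWtP p (n + 1) w c) (hd : dP (n + 1) c = 0) :
    ∃ (z : Cob Laz (n + 1)) (e : CobP p n), Cob.IsWt w z ∧ IsWtP p n w e ∧
      Cob.d (n + 1) z ∈ IC p h (n + 2) ∧ fP p (n + 1) z = c + dP n e :=
  (cmpP (infCmp p)).surj hh hw hc hd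

variable {t : Cob Laz 1} (ht : IsT1 3 t)

/-- The case of a large `h`. -/
lemma both_large {h n : ℕ} {w : ℤ} (hh : 1 ≤ h) (hw : w + 6 < ((3 : ℕ) : ℤ) ^ h - 1)
    (hl : w ≤ 9 * (n : ℤ) + 9) :
    ASurj 3 h h (bW ht).1 6 (n + 1) w ∧ AInj 3 h h (bW ht).1 6 (n + 1 + 1) w := by
  have hf : fP 3 2 (bW ht).1 = P257.H134.bP 3 1 0 := fP_bcls ht
  have hw' : w < ((3 : ℕ) : ℤ) ^ h - 1 := by omega
  have hbw : IsWtP 3 2 6 (P257.H134.bP 3 1 0) := hf ▸ fP_wt (bW ht).2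
  constructor
  · intro c hc hd
    obtain ⟨c₀, e, hc₀, he, hd₀, heq⟩ := onto_bP (p := 3) (by norm_num) (k := 0) (n := n + 1)
      (w := w + 6) (van_D (by push_cast; omega)) (van_D (by rw [eD_zero]; push_cast; omega))
      (z := fP 3 _ c) (fP_wt hc) ((fP_d c).symm.trans (fP_IC hd))
    rw [eD_one, add_sub_cancel_right] at hc₀
    obtain ⟨z, e', hz, he', hdz, hfz⟩ := fP_surj hh hw' hc₀ hd₀
    have h1 : IsWtP 3 (n + 2) (w + 6) (cupP (a := n) (b := 2) e' (P257.H134.bP 3 1 0)) :=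
      IsWtP.cupP he' hbw
    have h2 : Cob.IsWt (w + 6) (Cob.cup z (bW ht).1) := 
      isWt_cupC (s := n + 1) (σ := 2) rfl hz (bW ht).2 rfl
    have h3 : Cob.d (n + 1 + 2) (Cob.cup z (bW ht).1) ∈ IC 3 h (n + 1 + 2 + 1) :=
      d_cupC_mem (s := n + 1) (σ := 2) rfl hdz (by rw [d_bW]; exact zero_mem _)
    have h4 : dP (n + 2) (e + -cupP (a := n) (b := 2) e' (P257.H134.bP 3 1 0)) =
        fP 3 (n + 1 + 2) (c - Cob.cup z (bW ht).1) := by
      rw [map_sub, map_add, map_neg, fP_cup, hf, hfz, add_cupP, heq, dP_cupP_two _ (dP_bP_one 0)]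
      abel
    exact ⟨z, hz, hdz, fP_inj (n := n + 2) hh hw (isWt_sub hc h2)
      (by rw [map_sub]; exact sub_mem hd h3) (he.add h1.neg) h4⟩
  · intro z hz hd ⟨y, hy, hc⟩
    obtain ⟨x, hx, hxz⟩ := inj_bP (p := 3) (by norm_num) (k := 0) (n := n + 1) (w := w)
      (van_D (by rw [eD_one]; push_cast; omega))
      (van_D (by rw [eD_one, eD_zero]; push_cast; omega)) (z := fP 3 _ z) (fP_wt hz)
      ((fP_d z).symm.trans (fP_IC hd)) (e := fP 3 _ y) (by rw [eD_one]; exact fP_wt hy) (by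
        have h1 := fP_IC hc
        rw [map_sub, sub_eq_zero] at h1
        rw [← hf, ← fP_cup]
        exact (fP_d y).symm.trans h1.symm)
    exact fP_inj (n := n + 1) hh hw' hz hd hx hxz

lemma both_line (n : ℕ) : ∀ (N : ℕ) (w : ℤ), w + 6 < N → w ≤ 9 * (n : ℤ) + 9 → ∀ h, 1 ≤ h →
    ASurj 3 h h (bW ht).1 6 (n + 1) w ∧ AInj 3 h h (bW ht).1 6 (n + 1 + 1) w := by
  intro N
  induction N with
  | zero =>
    intro w hw _ h hh
    exact ⟨aSurj_of_van (algVan_line hh (by push_cast at hw ⊢; omega)),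
      aInj_of_van (algVan_line hh (by push_cast at hw ⊢; omega))⟩
  | succ N ih =>
    intro w hw hl
    have key : ∀ d h, 1 ≤ h → N + 2 ≤ h + d →
        ASurj 3 h h (bW ht).1 6 (n + 1) w ∧ AInj 3 h h (bW ht).1 6 (n + 1 + 1) w := by
      intro d
      induction d with
      | zero =>
        intro h hh hN
        refine both_large ht hh ?_ hl
        have h1 : h < 3 ^ h := Nat.lt_pow_self (by norm_num)
        have h2 : (h : ℤ) < ((3 : ℕ) : ℤ) ^ h := by exact_mod_cast h1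
        push_cast at hw
        omega
      | succ d ihd =>
        intro h hh hN
        have h1 : 3 ^ 1 ≤ 3 ^ h := Nat.pow_le_pow_right (by norm_num) hh
        have h2 : (3 : ℤ) ≤ ((3 : ℕ) : ℤ) ^ h := by exact_mod_cast h1
        have hq := isLawHom_mkI 3 h
        refine both_iff.1 (both_step ((bW ht).2.mapRing hq)
          (by rw [← Cob.mapRing_d hq, d_bW, map_zero]) (both_iff.2 (ih _ ?_ ?_ h hh)) ?_)
        · push_cast at hw
          omega
        · omega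
        · rw [red_mapRing]
          exact both_iff.2 (ihd (h + 1) (by omega) (by omega))
    exact fun h hh => key (N + 2) h hh (by omega)

/-- **The multiplication by `b` is onto above the line `w = 9 s`.** -/
theorem aSurj_line {h s : ℕ} {w : ℤ} (hh : 1 ≤ h) (hs : 1 ≤ s) (hw : w ≤ 9 * (s : ℤ)) :
    ASurj 3 h h (bW ht).1 6 s w := by
  obtain ⟨n, rfl⟩ : ∃ n, s = n + 1 := ⟨s - 1, by omega⟩
  exact (both_line ht n ((w + 6).toNat + 1) w (by push_cast; omega) (by push_cast at hw; omega)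
    h hh).1

/-- **The multiplication by `b` is injective above the line `w + 9 = 9 s`.** -/
theorem aInj_line {h s : ℕ} {w : ℤ} (hh : 1 ≤ h) (hs : 2 ≤ s) (hw : w + 9 ≤ 9 * (s : ℤ)) :
    AInj 3 h h (bW ht).1 6 s w := by
  obtain ⟨n, rfl⟩ : ∃ n, s = n + 1 + 1 := ⟨s - 2, by omega⟩
  exact (both_line ht n ((w + 6).toNat + 1) w (by push_cast; omega) (by push_cast at hw; omega)
    h hh).2

/-- The vanishing line `w + 1 = 3 s`. -/
theorem algVan_b {s : ℕ} : ∀ (N : ℕ) (w : ℤ), w < N → w + 1 < 3 * (s : ℤ) → ∀ h, 1 ≤ h →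
    AlgVan 3 h s w := by
  intro N
  induction N with
  | zero =>
    intro w hw _ h hh
    exact algVan_line hh (by push_cast at hw ⊢; omega)
  | succ N ih =>
    intro w hw hl
    have key : ∀ d h, 1 ≤ h → N + 2 ≤ h + d → AlgVan 3 h s w := by
      intro d
      induction d with
      | zero =>
        intro h hh hN
        have h1 : h < 3 ^ h := Nat.lt_pow_self (by norm_num)
        have h2 : (h : ℤ) < ((3 : ℕ) : ℤ) ^ h := by exact_mod_cast h1
        have h4 : VanP 3 s w := vanP_iff.2 (bound_addG fun x hx hW => by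
          have h3 := mon_line' x
          push_cast at hW
          omega)
        refine (cmpP (infCmp 3)).algVan_of_van hh (by push_cast at hw; omega) ?_
        cases s <;> exact h4
      | succ d ihd =>
        intro h hh hN
        have h1 : 3 ^ 1 ≤ 3 ^ h := Nat.pow_le_pow_right (by norm_num) hh
        have h2 : (3 : ℤ) ≤ ((3 : ℕ) : ℤ) ^ h := by exact_mod_cast h1
        refine algVan_step (ihd (h + 1) (by omega) (by omega)) (ih _ ?_ ?_ h hh)
        · push_cast at hw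
          omega
        · omega
    exact fun h hh => key (N + 2) h hh (by omega)

theorem algVan_bline {h s : ℕ} {w : ℤ} (hh : 1 ≤ h) (hw : w + 1 < 3 * (s : ℤ)) :
    AlgVan 3 h s w :=
  algVan_b (w.toNat + 1) w (by push_cast; omega) hw h hh

end Line

end Vale.Agent.P236K.Alg
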