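import Vale.Agent.P236K.Alg.Stair
import Vale.Agent.P251.F.F3Sparse
import Vale.Agent.P251.F.LawHom
import Vale.Agent.P251.F.WtProj

/-!
# P236K / Alg / Cmp : the cobar complex of all laws and the cobar complex of Hazewinkel laws
-/

set_option linter.unusedSectionVars false

noncomputable section

namespace Vale.Agent.P236K.Alg

open Vale.Agent.P217 Vale.Agent.P251.F Vale.Agent.P257.H80 Vale.Agent.P221.H246 LawRing F3

variable {p : ℕ} [hp : Fact p.Prime]

section typ

variable {N B B' : Type} [CommRing N] [LawRing N] [CommRing B] [CommRing B'] [hB : PL p B]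
  [hB' : PL p B']

variable (p) in
/-- the canonical isomorphism with a Hazewinkel law -/
def tz (F : Law B) : strict B := ⟨strictMk (bS p (typ p hB.out F)), strictMk_mem _⟩

theorem isHaz_tz (F : Law B) : IsHaz p ((tz p F : InvSeries B) • F) := ⟨_, isTyp_typ p hB.out F⟩

theorem smap_tz (θ : B →+* B') (F : Law B) : smap θ (tz p F) = tz p (F.map θ) := by
  apply Subtype.ext
  change InvSeries.map θ (strictMk _) = strictMk _
  rw [map_strictMk]
  congr 1
  funext n
  rw [map_bS, funext (typ_map p hB.out hB'.out θ F)]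

theorem tz_hz (φ : VZ →+* B) : tz p (hz p φ) = 1 := by
  apply Subtype.ext
  change strictMk (bS p (typ p hB.out ((haz p).map φ))) = 1
  rw [typ_haz, bS_seqV, strictMk_zero]

variable (p) in
/-- the typicalized sequence -/
def uS (x : N →+* B) (G : ℕ → strict B) (k : ℕ) : strict B :=
  tz p ((G k : InvSeries B) • law.map x) * G k

theorem uS_del (x : N →+* B) (G : ℕ → strict B) (j : ℕ) :
    uS p x (del j G) = del j (uS p x G) := by
  funext k
  simp only [del, uS]
  split_ifs <;> rfl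

theorem smap_uS (θ : B →+* B') (x : N →+* B) (G : ℕ → strict B) :
    (fun k => smap θ (uS p x G k)) = uS p (θ.comp x) fun k => smap θ (G k) := by
  funext k
  apply Subtype.ext
  rw [val_smap, uS, uS, Subgroup.coe_mul, Subgroup.coe_mul, map_mul, ← val_smap, smap_tz,
    InvSeries.map_smul, Law.map_map]
  rfl

theorem uS_translate (x : N →+* B) (G G' : ℕ → strict B) (g : InvSeries B) (k : ℕ)
    (h : (G' k : InvSeries B) = G k * g⁻¹) :
    (uS p (act g x) G' k : InvSeries B) = uS p x G k * g⁻¹ := by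
  rw [uS, uS, Subgroup.coe_mul, Subgroup.coe_mul, h, law_act, smul_smul, inv_mul_cancel_right,
    mul_assoc]

theorem isHaz_uS (x : N →+* B) (G : ℕ → strict B) (k : ℕ) :
    IsHaz p ((uS p x G k : InvSeries B) • law.map x) := by
  rw [uS, Subgroup.coe_mul, mul_smul]
  exact isHaz_tz _

omit [LawRing N] hp hB in
theorem seq_ofSeq [LawRing N] {n : ℕ} (x : N →+* B) (G : ℕ → strict B) {k : ℕ} (hk : k ≤ n) :
    (seq (ofSeq n x G) k : InvSeries B) = G k * (G 0 : InvSeries B)⁻¹ := by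
  change (ofSeq n x G).g ⟨min k n, _⟩ = _
  rw [ofSeq_g]
  congr 3
  exact min_eq_left hk

variable (p) in
/-- the `i`-th prism over a chain -/
def prz {n : ℕ} (i : ℕ) (c : Chain N n B) : Chain N (n + 1) B :=
  ofSeq (n + 1) c.pt (prs i (seq c) (uS p c.pt (seq c)))

variable (p) in
/-- the typicalization of a chain -/
def tyC {n : ℕ} (c : Chain N n B) : Chain N n B := ofSeq n c.pt (uS p c.pt (seq c))

theorem prz_map {n : ℕ} (i : ℕ) (θ : B →+* B') (c : Chain N n B) :
    (prz p i c).map θ = prz p i (c.map θ) := by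
  rw [prz, ofSeq_map, prz, smap_prs, seq_map, smap_uS]
  rfl

theorem prz_ofSeq {n i : ℕ} (x : N →+* B) (G : ℕ → strict B) (hi : i ≤ n) :
    prz p i (ofSeq n x G) = ofSeq (n + 1) x (prs i G (uS p x G)) := by
  rw [prz, ofSeq_pt]
  refine ofSeq_translate x _ _ _ fun k hk => ?_
  simp only [prs]
  split_ifs with h
  · exact seq_ofSeq x G (by omega)
  · exact uS_translate _ _ _ _ _ (seq_ofSeq x G (by omega))

variable (p) in
/-- the Hazewinkel point of a sequence -/
def sS (x : N →+* B) (G : ℕ → strict B) : TP p B := TP.ofG (law.map x) (uS p x G) (isHaz_uS x G)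

theorem hz_sS (x : N →+* B) (G : ℕ → strict B) (k : ℕ) :
    hz p ((sS p x G).ph k) = (uS p x G k : InvSeries B) • law.map x := (TP.ofG_spec _ _ _ k).1

theorem G_sS (x : N →+* B) (G : ℕ → strict B) (k : ℕ) :
    (sS p x G).G k = uS p x G k * (uS p x G 0)⁻¹ := (TP.ofG_spec _ _ _ k).2

theorem map_sS (θ : B →+* B') (x : N →+* B) (G : ℕ → strict B) :
    (sS p x G).map θ = sS p (θ.comp x) fun k => smap θ (G k) := by
  refine TP.ext_G (hz_injective p ?_) fun k => ?_
  · rw [← TP.ph_zero, ← TP.ph_zero, TP.ph_map, ← map_hz, hz_sS, hz_sS, ← smap_uS,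
      InvSeries.map_smul, Law.map_map]
    rfl
  · apply Subtype.ext
    rw [TP.G_map, G_sS, G_sS, ← smap_uS, val_smap, Subgroup.coe_mul, Subgroup.coe_inv, map_mul,
      map_inv]
    rfl

theorem del_sS (j : ℕ) (x : N →+* B) (G : ℕ → strict B) :
    (sS p x G).del j = sS p x (del j G) := by
  refine TP.ext_G (hz_injective p ?_) fun k => ?_
  · rw [TP.del_φ, ← TP.ph_zero, hz_sS, uS_del]
    simp only [del]
    split_ifs <;> exact hz_sS x G _
  · rw [TP.G_del, G_sS, funext (G_sS x G), TP.del_mul, uS_del]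
    group

theorem TP.agr_of_G {n : ℕ} {x y : TP p B} (h0 : hz p x.φ = hz p y.φ)
    (h : ∀ k ≤ n, x.G k = y.G k) : TP.Agr n x y :=
  ⟨hz_injective p h0, fun k hk => TP.T_eq_of_G (hz_injective p h0) (h k hk.le) (h (k + 1) hk)⟩

theorem agr_sS {n : ℕ} (x : N →+* B) (G : ℕ → strict B) :
    TP.Agr n (sS p (ofSeq n x G).pt (seq (ofSeq n x G))) (sS p x G) := by
  have h : ∀ k ≤ n, (uS p (ofSeq n x G).pt (seq (ofSeq n x G)) k : InvSeries B) =
      uS p x G k * (G 0 : InvSeries B)⁻¹ := fun k hk =>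
    uS_translate _ _ _ _ _ (seq_ofSeq x G hk)
  refine TP.agr_of_G ?_ fun k hk => Subtype.ext ?_
  · rw [← TP.ph_zero, ← TP.ph_zero, hz_sS, hz_sS, h 0 (Nat.zero_le n), ofSeq_pt, law_act,
      mul_smul, inv_smul_smul]
  · rw [G_sS, G_sS, Subgroup.coe_mul, Subgroup.coe_mul, Subgroup.coe_inv, Subgroup.coe_inv,
      h k hk, h 0 (Nat.zero_le n)]
    group

theorem agr_sS_of {n : ℕ} (x : N →+* B) (y : TP p B) (h : law.map x = hz p y.φ) :
    TP.Agr n (sS p x y.G) y := by
  have h1 : ∀ k, uS p x y.G k = y.G k := fun k => by rw [uS, h, TP.G_smul, tz_hz, one_mul]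
  refine TP.agr_of_G ?_ fun k _ => ?_
  · rw [← TP.ph_zero, hz_sS, h1, h, TP.G_smul, TP.ph_zero]
  · rw [G_sS, h1, h1, TP.G_zero, inv_one, mul_one]

variable [PL p N]

variable (p N) in
/-- the homotopy operator -/
def hZ (n : ℕ) : Cob N (n + 1) →+ Cob N n :=
  ∑ i ∈ Finset.range (n + 1), ((-1 : ℤ) ^ i) •
    (Cob.ev (prz p i (Cob.univ N n)) : Cob N (n + 1) →+* Cob N n).toAddMonoidHom

theorem ev_hZ {n : ℕ} (x : N →+* B) (G : ℕ → strict B) (z : Cob N (n + 1)) :
    Cob.ev (ofSeq n x G) (hZ p N n z) = P257.H93.hS n (evSeq x z) G (uS p x G) := by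
  rw [hZ, AddMonoidHom.finsetSum_apply, map_sum, P257.H93.hS]
  refine Finset.sum_congr rfl fun i hi => ?_
  rw [AddMonoidHom.smul_apply, map_zsmul]
  congr 1
  change Cob.ev _ (Cob.ev (prz p i (Cob.univ N n)) z) = _
  rw [← Cob.ev_map, prz_map, Cob.univ_map_ev,
    prz_ofSeq x G (by have := Finset.mem_range.1 hi; omega), evSeq]

omit hp hB [PL p N] in
theorem evSeq_d {n : ℕ} (x : N →+* B) (z : Cob N n) :
    evSeq x (Cob.d n z) = P257.H93.dS n (evSeq x z) := funext fun G => ev_d_ofSeq x z G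

theorem ev_hZ_succ {n : ℕ} (x : N →+* B) (G : ℕ → strict B) (z : Cob N (n + 1)) :
    evSeq x (hZ p N (n + 1) (Cob.d (n + 1) z) + Cob.d n (hZ p N n z)) G =
      evSeq x z (uS p x G) - evSeq x z G := by
  rw [evSeq, map_add, ev_hZ, ev_d_ofSeq, evSeq_d,
    ← P257.H93.hS_dS n (evSeq x z) G (uS p x G) fun _ _ => evSeq_congr x z]
  congr 1
  exact Finset.sum_congr rfl fun j _ => by rw [evSeq, ev_hZ, uS_del]

theorem ev_hZ_zero (x : N →+* B) (G : ℕ → strict B) (z : Cob N 0) :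
    evSeq x (hZ p N 0 (Cob.d 0 z)) G = evSeq x z (uS p x G) - evSeq x z G := by
  rw [evSeq, ev_hZ, evSeq_d, P257.H93.hS_dS_zero _ _ _ fun _ _ => evSeq_congr x z]

variable {k : Type} [CommRing k] [PL p k] (κ : k →+* N)

variable (p) in
/-- the section -/
def sec (n : ℕ) : Bi k →+* Cob N n :=
  evT (MvPolynomial.C.comp κ) (sS p (Cob.univ N n).pt (seq (Cob.univ N n)))

theorem ev_sec {n : ℕ} (c : Chain N n B) (z : Bi k) :
    Cob.ev c (sec p κ n z) = evT (c.pt.comp κ) (sS p c.pt (seq c)) z := by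
  have e : (Cob.ev c).comp (MvPolynomial.C : N →+* Cob N n) = c.pt :=
    RingHom.ext fun a => Cob.ev_C c a
  rw [sec, map_evT, map_sS, ← seq_map, Cob.univ_map_ev, Cob.univ_pt, ← RingHom.comp_assoc, e]

theorem ev_sec_ofSeq (hk : ∀ f g : k →+* B, f = g) {n : ℕ} (x : N →+* B) (G : ℕ → strict B)
    {z : Bi k} (hz : Lev n z) : evSeq x (sec p κ n z) G = evT (x.comp κ) (sS p x G) z := by
  rw [evSeq, ev_sec, hz.evT_congr _ (agr_sS x G), hk ((ofSeq n x G).pt.comp κ) (x.comp κ)]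

omit hB hp [PL p N] in
theorem ext_seq {n : ℕ} {z z' : Cob N n}
    (h : evSeq MvPolynomial.C z (seq (Cob.univ N n)) =
      evSeq MvPolynomial.C z' (seq (Cob.univ N n))) : z = z' := by
  rwa [evSeq, evSeq, ← Cob.univ_pt, ofSeq_seq, Cob.ev_univ, Cob.ev_univ] at h

theorem d_sec (hk : ∀ (B : Type) [CommRing B] (f g : k →+* B), f = g) {n : ℕ} {z : Bi k}
    (hz : Lev n z) : Cob.d n (sec p κ n z) = sec p κ (n + 1) (dB p k n z) := by
  apply ext_seq
  rw [evSeq_d, P257.H93.dS_apply, ev_sec_ofSeq κ (hk _) _ _ (z := dB p k n z) (hz.dP _), dB,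
    dP_apply, map_sum]
  refine Finset.sum_congr rfl fun j _ => ?_
  rw [map_zsmul, evT_D, del_sS, ev_sec_ofSeq κ (hk _) _ _ hz]

end typ

section cmp

variable {B B' k : Type} [CommRing B] [CommRing B'] [PL p B] [PL p B'] [CommRing k] [PL p k]

/-- the chain of a Hazewinkel point -/
def chn (n : ℕ) (y : TP p B) : Chain Laz n B := ofSeq n (Laz.lift (hz p y.φ)) y.G

theorem chn_eq {n : ℕ} {y : TP p B} {x : Laz →+* B} {G : ℕ → strict B}
    (h0 : hz p y.φ = (G 0 : InvSeries B) • Laz.univ.map x)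
    (h : ∀ j ≤ n, y.G j = G j * (G 0)⁻¹) : chn n y = ofSeq n x G := by
  rw [chn, h0, ← Laz.act_eq]
  exact ofSeq_translate x _ _ _ fun j hj => by rw [h j hj]; rfl

theorem chn_map (n : ℕ) (θ : B →+* B') (y : TP p B) : (chn n y).map θ = chn n (y.map θ) := by
  rw [chn, ofSeq_map, Laz.comp_lift, map_hz, chn, funext (TP.G_map θ y)]
  rfl

theorem chn_sc (n : ℕ) (u : Bˣ) (y : TP p B) : (chn n y).scale u = chn n (y.sc (u : B)) := by
  rw [chn, ofSeq_scale, chn, TP.G_sc, Laz.act_eq, Laz.univ_map_lift, ← hz_scV]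
  rfl

theorem chn_congr {n : ℕ} {x y : TP p B} (h : TP.Agr n x y) : chn n x = chn n y := by
  rw [chn, chn, h.1]
  exact ofSeq_congr fun j hj => TP.G_congr h.1 fun i hi => h.2 i (by omega)

theorem chn_res {n m : ℕ} (α : Fin (m + 1) → Fin (n + 1)) (β : ℕ → ℕ)
    (h : ∀ i, (α i : ℕ) = β i) (y : TP p B) :
    (chn n y).res α = ofSeq m (Laz.lift (hz p y.φ)) fun i => y.G (β i) := by
  have h0 := h 0
  rw [Fin.val_zero] at h0
  ext1
  · rw [Chain.res_pt, chn, ofSeq_pt, ofSeq_g, ofSeq_pt, ← act_mul, inv_mul_cancel_right, h0]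
  · funext i
    rw [Chain.res_g, chn, ofSeq_g, ofSeq_g, ofSeq_g, h0, h i, mul_inv_rev, inv_inv, mul_assoc,
      inv_mul_cancel_left]

variable (p k) in
/-- evaluation at the universal chain of Hazewinkel laws -/
def cmp (n : ℕ) : Cob Laz n →+* Bi k := Cob.ev (chn n (uT p k))

theorem evT_cmp (κ : k →+* B) (y : TP p B) {n : ℕ} (z : Cob Laz n) :
    evT κ y (cmp p k n z) = Cob.ev (chn n y) z := by
  rw [cmp, ← Cob.ev_map, chn_map, uT_map_evT]

theorem lev_cmp {n : ℕ} (z : Cob Laz n) : Lev n (cmp p k n z) := by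
  rw [cmp, ← chn_congr (agr_uTr n), ← evT_cmp (k := k) MvPolynomial.C]
  exact lev_evT_uTr n _

open scoped LaurentPolynomial in
theorem wt_cmp {n : ℕ} {w : ℤ} {z : Cob Laz n} (hz : Cob.IsWt w z) : Wt p w (cmp p k n z) := by
  haveI : PL p (Bi k)[T;T⁻¹] := PL.of_hom p (LaurentPolynomial.C : Bi k →+* _)
  apply wt_of_evT
  rw [evT_cmp, ← chn_sc, hz, ← chn_map, Cob.ev_map]
  rfl

theorem cmp_d {n : ℕ} (z : Cob Laz n) : cmp p k (n + 1) (Cob.d n z) = dB p k n (cmp p k n z) := by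
  rw [cmp, chn, ev_d_ofSeq, dB, dP_apply]
  refine Finset.sum_congr rfl fun j _ => ?_
  rw [D, evT_cmp, evSeq, chn_eq _ fun i _ => TP.G_del j _ i]
  rw [TP.del_φ, Laz.univ_map_lift]
  simp only [del]
  split_ifs <;> exact (TP.G_smul _ _).symm

theorem cmp_front {n a : ℕ} (α : Fin (a + 1) → Fin (n + 1)) (h : ∀ i, (α i : ℕ) = i)
    (z : Cob Laz a) : cmp p k n (Cob.map α z) = cmp p k a z := by
  rw [cmp, Cob.ev_map_res, chn_res α id h]
  rfl

theorem evT_sh_cmp (a : ℕ) (κ : k →+* B) (y : TP p B) {b : ℕ} (z : Cob Laz b) :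
    evT κ y (sh p k a (cmp p k b z)) =
      Cob.ev (ofSeq b (Laz.lift (hz p y.φ)) fun i => y.G (a + i)) z := by
  induction a generalizing y with
  | zero =>
    rw [sh_zero, evT_cmp]
    simp only [zero_add]
    rfl
  | succ a ih =>
    rw [sh_succ, evT_D, ih, TP.del_zero_φ, ← TP.G_smul, ← Laz.univ_map_lift (hz p y.φ),
      ← Laz.act_eq, Laz.univ_map_lift, ofSeq_translate]
    intro i _
    rw [TP.G_del, add_right_comm]
    rfl

theorem cmp_back {n a b : ℕ} (α : Fin (b + 1) → Fin (n + 1)) (h : ∀ i, (α i : ℕ) = a + i)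
    (z : Cob Laz b) : cmp p k n (Cob.map α z) = sh p k a (cmp p k b z) := by
  have h1 := evT_sh_cmp a MvPolynomial.C (uT p k) z
  rw [evT_uT, RingHom.id_apply] at h1
  rw [h1, cmp, Cob.ev_map_res, chn_res α (a + ·) h]

theorem cmp_C {n : ℕ} (a : Laz) :
    cmp p k n (MvPolynomial.C a) = Laz.lift (hz p (uT p k).φ) a := by
  rw [cmp, Cob.ev_C, chn, ofSeq_pt, TP.G_zero, Subgroup.coe_one, act_one]

theorem exists_wt_cmp {n : ℕ} {U : UpperSet Ex} (w : ℤ) {x : Bi k} (hx : Wt p w x) (z : Cob Laz n)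
    (h : cmp p k n z - x ∈ JM k U) : cmp p k n (Cob.pr Laz n w z) - x ∈ JM k U := by
  classical
  refine mem_JM.2 fun m hm => mem_JM.1 h m ?_
  have hw : Finsupp.weight (wB p) m = w := by
    have h1 := (wt_cmp (k := k) (Cob.isWt_pr w z)).add
      (neg_mem (s := MvPolynomial.weightedHomogeneousSubmodule k (wB p) _) hx)
    rw [← sub_eq_add_neg] at h1
    exact h1 (MvPolynomial.mem_support_iff.1 hm)
  rw [MvPolynomial.mem_support_iff, MvPolynomial.coeff_sub] at hm ⊢
  have h2 : ∀ v, MvPolynomial.coeff m (cmp p k n (Cob.pr Laz n v z)) =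
      MvPolynomial.coeff m (cmp p k n (Cob.pr Laz n w (Cob.pr Laz n v z))) := by
    intro v
    rw [Cob.pr_of_isWt (Cob.isWt_pr v z)]
    split_ifs with h3
    · rfl
    · rw [map_zero, MvPolynomial.coeff_zero]
      exact (wt_cmp (Cob.isWt_pr v z)).coeff_eq_zero m (by rw [hw]; exact fun e => h3 (by rw [e]))
  rw [← Cob.sum_pr z] at hm ⊢
  simp only [map_sum, MvPolynomial.coeff_sum] at hm ⊢
  rwa [Finset.sum_congr rfl fun v _ => h2 v]

end cmp

end Vale.Agent.P236K.Alg
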