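import Vale.Agent.P236K.Alg.Cmp

/-!
# P236K / Alg / CmpJ : `Cob Laz / J` and `Bi (ZMod m) / JM U` have the same cohomology

`cm n = cmp n ∘ rv n` reverses the chains, so that right cup products become left cup products.
-/

set_option linter.unusedSectionVars false
set_option linter.style.haveILetI false

noncomputable section

namespace Vale.Agent.P236K.Alg

open Vale.Agent.P217 Vale.Agent.P251.F Vale.Agent.P257.H80 Vale.Agent.P221.H246 LawRing F3

variable {p : ℕ} [hp : Fact p.Prime]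

section sec

variable {N B : Type} [CommRing N] [LawRing N] [CommRing B] [hB : PL p B]

theorem tz_lin (u : Bˣ) (F : Law B) : (tz p ((InvSeries.lin u)⁻¹ • F) : InvSeries B) =
    (InvSeries.lin u)⁻¹ * tz p F * InvSeries.lin u := by
  apply InvSeries.ext_c
  intro j
  rw [c_conj_lin]
  change (strictMk _).c j = _ * (strictMk _).c j
  rcases j with _ | j
  · rw [c_zero_strictMk, c_zero_strictMk, pow_zero, mul_one]
  · rw [c_succ_strictMk, c_succ_strictMk, funext (typ_lin p hB.out u F)]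
    unfold bS
    split_ifs
    · rw [mul_zero]
    · rfl

theorem uS_conj (x : N →+* B) (G : ℕ → strict B) (u : Bˣ) :
    uS p (act (InvSeries.lin u)⁻¹ x) (conjSeq u G) = conjSeq u (uS p x G) := by
  funext j
  apply Subtype.ext
  have h1 : ((conjSeq u G j : strict B) : InvSeries B) • law.map (act (InvSeries.lin u)⁻¹ x) =
      (InvSeries.lin u)⁻¹ • ((G j : InvSeries B) • law.map x) := by
    rw [law_act, smul_smul, smul_smul]
    congr 1
    change (InvSeries.lin u)⁻¹ * G j * InvSeries.lin u * (InvSeries.lin u)⁻¹ = _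
    group
  rw [uS, Subgroup.coe_mul, h1, tz_lin]
  change _ * ((InvSeries.lin u)⁻¹ * G j * InvSeries.lin u) =
    (InvSeries.lin u)⁻¹ * (tz p ((G j : InvSeries B) • law.map x) * G j) * InvSeries.lin u
  group

theorem sS_sc (x : N →+* B) (G : ℕ → strict B) (u : Bˣ) :
    sS p (act (InvSeries.lin u)⁻¹ x) (conjSeq u G) = (sS p x G).sc (u : B) := by
  refine TP.ext_G (hz_injective p ?_) fun j => Subtype.ext ?_
  · rw [← TP.ph_zero, ← TP.ph_zero, TP.ph_sc, hz_scV, hz_sS, hz_sS, uS_conj, law_act, smul_smul,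
      smul_smul]
    congr 1
    change (InvSeries.lin u)⁻¹ * uS p x G 0 * InvSeries.lin u * (InvSeries.lin u)⁻¹ = _
    group
  · rw [TP.G_sc, G_sS, uS_conj]
    change ((InvSeries.lin u)⁻¹ * uS p x G j * InvSeries.lin u) *
      ((InvSeries.lin u)⁻¹ * uS p x G 0 * InvSeries.lin u)⁻¹ =
      (InvSeries.lin u)⁻¹ * ((sS p x G).G j : InvSeries B) * InvSeries.lin u
    rw [G_sS, Subgroup.coe_mul, Subgroup.coe_inv]
    group

variable [PL p N] {k : Type} [CommRing k] [PL p k] (κ : k →+* N)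
  (hk : ∀ (B : Type) [CommRing B] (f g : k →+* B), f = g)

include hk

theorem isWt_sec {n : ℕ} {w : ℤ} {z : Bi k} (hz : Wt p w z) : Cob.IsWt w (sec p κ n z) := by
  intro B _ c u
  have : PL p B := PL.of_hom p c.pt
  rw [ev_sec, ev_sec, seq_scale, ← evT_sc _ _ _ hz, ← sS_sc, hk _ ((c.scale u).pt.comp κ)]
  rfl

omit hk hp [PL p N] [PL p k] in
theorem ofSeq_res' {n m : ℕ} (α : Fin (m + 1) → Fin (n + 1)) (β : ℕ → ℕ)
    (h : ∀ i, (α i : ℕ) = β i) (x : N →+* B) (G : ℕ → strict B) :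
    (ofSeq n x G).res α = ofSeq m x fun i => G (β i) := by
  have h0 := h 0
  rw [Fin.val_zero] at h0
  ext1
  · rw [Chain.res_pt, ofSeq_pt, ofSeq_g, ofSeq_pt, ← act_mul, inv_mul_cancel_right, h0]
  · funext i
    rw [Chain.res_g, ofSeq_g, ofSeq_g, ofSeq_g, h0, h i, mul_inv_rev, inv_inv, mul_assoc,
      inv_mul_cancel_left]

theorem sec_front {n a : ℕ} (α : Fin (a + 1) → Fin (n + 1)) (h : ∀ i, (α i : ℕ) = i) {z : Bi k}
    (hz : Lev a z) : Cob.map α (sec p κ a z) = sec p κ n z := by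
  have ha : a ≤ n := by
    have h1 := h (Fin.last a)
    have h2 := (α (Fin.last a)).2
    rw [Fin.val_last] at h1
    omega
  apply ext_seq
  rw [ev_sec_ofSeq κ (hk _) _ _ (hz.mono ha), evSeq, Cob.ev_map_res, ofSeq_res' α id h]
  exact ev_sec_ofSeq κ (hk _) _ _ hz

omit hk [PL p N] in
theorem evT_sS_sh (a : ℕ) (κ' : k →+* B) (x : N →+* B) (G : ℕ → strict B) (z : Bi k) :
    evT κ' (sS p x G) (sh p k a z) = evT κ' (sS p x fun i => G (a + i)) z := by
  induction a generalizing G with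
  | zero => simp only [zero_add, sh_zero]
  | succ a ih =>
    rw [sh_succ, evT_D, del_sS, ih]
    simp only [add_right_comm a 1]
    rfl

theorem sec_back {n a b : ℕ} (α : Fin (b + 1) → Fin (n + 1)) (h : ∀ i, (α i : ℕ) = a + i)
    {z : Bi k} (hz : Lev b z) : Cob.map α (sec p κ b z) = sec p κ n (sh p k a z) := by
  have ha : b + a ≤ n := by
    have h1 := h (Fin.last b)
    have h2 := (α (Fin.last b)).2
    rw [Fin.val_last] at h1
    omega
  apply ext_seq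
  rw [ev_sec_ofSeq κ (hk _) _ _ ((hz.sh a).mono ha), evSeq, Cob.ev_map_res,
    ofSeq_res' α (a + ·) h, evT_sS_sh]
  exact ev_sec_ofSeq κ (hk _) _ _ hz

end sec

section rev

variable {N : Type} [CommRing N] [LawRing N]

variable (N) in
/-- reversal of chains -/
def rv (n : ℕ) : Cob N n →+* Cob N n := Cob.map Fin.rev

omit hp in
theorem rv_rv {n : ℕ} (z : Cob N n) : rv N n (rv N n z) = z := by
  rw [rv, Cob.map_map, show (Fin.rev ∘ Fin.rev : Fin (n + 1) → Fin (n + 1)) = id from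
    funext Fin.rev_rev, Cob.map_id]

omit hp in
theorem rv_d {n : ℕ} (z : Cob N n) :
    rv N (n + 1) (Cob.d n z) = ((-1 : ℤ) ^ (n + 1)) • Cob.d n (rv N n z) := by
  rw [Cob.d_apply, Cob.d_apply, map_sum, Finset.smul_sum,
    ← Equiv.sum_comp (Fin.revPerm : Equiv.Perm (Fin (n + 2)))]
  refine Finset.sum_congr rfl fun j _ => ?_
  have e : (Fin.rev ∘ (Fin.rev j).succAbove : Fin (n + 1) → Fin (n + 2)) =
      j.succAbove ∘ Fin.rev := by
    funext i
    rw [Function.comp_apply, Fin.rev_succAbove, Fin.rev_rev, Function.comp_apply]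
  rw [map_zsmul, rv, rv, Cob.map_map, Cob.map_map, Fin.revPerm_apply, e, smul_smul, ← pow_add,
    Fin.val_rev]
  congr 1
  have hj := j.2
  rw [show n + 1 + (j : ℕ) = (n + 2 - (j + 1)) + 2 * j by omega, pow_add, pow_mul]
  simp

end rev

/-- the extension of an ideal of `Laz` -/
def JC (J : Ideal Laz) (n : ℕ) : Ideal (Cob Laz n) := J.map MvPolynomial.C

omit hp in
theorem mem_JC {J : Ideal Laz} {n : ℕ} {z : Cob Laz n} :
    z ∈ JC J n ↔ Cob.mapRing (Ideal.Quotient.mk J) n z = 0 := by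
  rw [Cob.mapRing, ← RingHom.mem_ker, MvPolynomial.ker_map, Ideal.mk_ker, JC]

variable (p) in
/-- the comparison map with reversed chains -/
def cm (k : Type) [CommRing k] [PL p k] (n : ℕ) : Cob Laz n →+* Bi k := (cmp p k n).comp (rv Laz n)

section cm

variable {k : Type} [CommRing k] [PL p k]

theorem cm_apply {n : ℕ} (z : Cob Laz n) : cm p k n z = cmp p k n (rv Laz n z) := rfl

theorem lev_cm {n : ℕ} (z : Cob Laz n) : Lev n (cm p k n z) := by
  rw [cm_apply]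
  exact lev_cmp _

theorem wt_cm {n : ℕ} {w : ℤ} {z : Cob Laz n} (hz : Cob.IsWt w z) : Wt p w (cm p k n z) := by
  rw [cm_apply]
  exact wt_cmp (hz.map _)

theorem cm_mem {n : ℕ} {w : ℤ} {z : Cob Laz n} (hz : Cob.IsWt w z) :
    cm p k n z ∈ CK p k Uall n w := ⟨lev_cm z, wt_cm hz, mem_JM_all _⟩

theorem cm_d {n : ℕ} (z : Cob Laz n) :
    cm p k (n + 1) (Cob.d n z) = ((-1 : ℤ) ^ (n + 1)) • dB p k n (cm p k n z) := by
  rw [cm_apply, rv_d, map_zsmul, cmp_d, cm_apply]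

omit hp in
theorem rv_map {N : Type} [CommRing N] [LawRing N] {s n : ℕ} (α : Fin (s + 1) → Fin (n + 1))
    (z : Cob N s) : rv N n (Cob.map α z) = Cob.map (fun i => (α i.rev).rev) (rv N s z) := by
  have e : (Fin.rev ∘ α) = (fun i : Fin (s + 1) => (α i.rev).rev) ∘ Fin.rev := by
    funext i
    simp
  rw [rv, rv, Cob.map_map, Cob.map_map, e]

theorem cm_cup {s σ n : ℕ} (h : s + σ = n) (α : Fin (s + 1) → Fin (n + 1))
    (hα : ∀ i, (α i : ℕ) = i) (β : Fin (σ + 1) → Fin (n + 1)) (hβ : ∀ i, (β i : ℕ) = s + i)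
    (z : Cob Laz s) (b : Cob Laz σ) :
    cm p k n (Cob.map α z * Cob.map β b) = cm p k σ b * sh p k σ (cm p k s z) := by
  rw [map_mul, mul_comm, cm_apply, cm_apply, cm_apply, cm_apply, rv_map, rv_map,
    cmp_front _ fun i => by
      have := i.2
      rw [Fin.val_rev, hβ, Fin.val_rev]; omega,
    cmp_back (a := σ) _ fun i => by
      have := i.2
      rw [Fin.val_rev, hα, Fin.val_rev]; omega]

theorem evT_JM {B : Type} [CommRing B] (κ : k →+* B) (y : TP p B) {U : UpperSet Ex}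
    (h : ∀ e ∈ U, y.φ (MvPolynomial.monomial e 1) = 0) {z : Bi k} (hz : z ∈ JM k U) :
    evT κ y z = 0 := by
  have e : (evT κ y).comp ((lv k 0).comp (io k)) = y.φ := VZ.ext fun i => by simp
  rw [z.as_sum, map_sum]
  refine Finset.sum_eq_zero fun m hm => ?_
  have h1 := h _ (mem_JM.1 hz m hm)
  rw [← e, RingHom.comp_apply, RingHom.comp_apply, io, mA_monomial, map_one] at h1
  rw [monomial_split 0, map_mul, h1, mul_zero]

end cm

variable (p) in
/-- the ideal `J` of `Laz` corresponds to the ideal of `U` in `ZMod m [v]` -/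
structure Cpt (m : ℕ) [PL p (ZMod m)] (J : Ideal Laz) (U : UpperSet Ex) : Prop where
  inv : LawRing.Invariant J
  mem : (m : Laz) ∈ J
  toU : ∀ a ∈ J, Laz.lift (hz p (uT p (ZMod m)).φ) a ∈ JM (ZMod m) U
  ofU : ∀ (B : Type) [CommRing B] (φ : VZ →+* B), (∀ a ∈ J, Laz.lift (hz p φ) a = 0) →
    ∀ e ∈ U, φ (MvPolynomial.monomial e 1) = 0

namespace Cpt

variable {m : ℕ} [PL p (ZMod m)] {J : Ideal Laz} {U : UpperSet Ex} (H : Cpt p m J U)

/-- the coefficients -/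
def kap : ZMod m →+* Laz ⧸ J :=
  ZMod.castHom (ringChar.dvd (by
    rw [← map_natCast (Ideal.Quotient.mk J)]
    exact Ideal.Quotient.eq_zero_iff_mem.2 H.mem)) _

include H

theorem pl : PL p (Laz ⧸ J) := PL.of_hom p H.kap

/-- the law ring `Laz / J` -/
abbrev lr : LawRing (Laz ⧸ J) := LawRing.quotient J H.inv

theorem hom : letI := H.lr; IsLawHom (Ideal.Quotient.mk J) :=
  letI := H.lr; IsLawHom.of_epi LawRing.epi_laz rfl

theorem map_mem {n l : ℕ} (α : Fin (l + 1) → Fin (n + 1)) {z : Cob Laz l} (hz : z ∈ JC J l) :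
    Cob.map α z ∈ JC J n := by
  letI := H.lr
  rw [mem_JC, Cob.mapRing_map H.hom, mem_JC.1 hz, map_zero]

theorem d_mem {n : ℕ} {z : Cob Laz n} (hz : z ∈ JC J n) : Cob.d n z ∈ JC J (n + 1) := by
  letI := H.lr
  rw [mem_JC, Cob.mapRing_d H.hom, mem_JC.1 hz, map_zero]

theorem mapRing_pr {n : ℕ} (w : ℤ) (z : Cob Laz n) : letI := H.lr
    Cob.mapRing (Ideal.Quotient.mk J) n (Cob.pr Laz n w z) =
      Cob.pr (Laz ⧸ J) n w (Cob.mapRing (Ideal.Quotient.mk J) n z) :=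
  letI := H.lr
  (Cob.pr_comm (Cob.mapRing (Ideal.Quotient.mk J) n).toAddMonoidHom
    (fun _ _ hx => hx.mapRing H.hom) w z).symm

theorem pr_mem {n : ℕ} (w : ℤ) {z : Cob Laz n} (hz : z ∈ JC J n) : Cob.pr Laz n w z ∈ JC J n := by
  letI := H.lr
  rw [mem_JC, H.mapRing_pr, mem_JC.1 hz, map_zero]

theorem cm_JC {n : ℕ} {z : Cob Laz n} (hz : z ∈ JC J n) : cm p (ZMod m) n z ∈ JM (ZMod m) U := by
  have h : JC J n ≤ (JM (ZMod m) U).comap (cmp p (ZMod m) n) := by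
    rw [JC, Ideal.map_le_iff_le_comap]
    intro a ha
    rw [Ideal.mem_comap, Ideal.mem_comap, cmp_C]
    exact H.toU a ha
  exact h (H.map_mem _ hz)

/-- the section -/
def sc (n : ℕ) : Bi (ZMod m) →+* Cob (Laz ⧸ J) n :=
  letI := H.lr
  haveI := H.pl
  sec p H.kap n

theorem sc_JM {n : ℕ} {x : Bi (ZMod m)} (hx : x ∈ JM (ZMod m) U) : H.sc n x = 0 := by
  letI := H.lr
  have := H.pl
  refine evT_JM _ _ (H.ofU _ _ fun a ha => ?_) hx
  rw [← TP.ph_zero, hz_sS, ← law_act, ← H.hom.law, Law.map_map, Laz.law_eq, Laz.lift_map_univ,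
    RingHom.comp_apply, Ideal.Quotient.eq_zero_iff_mem.2 ha, map_zero]

theorem sc_cmp {n : ℕ} (z : Cob Laz n) : letI := H.lr; haveI := H.pl
    H.sc n (cmp p (ZMod m) n z) = evSeq MvPolynomial.C (Cob.mapRing (Ideal.Quotient.mk J) n z)
      (uS p MvPolynomial.C (seq (Cob.univ (Laz ⧸ J) n))) := by
  letI := H.lr
  have := H.pl
  have e : ∀ G : ℕ → strict (Cob (Laz ⧸ J) n),
      (ofSeq n (MvPolynomial.C : Laz ⧸ J →+* _) G).pre (Ideal.Quotient.mk J) =
        ofSeq n (MvPolynomial.C.comp (Ideal.Quotient.mk J)) G := fun G => by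
    ext1
    · exact H.hom.act _ _ _
    · rfl
  rw [sc, sec, evT_cmp, evSeq, Cob.ev_mapRing, e, Cob.univ_pt,
    chn_eq (x := MvPolynomial.C.comp (Ideal.Quotient.mk J)) _ fun j _ => G_sS _ _ j]
  rw [← TP.ph_zero, hz_sS, ← H.hom.law, Law.map_map]
  rfl

/-- `z` is the canonical lift of `x` -/
def Lift (n : ℕ) (x : Bi (ZMod m)) (z : Cob Laz n) : Prop :=
  Lev n x ∧ Cob.mapRing (Ideal.Quotient.mk J) n (rv Laz n z) = H.sc n x

variable {H}

theorem exists_lift {n : ℕ} {w : ℤ} {x : Bi (ZMod m)} (hl : Lev n x) (hx : Wt p w x) :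
    ∃ z, Cob.IsWt w z ∧ H.Lift n x z := by
  letI := H.lr
  have := H.pl
  obtain ⟨y, hy⟩ := Cob.mapRing_surjective (n := n) (Ideal.Quotient.mk_surjective (I := J))
    (H.sc n x)
  refine ⟨rv Laz n (Cob.pr Laz n w y), (Cob.isWt_pr w y).map _, hl, ?_⟩
  rw [rv_rv, H.mapRing_pr, hy]
  exact Cob.pr_eq_self (isWt_sec H.kap (fun _ _ => RingHom.ext_zmod) hx)

theorem Lift.add {n : ℕ} {x x' : Bi (ZMod m)} {z z' : Cob Laz n} (h : H.Lift n x z)
    (h' : H.Lift n x' z') : H.Lift n (x + x') (z + z') :=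
  ⟨h.1.add h'.1, by rw [map_add, map_add, map_add, h.2, h'.2]⟩

theorem Lift.sub {n : ℕ} {x x' : Bi (ZMod m)} {z z' : Cob Laz n} (h : H.Lift n x z)
    (h' : H.Lift n x' z') : H.Lift n (x - x') (z - z') :=
  ⟨h.1.sub h'.1, by rw [map_sub, map_sub, map_sub, h.2, h'.2]⟩

theorem Lift.mul {n : ℕ} {x x' : Bi (ZMod m)} {z z' : Cob Laz n} (h : H.Lift n x z)
    (h' : H.Lift n x' z') : H.Lift n (x * x') (z * z') :=
  ⟨h.1.mul h'.1, by rw [map_mul, map_mul, map_mul, h.2, h'.2]⟩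

theorem Lift.zsmul {n : ℕ} {x : Bi (ZMod m)} {z : Cob Laz n} (h : H.Lift n x z) (c : ℤ) :
    H.Lift n (c • x) (c • z) :=
  ⟨h.1.zsmul c, by rw [map_zsmul, map_zsmul, map_zsmul, h.2]⟩

theorem lift_one (n : ℕ) : H.Lift n 1 1 := ⟨lev_one n, by rw [map_one, map_one, map_one]⟩

theorem Lift.pow {n : ℕ} {x : Bi (ZMod m)} {z : Cob Laz n} (h : H.Lift n x z) (j : ℕ) :
    H.Lift n (x ^ j) (z ^ j) := by
  induction j with
  | zero => rw [pow_zero, pow_zero]; exact lift_one n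
  | succ j ih => rw [pow_succ, pow_succ]; exact ih.mul h

theorem Lift.mem {n : ℕ} {x : Bi (ZMod m)} {z : Cob Laz n} (h : H.Lift n x z)
    (hx : x ∈ JM (ZMod m) U) : z ∈ JC J n := by
  rw [← rv_rv z]
  exact H.map_mem _ (mem_JC.2 (h.2.trans (H.sc_JM hx)))

theorem Lift.congr {n : ℕ} {x x' : Bi (ZMod m)} {z z' : Cob Laz n} (h : H.Lift n x z)
    (hl : Lev n x') (hx : x - x' ∈ JM (ZMod m) U) (hz : z - z' ∈ JC J n) : H.Lift n x' z' := by
  have h1 := mem_JC.1 (H.map_mem Fin.rev hz)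
  have h2 := H.sc_JM (n := n) hx
  rw [map_sub, map_sub, sub_eq_zero] at h1
  rw [map_sub, sub_eq_zero] at h2
  exact ⟨hl, h1.symm.trans (h.2.trans h2)⟩

theorem Lift.d {n : ℕ} {x : Bi (ZMod m)} {z : Cob Laz n} (h : H.Lift n x z) :
    H.Lift (n + 1) (((-1 : ℤ) ^ (n + 1)) • dB p (ZMod m) n x) (Cob.d n z) := by
  letI := H.lr
  have := H.pl
  refine ⟨(h.1.dP _).zsmul _, ?_⟩
  rw [rv_d, map_zsmul, map_zsmul, Cob.mapRing_d H.hom, h.2]
  exact congrArg _ (d_sec H.kap (fun _ _ => RingHom.ext_zmod) h.1)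

theorem Lift.cup {s σ n : ℕ} (e : s + σ = n) (α : Fin (s + 1) → Fin (n + 1))
    (hα : ∀ i, (α i : ℕ) = i) (β : Fin (σ + 1) → Fin (n + 1)) (hβ : ∀ i, (β i : ℕ) = s + i)
    {x y : Bi (ZMod m)} {z : Cob Laz s} {b : Cob Laz σ} (h : H.Lift s x z) (h' : H.Lift σ y b) :
    H.Lift n (y * sh p (ZMod m) σ x) (Cob.map α z * Cob.map β b) := by
  letI := H.lr
  have := H.pl
  refine ⟨(h'.1.mono (by omega)).mul ((h.1.sh σ).mono e.le), ?_⟩
  rw [map_mul, map_mul, map_mul, mul_comm, rv_map, rv_map, Cob.mapRing_map H.hom,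
    Cob.mapRing_map H.hom, h.2, h'.2]
  congr 1
  · exact sec_front H.kap (fun _ _ => RingHom.ext_zmod) _ (fun i => by
      have := i.2
      rw [Fin.val_rev, hβ, Fin.val_rev]; omega) h'.1
  · exact sec_back H.kap (fun _ _ => RingHom.ext_zmod) _ (fun i => by
      have := i.2
      rw [Fin.val_rev, hα, Fin.val_rev]; omega) h.1

theorem Lift.cm_sub {n : ℕ} {x : Bi (ZMod m)} {z : Cob Laz n} (h : H.Lift n x z) :
    cm p (ZMod m) n z - x ∈ JM (ZMod m) U := by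
  letI := H.lr
  have := H.pl
  let π := Ideal.Quotient.mk (JM (ZMod m) U)
  have : PL p (Bi (ZMod m) ⧸ JM (ZMod m) U) := PL.of_hom p π
  let y := (uT p (ZMod m)).map π
  let x0 : Laz ⧸ J →+* Bi (ZMod m) ⧸ JM (ZMod m) U :=
    Ideal.Quotient.lift J (π.comp (Laz.lift (hz p (uT p (ZMod m)).φ))) fun a ha =>
      Ideal.Quotient.eq_zero_iff_mem.2 (H.toU a ha)
  have e0 : x0.comp (Ideal.Quotient.mk J) = Laz.lift (hz p y.φ) := by
    change π.comp _ = _
    rw [Laz.comp_lift, map_hz]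
    rfl
  have e1 : law.map x0 = hz p y.φ := by
    rw [← H.hom.law, Law.map_map, e0, Laz.law_eq, Laz.univ_map_lift]
  have e2 : (ofSeq n x0 y.G).pre (Ideal.Quotient.mk J) = chn n y := by
    ext1
    · exact (H.hom.act _ _ _).trans (by rw [e0]; rfl)
    · rfl
  have h1 := ev_sec_ofSeq (p := p) H.kap RingHom.ext_zmod x0 y.G h.1
  rw [h.1.evT_congr _ (agr_sS_of x0 y e1), RingHom.ext_zmod (x0.comp H.kap) (π.comp MvPolynomial.C),
    ← comp_evT, evT_uT, evSeq] at h1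
  rw [← Ideal.Quotient.eq, cm_apply, cmp, ← Cob.ev_map, chn_map, ← e2, ← Cob.ev_mapRing, h.2]
  exact h1

variable (H)

/-- injectivity of `cm` on cohomology, degree `0` -/
theorem inj_zero {z : Cob Laz 0} (hd : Cob.d 0 z ∈ JC J 1)
    (h : cm p (ZMod m) 0 z ∈ JM (ZMod m) U) : z ∈ JC J 0 := by
  letI := H.lr
  have := H.pl
  have h1 := ev_hZ_zero (p := p) MvPolynomial.C (seq (Cob.univ (Laz ⧸ J) 0))
    (Cob.mapRing (Ideal.Quotient.mk J) 0 (rv Laz 0 z))
  have h2 : Cob.d 0 (rv Laz 0 z) ∈ JC J 1 := by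
    have h3 := zsmul_mem (H.map_mem Fin.rev hd) ((-1 : ℤ) ^ (0 + 1))
    change _ • rv Laz 1 _ ∈ _ at h3
    rwa [rv_d, Zig.sq_sign] at h3
  rw [← H.sc_cmp, ← cm_apply, H.sc_JM h, ← Cob.mapRing_d H.hom, mem_JC.1 h2, map_zero, zero_sub,
    evSeq, evSeq, ← Cob.univ_pt, ofSeq_seq, Cob.ev_univ, Cob.ev_univ, eq_comm, neg_eq_zero] at h1
  rw [← rv_rv z]
  exact H.map_mem _ (mem_JC.2 h1)

/-- injectivity of `cm` on cohomology, positive degrees -/
theorem inj_succ {n : ℕ} {w : ℤ} {z : Cob Laz (n + 1)} (hz : Cob.IsWt w z)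
    (hd : Cob.d (n + 1) z ∈ JC J (n + 2)) {x : Bi (ZMod m)} (hx : Lev n x)
    (h : cm p (ZMod m) (n + 1) z - dB p (ZMod m) n x ∈ JM (ZMod m) U) :
    ∃ y, Cob.IsWt w y ∧ z - Cob.d n y ∈ JC J (n + 1) := by
  letI := H.lr
  have := H.pl
  have h1 := ev_hZ_succ (p := p) MvPolynomial.C (seq (Cob.univ (Laz ⧸ J) (n + 1)))
    (Cob.mapRing (Ideal.Quotient.mk J) (n + 1) (rv Laz (n + 1) z))
  have h2 : Cob.d (n + 1) (rv Laz (n + 1) z) ∈ JC J (n + 2) := by
    have h3 := zsmul_mem (H.map_mem Fin.rev hd) ((-1 : ℤ) ^ (n + 1 + 1))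
    change _ • rv Laz (n + 2) _ ∈ _ at h3
    rwa [rv_d, Zig.sq_sign] at h3
  have h4 := H.sc_JM (n := n + 1) h
  rw [map_sub, sub_eq_zero] at h4
  have h5 : H.sc (n + 1) (dB p (ZMod m) n x) = Cob.d n (H.sc n x) :=
    (d_sec H.kap (fun _ _ => RingHom.ext_zmod) hx).symm
  rw [← H.sc_cmp, ← cm_apply, h4, h5, ← Cob.mapRing_d H.hom, mem_JC.1 h2, map_zero, zero_add,
    evSeq, evSeq, ← Cob.univ_pt, ofSeq_seq, Cob.ev_univ, Cob.ev_univ] at h1
  obtain ⟨y, hy⟩ := Cob.mapRing_surjective (n := n) (Ideal.Quotient.mk_surjective (I := J))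
    (H.sc n x - hZ p _ n (Cob.mapRing (Ideal.Quotient.mk J) (n + 1) (rv Laz (n + 1) z)))
  have h6 : rv Laz (n + 1) z - Cob.d n y ∈ JC J (n + 1) := by
    rw [mem_JC, map_sub, Cob.mapRing_d H.hom, hy, map_sub, h1, sub_sub_cancel, sub_self]
  have h7 := H.pr_mem w (H.map_mem Fin.rev h6)
  change Cob.pr Laz (n + 1) w (rv Laz (n + 1) _) ∈ _ at h7
  rw [map_sub, rv_rv, rv_d, map_sub, Cob.pr_eq_self hz, ← map_zsmul, Cob.pr_d] at h7
  exact ⟨_, Cob.isWt_pr w _, h7⟩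

end Cpt

end Vale.Agent.P236K.Alg
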