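import Mathlib.Algebra.Group.Subgroup.Map
import Mathlib.Algebra.Group.Subgroup.Lattice
import Mathlib.Algebra.Module.NatInt
import Mathlib.Algebra.Ring.Int.Defs
import Mathlib.Tactic.Abel
import Mathlib.Tactic.Ring

/-!
# P236K / Alg / Zig : the zig-zag in a double complex `K a r / K' a r`

Rows `r ≥ 1` are contractible (`σ`), columns `a ≥ 1` are exact in a range (`Col`).
`Psi a r : K a r → K 0 (a + r)` compares the row `r = 0` with the column `a = 0`.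
-/

namespace Vale.Agent.P236K.Alg

/-- a double complex of subquotients of one group -/
structure Zig (M : Type) [AddCommGroup M] where
  /-- the groups -/
  K : ℕ → ℕ → AddSubgroup M
  /-- the negligible subgroups -/
  K' : ℕ → ℕ → AddSubgroup M
  /-- horizontal maps -/
  h : ℕ → M →+ M
  /-- vertical maps -/
  v : ℕ → ℕ → M →+ M
  /-- contraction of the rows -/
  σ : ℕ → M →+ M
  h_K : ∀ {a r y}, y ∈ K a r → h a y ∈ K (a + 1) r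
  h_K' : ∀ {a r y}, y ∈ K' a r → h a y ∈ K' (a + 1) r
  v_K : ∀ {a r y}, y ∈ K a r → v a r y ∈ K a (r + 1)
  v_K' : ∀ {a r y}, y ∈ K' a r → v a r y ∈ K' a (r + 1)
  σ_K : ∀ {a r y}, y ∈ K (a + 1) (r + 1) → σ a y ∈ K a (r + 1)
  σ_K' : ∀ {a r y}, y ∈ K' (a + 1) (r + 1) → σ a y ∈ K' a (r + 1)
  hh : ∀ {a r y}, y ∈ K a r → h (a + 1) (h a y) = 0
  hv : ∀ {a r y}, y ∈ K a r → v (a + 1) r (h a y) = h a (v a r y)
  vv : ∀ {a r y}, y ∈ K a r → v a (r + 1) (v a r y) ∈ K' a (r + 2)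
  σh0 : ∀ {r y}, y ∈ K 0 (r + 1) → σ 0 (h 0 y) = y
  σh : ∀ {a r y}, y ∈ K (a + 1) (r + 1) →
    σ (a + 1) (h (a + 1) y) = h a (σ a y) + ((-1 : ℤ) ^ (a + 1)) • y

namespace Zig

variable {M : Type} [AddCommGroup M] (Z : Zig M)

/-- horizontal boundaries -/
def Hs : ℕ → ℕ → AddSubgroup M
  | 0, _ => ⊥
  | a + 1, r => (Z.K a r).map (Z.h a)

/-- vertical boundaries -/
def Vs (a : ℕ) : ℕ → AddSubgroup M
  | 0 => ⊥
  | r + 1 => (Z.K a r).map (Z.v a r)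

/-- the trivial elements of a corner -/
def T (a r : ℕ) : AddSubgroup M := Z.Hs a r ⊔ Z.Vs a r ⊔ Z.K' a r

/-- the cycles of a corner -/
def Y (a r : ℕ) (y : M) : Prop := y ∈ Z.K a r ∧ Z.h a (Z.v a r y) ∈ Z.K' (a + 1) (r + 1)

/-- exactness of the columns `a ≥ 1` in the row `r` -/
def Col (r : ℕ) : Prop :=
  ∀ a y, y ∈ Z.K (a + 1) r → Z.v (a + 1) r y ∈ Z.K' (a + 1) (r + 1) →
    y ∈ Z.Vs (a + 1) r ⊔ Z.K' (a + 1) r

/-- one step of the zig-zag -/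
def φ (a r : ℕ) : M →+ M := (Z.σ a).comp (Z.v (a + 1) r)

theorem φ_apply (a r : ℕ) (y : M) : Z.φ a r y = Z.σ a (Z.v (a + 1) r y) := rfl

/-- the comparison map -/
def Psi : ℕ → ℕ → M →+ M
  | 0, _ => AddMonoidHom.id M
  | a + 1, r => (Psi a (r + 1)).comp (Z.φ a r)

theorem Psi_zero (r : ℕ) (y : M) : Z.Psi 0 r y = y := rfl
theorem Psi_succ (a r : ℕ) (y : M) : Z.Psi (a + 1) r y = Z.Psi a (r + 1) (Z.φ a r y) := rfl

variable {Z}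

theorem sq_sign (a : ℕ) (y : M) : ((-1 : ℤ) ^ a) • ((-1 : ℤ) ^ a) • y = y := by
  rw [smul_smul, ← mul_pow]
  simp

theorem φ_K {a r : ℕ} {y : M} (hy : y ∈ Z.K (a + 1) r) : Z.φ a r y ∈ Z.K a (r + 1) :=
  Z.σ_K (Z.v_K hy)

theorem φ_K' {a r : ℕ} {y : M} (hy : y ∈ Z.K' (a + 1) r) : Z.φ a r y ∈ Z.K' a (r + 1) :=
  Z.σ_K' (Z.v_K' hy)

theorem mem_T_K' {a r : ℕ} {y : M} (hy : y ∈ Z.K' a r) : y ∈ Z.T a r := AddSubgroup.mem_sup_right hy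

theorem mem_T_H {a r : ℕ} {y : M} (hy : y ∈ Z.Hs a r) : y ∈ Z.T a r :=
  AddSubgroup.mem_sup_left (AddSubgroup.mem_sup_left hy)

theorem mem_T_V {a r : ℕ} {y : M} (hy : y ∈ Z.Vs a r) : y ∈ Z.T a r :=
  AddSubgroup.mem_sup_left (AddSubgroup.mem_sup_right hy)

theorem mem_T {a r : ℕ} {y : M} (hy : y ∈ Z.T a r) :
    ∃ z1 ∈ Z.Hs a r, ∃ z2 ∈ Z.Vs a r, y - z1 - z2 ∈ Z.K' a r := by
  obtain ⟨u, hu, z3, h3, rfl⟩ := AddSubgroup.mem_sup.1 hy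
  obtain ⟨z1, h1, z2, h2, rfl⟩ := AddSubgroup.mem_sup.1 hu
  refine ⟨z1, h1, z2, h2, ?_⟩
  rwa [show z1 + z2 + z3 - z1 - z2 = z3 by abel]

theorem σ_h {a r : ℕ} {y : M} (hy : y ∈ Z.K a (r + 1)) :
    Z.σ a (Z.h a y) - ((-1 : ℤ) ^ a) • y ∈ Z.Hs a (r + 1) := by
  cases a with
  | zero =>
    rw [Z.σh0 hy, pow_zero, one_smul, sub_self]
    exact zero_mem _
  | succ a =>
    rw [Z.σh hy, add_sub_cancel_right]
    exact ⟨_, Z.σ_K hy, rfl⟩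

theorem h_Hs {a r : ℕ} {y : M} (hy : y ∈ Z.Hs a r) : Z.h a y = 0 := by
  cases a with
  | zero => rw [AddSubgroup.mem_bot.1 hy, map_zero]
  | succ a =>
    obtain ⟨u, hu, rfl⟩ := hy
    exact Z.hh hu

theorem v_Vs {a r : ℕ} {y : M} (hy : y ∈ Z.Vs a r) : Z.v a r y ∈ Z.K' a (r + 1) := by
  cases r with
  | zero =>
    rw [AddSubgroup.mem_bot.1 hy, map_zero]
    exact zero_mem _
  | succ r =>
    obtain ⟨u, hu, rfl⟩ := hy
    exact Z.vv hu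

theorem Y.v_sub {a r : ℕ} {y : M} (hy : Z.Y (a + 1) r y) :
    Z.v (a + 1) r y - ((-1 : ℤ) ^ a) • Z.h a (Z.φ a r y) ∈ Z.K' (a + 1) (r + 1) := by
  have h1 := Z.σ_K' hy.2
  rw [Z.σh (Z.v_K hy.1)] at h1
  have h2 := zsmul_mem h1 ((-1 : ℤ) ^ (a + 1))
  rw [smul_add, sq_sign, pow_succ, mul_neg_one, neg_smul] at h2
  rwa [φ_apply, sub_eq_neg_add]

theorem Y.φ {a r : ℕ} {y : M} (hy : Z.Y (a + 1) r y) : Z.Y a (r + 1) (Z.φ a r y) := by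
  refine ⟨φ_K hy.1, ?_⟩
  have h1 := Z.v_K' hy.v_sub
  rw [map_sub, map_zsmul, Z.hv (φ_K hy.1)] at h1
  have h2 := zsmul_mem (sub_mem (Z.vv hy.1) h1) ((-1 : ℤ) ^ a)
  rwa [sub_sub_cancel, sq_sign] at h2

theorem φ_T {a r : ℕ} {y : M} (hy : y ∈ Z.T (a + 1) r) : Z.φ a r y ∈ Z.T a (r + 1) := by
  obtain ⟨_, ⟨u, hu, rfl⟩, z2, h2, h3⟩ := mem_T hy
  have e : Z.φ a r y = (Z.σ a (Z.h a (Z.v a r u)) - ((-1 : ℤ) ^ a) • Z.v a r u) +
      ((-1 : ℤ) ^ a) • Z.v a r u + Z.σ a (Z.v (a + 1) r z2) + Z.φ a r (y - Z.h a u - z2) := by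
    rw [map_sub, map_sub, φ_apply Z a r (Z.h a u), Z.hv hu, φ_apply Z a r z2]
    abel
  rw [e]
  exact add_mem (add_mem (add_mem (mem_T_H (σ_h (Z.v_K hu)))
    (mem_T_V (zsmul_mem (show _ ∈ Z.Vs a (r + 1) from ⟨u, hu, rfl⟩) _)))
    (mem_T_K' (Z.σ_K' (v_Vs h2)))) (mem_T_K' (φ_K' h3))

theorem T_of_φ {a r : ℕ} (hc : Z.Col r) {y : M} (hy : Z.Y (a + 1) r y)
    (h : Z.φ a r y ∈ Z.T a (r + 1)) : y ∈ Z.T (a + 1) r := by
  obtain ⟨z1, h1, _, ⟨u, hu, rfl⟩, h3⟩ := mem_T h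
  have h4 := Z.h_K' h3
  rw [map_sub, map_sub, h_Hs h1, sub_zero, ← Z.hv hu] at h4
  have h5 : Z.v (a + 1) r (y - ((-1 : ℤ) ^ a) • Z.h a u) ∈ Z.K' (a + 1) (r + 1) := by
    have h6 := add_mem hy.v_sub (zsmul_mem h4 ((-1 : ℤ) ^ a))
    rwa [smul_sub, sub_add_sub_cancel, ← map_zsmul, ← map_sub] at h6
  have h7 := hc a _ (sub_mem hy.1 (zsmul_mem (Z.h_K hu) _)) h5
  rw [← sub_add_cancel y (((-1 : ℤ) ^ a) • Z.h a u)]
  refine add_mem ?_ (mem_T_H (zsmul_mem (show _ ∈ Z.Hs (a + 1) r from ⟨u, hu, rfl⟩) _))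
  exact (sup_le (fun _ => mem_T_V) fun _ => mem_T_K' : _ ≤ Z.T (a + 1) r) h7

theorem exists_φ {a r : ℕ} (hc : Z.Col (r + 1)) {y : M} (hy : Z.Y a (r + 1) y) :
    ∃ x, Z.Y (a + 1) r x ∧ Z.φ a r x - y ∈ Z.T a (r + 1) := by
  have h1 := hc a _ (Z.h_K hy.1) (by rw [Z.hv hy.1]; exact hy.2)
  obtain ⟨_, ⟨u, hu, rfl⟩, z, hz, e⟩ := AddSubgroup.mem_sup.1 h1
  have e' : Z.v (a + 1) r u = Z.h a y - z := eq_sub_of_add_eq e
  refine ⟨((-1 : ℤ) ^ a) • u, ⟨zsmul_mem hu _, ?_⟩, ?_⟩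
  · rw [map_zsmul, map_zsmul, e', map_sub, Z.hh hy.1, zero_sub]
    exact zsmul_mem (neg_mem (Z.h_K' hz)) _
  · have e2 : Z.φ a r (((-1 : ℤ) ^ a) • u) - y =
        ((-1 : ℤ) ^ a) • (Z.σ a (Z.h a y) - ((-1 : ℤ) ^ a) • y) - ((-1 : ℤ) ^ a) • Z.σ a z := by
      rw [map_zsmul, φ_apply, e', map_sub, smul_sub, smul_sub, sq_sign]
      abel
    rw [e2]
    exact sub_mem (mem_T_H (zsmul_mem (σ_h hy.1) _)) (mem_T_K' (zsmul_mem (Z.σ_K' hz) _))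

theorem Psi_K {a r : ℕ} {y : M} (hy : y ∈ Z.K a r) : Z.Psi a r y ∈ Z.K 0 (a + r) := by
  induction a generalizing r y with
  | zero => rwa [zero_add]
  | succ a ih => rw [show a + 1 + r = a + (r + 1) by ring]; exact ih (φ_K hy)

theorem Psi_K' {a r : ℕ} {y : M} (hy : y ∈ Z.K' a r) : Z.Psi a r y ∈ Z.K' 0 (a + r) := by
  induction a generalizing r y with
  | zero => rwa [zero_add]
  | succ a ih => rw [show a + 1 + r = a + (r + 1) by ring]; exact ih (φ_K' hy)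

theorem Y.Psi {a r : ℕ} {y : M} (hy : Z.Y a r y) : Z.Y 0 (a + r) (Z.Psi a r y) := by
  induction a generalizing r y with
  | zero => rwa [zero_add]
  | succ a ih => rw [show a + 1 + r = a + (r + 1) by ring]; exact ih hy.φ

theorem Psi_T {a r : ℕ} {y : M} (hy : y ∈ Z.T a r) : Z.Psi a r y ∈ Z.T 0 (a + r) := by
  induction a generalizing r y with
  | zero => rwa [zero_add]
  | succ a ih => rw [show a + 1 + r = a + (r + 1) by ring]; exact ih (φ_T hy)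

theorem T_of_Psi {a r : ℕ} (hc : ∀ r' < a + r, Z.Col r') {y : M} (hy : Z.Y a r y)
    (h : Z.Psi a r y ∈ Z.T 0 (a + r)) : y ∈ Z.T a r := by
  induction a generalizing r y with
  | zero => rwa [zero_add] at h
  | succ a ih =>
    rw [show a + 1 + r = a + (r + 1) by ring] at h hc
    exact T_of_φ (hc r (by omega)) hy (ih hc hy.φ h)

theorem exists_Psi {a r : ℕ} (hc : ∀ r' ≤ a + r, Z.Col r') {y : M} (hy : Z.Y 0 (a + r) y) :
    ∃ x, Z.Y a r x ∧ Z.Psi a r x - y ∈ Z.T 0 (a + r) := by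
  induction a generalizing r with
  | zero =>
    rw [zero_add] at hy
    exact ⟨y, hy, by rw [Psi_zero, sub_self]; exact zero_mem _⟩
  | succ a ih =>
    rw [show a + 1 + r = a + (r + 1) by ring] at hy hc ⊢
    obtain ⟨x, hx, h1⟩ := ih hc hy
    obtain ⟨u, hu, h2⟩ := exists_φ (hc (r + 1) (by omega)) hx
    refine ⟨u, hu, ?_⟩
    have h3 := add_mem (Psi_T h2) h1
    rwa [map_sub, sub_add_sub_cancel] at h3

theorem Psi_h {a r : ℕ} {y : M} (hy : y ∈ Z.K a r) :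
    Z.Psi (a + 1) r (Z.h a y) - Z.v 0 (a + r) (Z.Psi a r y) ∈ Z.K' 0 (a + r + 1) := by
  induction a generalizing r y with
  | zero =>
    rw [Psi_succ, Psi_zero, Psi_zero, φ_apply, Z.hv hy, Z.σh0 (Z.v_K hy), zero_add, sub_self]
    exact zero_mem _
  | succ a ih =>
    have h1 := ih (φ_K hy)
    have h2 := zsmul_mem (Psi_K' (Z.σ_K' (Z.vv hy))) ((-1 : ℤ) ^ (a + 1))
    rw [show a + (r + 1 + 1) = a + (r + 1) + 1 by ring] at h2
    have h3 := add_mem h1 h2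
    rw [show a + 1 + r = a + (r + 1) by ring, Psi_succ Z (a + 1), φ_apply, Z.hv hy,
      Z.σh (Z.v_K hy), map_add, map_zsmul, Psi_succ Z a r, Psi_succ Z a (r + 1) (Z.v (a + 1) r y),
      add_sub_right_comm]
    exact h3

end Zig

end Vale.Agent.P236K.Alg
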