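import Vale.Agent.P236K.Alg.Phi
import Vale.Agent.P236K.Alg.Zig

/-!
# P236K / Alg / Col : the double complex of twisting data, exactness of the columns
-/

set_option linter.unusedSectionVars false

noncomputable section

namespace Vale.Agent.P236K.Alg

open Vale.Agent.P251.F MvPolynomial

section cf

variable {p : ℕ} {k : Type} [CommRing k]

variable (k) in
/-- polynomials with coefficients in the variables of level `n` -/
def spq (n : ℕ) : Bi k →+* Bi (Av k) :=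
  eval₂Hom (C.comp C) fun ji => if ji.1 = n then C (X ji.2) else X ji

theorem Lev.spq {n : ℕ} {z : Bi k} (hz : Lev n z) : spq k (n + 1) z = map C z :=
  hz.hom_ext (RingHom.ext fun c => by simp [Alg.spq]) fun ji h => by
    rw [Alg.spq, eval₂Hom_X', if_neg (by omega), map_X]

theorem spq_lv (n : ℕ) (q : Av k) : spq k n (lv k n q) = C q := by
  have h : (spq k n).comp (lv k n) = C :=
    ringHom_ext (fun c => by simp [spq]) fun i => by simp [spq]
  exact RingHom.congr_fun h q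

/-- the coefficient of the monomial `m` in the variables of level different from `n` -/
def cf (n : ℕ) (m : Ex2) : Bi k →+ Av k := (coeffAddMonoidHom m).comp (spq k n).toAddMonoidHom

theorem cf_mul {n : ℕ} {x : Bi k} (hx : Lev n x) (m : Ex2) (q : Av k) :
    cf (n + 1) m (x * lv k (n + 1) q) = C (coeff m x) * q := by
  change coeff m (spq k (n + 1) _) = _
  rw [map_mul, hx.spq, spq_lv, mul_comm, coeff_C_mul, coeff_map, mul_comm]

theorem cf_eq_zero {n : ℕ} {z : Bi k} (hz : Lev (n + 1) z) {m : Ex2}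
    (h : ∀ m0 ∈ z.support, off (n + 1) m0 ≠ m) : cf (n + 1) m z = 0 := by
  classical
  rw [z.as_sum, map_sum]
  refine Finset.sum_eq_zero fun m0 hm => ?_
  rw [monomial_split (n + 1), cf_mul (lev_off hz hm _), coeff_monomial, if_neg (h m0 hm), C_0,
    zero_mul]

theorem cf_JM {n : ℕ} {z : Bi k} (hz : Lev (n + 1) z) {U : UpperSet Ex} (hU : z ∈ JM k U)
    {m : Ex2} (h : on 0 m ∉ U) : cf (n + 1) m z = 0 :=
  cf_eq_zero hz fun m0 hm e => h (by
    rw [← e, on_off (by omega)]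
    exact mem_JM.1 hU m0 hm)

theorem cf_wt {U : UpperSet Ex} {n : ℕ} {w : ℤ} {z : Bi k} (hz : z ∈ CK p k U (n + 1) w)
    (m : Ex2) : WA p (w - Finsupp.weight (wB p) m) (cf (n + 1) m z) := by
  refine CK.ind (P := fun z => WA p (w - Finsupp.weight (wB p) m) (cf (n + 1) m z)) ?_
    (fun x y hx hy => ?_) (fun x b hx => ?_) hz
  · rw [map_zero]; exact isWeightedHomogeneous_zero _ _ _
  · rw [map_add]; exact hx.add hy
  · rw [cf_mul hx.1, C_mul_monomial]
    by_cases h : coeff m x = 0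
    · rw [h, zero_mul, monomial_zero]; exact isWeightedHomogeneous_zero _ _ _
    · refine isWeightedHomogeneous_monomial _ _ _ ?_
      rw [hx.2.1 h, sub_sub_cancel]
      rfl

theorem sum_cf {n : ℕ} {z : Bi k} (hz : Lev (n + 1) z) {F : Finset Ex2}
    (hF : ∀ m0 ∈ z.support, off (n + 1) m0 ∈ F) :
    ∑ m ∈ F, monomial m 1 * lv k (n + 1) (cf (n + 1) m z) = z := by
  classical
  conv_rhs => rw [z.as_sum]
  conv_lhs => rw [z.as_sum]
  simp only [map_sum, Finset.mul_sum]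
  rw [Finset.sum_comm]
  refine Finset.sum_congr rfl fun m0 hm => ?_
  rw [Finset.sum_eq_single_of_mem _ (hF m0 hm)]
  · rw [monomial_split (n + 1) m0, cf_mul (lev_off hz hm _), coeff_monomial, if_pos rfl, map_mul,
      lv_C, ← mul_assoc, mul_comm _ (C _), C_mul_monomial, mul_one]
  · intro m _ hne
    rw [monomial_split (n + 1) m0, cf_mul (lev_off hz hm _), coeff_monomial, if_neg hne.symm, C_0,
      zero_mul, map_zero, mul_zero]

variable [hp : Fact p.Prime]

theorem degree_le_wE (b : Ex) : ((Finsupp.degree b : ℕ) : ℤ) ≤ wE p b := by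
  induction b using Finsupp.induction_linear with
  | zero => simp
  | add f g hf hg => rw [map_add, map_add, Nat.cast_add]; exact add_le_add hf hg
  | single i e =>
    rw [Finsupp.degree_single, wE, Finsupp.weight_single, nsmul_eq_mul, wz]
    have h : 2 ≤ p ^ (i + 1) := Nat.one_lt_pow (Nat.succ_ne_zero i) hp.out.one_lt
    exact le_mul_of_one_le_right (Int.natCast_nonneg e) (by omega)

theorem degree_le_weight (m : Ex2) :
    ((Finsupp.degree (on 0 m) : ℕ) : ℤ) ≤ Finsupp.weight (wB p) m := by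
  have h1 := weight_off (p := p) 0 m
  have h2 := weight_nonneg (p := p) (off 0 m)
  have h3 := degree_le_wE (p := p) (on 0 m)
  omega

variable [PL p k]

theorem err_mem (h0 : (p : k) = 0) (n : ℕ) (l : Ex → Av k) (q : Av k) :
    be1 p k n (op p l (mA C q)) - lv k (n + 1) (op0 p (fun b => cc k (l b)) q) ∈ JM k (Ud 1) := by
  have e : ∀ q : Av k, mA (cc k) (mA C q) = q := fun q => by
    have h : (mA (cc k)).comp (mA C) = RingHom.id (Av k) :=
      ringHom_ext (fun c => by simp) fun i => by simp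
    exact RingHom.congr_fun h q
  rw [← be1_mA (p := p), ← map_sub]
  refine be1_mem_JM (fun a ha => (inv_Ud h0 1).al_mem n ha)
    (mem_map_C_iff.2 fun b => mem_JA_one.2 ?_)
  rw [← coeff_mA, map_sub, red_op h0, e, e, sub_self, coeff_zero]

theorem cf_v (h0 : (p : k) = 0) {U V : UpperSet Ex} (hUV : ∀ e ∈ U, ∀ e' ∈ Ud 1, e + e' ∈ V)
    {n : ℕ} {w : ℤ} {z : Bi k} (hz : z ∈ CK p k U (n + 1) w) (l : Ex → Av k) {m : Ex2}
    (hm : on 0 m ∉ V) : cf (n + 1) m (Ph1 p l (n + 1) (D p k (n + 1) z)) =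
      op0 p (fun b => cc k (l b)) (cf (n + 1) m z) := by
  refine CK.ind (P := fun z => cf (n + 1) m (Ph1 p l (n + 1) (D p k (n + 1) z)) =
    op0 p (fun b => cc k (l b)) (cf (n + 1) m z)) ?_ (fun x y hx hy => ?_) (fun x b hx => ?_) hz
  · simp only [map_zero]
  · simp only [map_add, hx, hy]
  · have h1 := cf_JM ((hx.1.mono (Nat.le_succ n)).mul ((lev_be1 n _).sub (lev_lv _ _)))
      (mul_mem_JM hUV hx.2.2 (err_mem h0 n l (monomial b 1))) hm
    rw [mul_sub, map_sub, sub_eq_zero, cf_mul hx.1] at h1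
    rw [cf_mul hx.1, ← be1_mA (p := p), Ph1_D_mul hx.1, h1, ← smul_eq_C_mul, ← smul_eq_C_mul,
      map_smul]

end cf

namespace Tw

variable (p : ℕ) {k G : Type} [CommRing k] [hp : Fact p.Prime] [PL p k] [Fintype G]
  [DecidableEq G] (τ : Tw k G)

/-- apply the twisting data to the `n`-th isomorphism -/
def Phi (n : ℕ) : (G → Bi k) →+ (G → Bi k) where
  toFun y h := ∑ g, Ph1 p (τ.lam g h) n (y g)
  map_zero' := by
    funext h
    simp
  map_add' x y := by
    funext h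
    simp [Finset.sum_add_distrib]

theorem Phi_apply (n : ℕ) (y : G → Bi k) (h : G) :
    τ.Phi p n y h = ∑ g, Ph1 p (τ.lam g h) n (y g) := rfl

/-- the vertical differential -/
def vB (a : ℕ) : (G → Bi k) →+ (G → Bi k) :=
  (τ.Phi p a).comp ((D p k a).toAddMonoidHom.compLeft G)

theorem vB_apply (a : ℕ) (y : G → Bi k) (h : G) :
    τ.vB p a y h = ∑ g, Ph1 p (τ.lam g h) a (D p k a (y g)) := rfl

/-- the groups of the double complex -/
def KK (U : UpperSet Ex) (a s : ℕ) (w : ℤ) : AddSubgroup (G → Bi k) where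
  carrier := {y | ∀ g, (τ.sd g ≠ s → y g = 0) ∧ y g ∈ CK p k U a (w - τ.dg g)}
  zero_mem' := fun _ => ⟨fun _ => rfl, zero_mem _⟩
  add_mem' := fun {x y} hx hy g => ⟨fun h => by
    rw [Pi.add_apply, (hx g).1 h, (hy g).1 h, add_zero], add_mem (hx g).2 (hy g).2⟩
  neg_mem' := fun {x} hx g => ⟨fun h => by rw [Pi.neg_apply, (hx g).1 h, neg_zero],
    neg_mem (hx g).2⟩

/-- the unit generator -/
def sg : Bi k →+ (G → Bi k) := AddMonoidHom.single (fun _ => Bi k) τ.g0

theorem sg_apply (x : Bi k) : τ.sg x = Pi.single τ.g0 x := rfl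

/-- the groups of the augmented double complex -/
def ZK (U : UpperSet Ex) (w : ℤ) : ℕ → ℕ → AddSubgroup (G → Bi k)
  | 0, 0 => ⊥
  | a + 1, 0 => (CK p k U a w).map τ.sg
  | a, s + 1 => τ.KK p U a s w

/-- the vertical maps of the augmented double complex -/
def Zv (a : ℕ) : ℕ → (G → Bi k) →+ (G → Bi k)
  | 0 => AddMonoidHom.id _
  | _ + 1 => τ.vB p a

variable {p τ}

theorem ZK_succ (U : UpperSet Ex) (w : ℤ) (a s : ℕ) : τ.ZK p U w a (s + 1) = τ.KK p U a s w := by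
  cases a <;> rfl

theorem KK.of_JM {U V : UpperSet Ex} {a s : ℕ} {w : ℤ} {y : G → Bi k} (hy : y ∈ τ.KK p U a s w)
    (h : ∀ g, y g ∈ JM k V) : y ∈ τ.KK p V a s w :=
  fun g => ⟨(hy g).1, (hy g).2.1, (hy g).2.2.1, h g⟩

theorem KK.comp {U : UpperSet Ex} {a a' s : ℕ} {w : ℤ} {y : G → Bi k} (hy : y ∈ τ.KK p U a s w)
    (f : Bi k →+ Bi k) (hf : ∀ u z, z ∈ CK p k U a u → f z ∈ CK p k U a' u) :
    f.compLeft G y ∈ τ.KK p U a' s w :=
  fun g => ⟨fun h => by
    change f (y g) = 0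
    rw [(hy g).1 h, map_zero], hf _ _ (hy g).2⟩

theorem compLeft_sg (f : Bi k →+ Bi k) (x : Bi k) : f.compLeft G (τ.sg x) = τ.sg (f x) := by
  funext g
  change f (Pi.single (M := fun _ => Bi k) τ.g0 x g) = Pi.single (M := fun _ => Bi k) τ.g0 (f x) g
  rw [Pi.single_apply, Pi.single_apply]
  split_ifs
  · rfl
  · exact map_zero f

variable {N : ℤ} {A : UpperSet Ex}

theorem Ok.sg_mem (H : τ.Ok p N A) {U : UpperSet Ex} {a : ℕ} {w : ℤ} {x : Bi k} :
    τ.sg x ∈ τ.KK p U a 0 w ↔ x ∈ CK p k U a w := by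
  constructor
  · intro h
    have h1 := (h τ.g0).2
    rwa [H.dg0, sub_zero, sg_apply, Pi.single_eq_same] at h1
  · intro h g
    by_cases hg : g = τ.g0
    · subst hg
      rw [H.dg0, sub_zero, sg_apply, Pi.single_eq_same]
      exact ⟨fun h1 => absurd H.sd0 h1, h⟩
    · rw [sg_apply, Pi.single_eq_of_ne hg]
      exact ⟨fun _ => rfl, zero_mem _⟩

theorem Ok.Phi_mem (H : τ.Ok p N A) {U : UpperSet Ex} {a s : ℕ} {w : ℤ} {y : G → Bi k}
    (hy : y ∈ τ.KK p U (a + 1) s w) : τ.Phi p a y ∈ τ.KK p U a (s + 1) w := by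
  intro h
  rw [Phi_apply]
  refine ⟨fun h1 => Finset.sum_eq_zero fun g _ => ?_, sum_mem fun g _ => ?_⟩
  · by_cases hg : τ.sd g = s
    · rw [show τ.lam g h = fun _ => 0 from funext fun b => H.sd_lam g h b (by rwa [hg]), Ph1_zero]
    · rw [(hy g).1 hg, map_zero]
  · have h2 := Ph1_CK (c := τ.dg g - τ.dg h) (l := τ.lam g h)
      (fun b => by rw [← add_sub_assoc]; exact H.wt_lam g h b) (hy g).2
    rwa [sub_add_sub_cancel] at h2

theorem Ok.vB_mem (H : τ.Ok p N A) {U : UpperSet Ex} (hU : Inv p k U) {a s : ℕ} {w : ℤ}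
    {y : G → Bi k} (hy : y ∈ τ.KK p U a s w) : τ.vB p a y ∈ τ.KK p U a (s + 1) w :=
  H.Phi_mem (KK.comp hy _ fun _ _ hz => hU.D_CK a hz)

theorem Ok.vB_sg (H : τ.Ok p N A) {a : ℕ} {x : Bi k} (hx : Lev a x) :
    τ.vB p (a + 1) (τ.sg x) = 0 := by
  funext h
  rw [vB_apply, Finset.sum_eq_single τ.g0, sg_apply, Pi.single_eq_same,
    D_of_lev (Nat.lt_succ_self a) hx, Ph1_of_lev (hx.mono (Nat.le_succ a)), H.lam0, map_zero,
    mul_zero, Pi.zero_apply]
  · intro g _ hg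
    rw [sg_apply, Pi.single_eq_of_ne hg, map_zero, map_zero]
  · intro h1
    exact absurd (Finset.mem_univ _) h1

theorem vB_vB {a : ℕ} {y : G → Bi k} (hy : ∀ g, Lev a (y g)) (l : G) :
    τ.vB p a (τ.vB p a y) l = ∑ g, Ph1 p (τ.tau p g l) a (D p k a (y g)) := by
  simp only [vB_apply, map_sum]
  rw [Finset.sum_comm]
  refine Finset.sum_congr rfl fun g _ => ?_
  rw [show τ.tau p g l = fun b => ∑ h, conv p (τ.lam h l) (τ.lam g h) b from rfl, Ph1_sum]
  refine Finset.sum_congr rfl fun h _ => ?_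
  rw [← Ph1_D le_rfl, ← D_D le_rfl, Ph1_conv ((hy g).D a)]

/-- the hypotheses on the ideals `A`, `B`, `E` and on the weight -/
structure Hyp (τ : Tw k G) (N : ℤ) (A B E : UpperSet Ex) (w : ℤ) : Prop where
  char : (p : k) = 0
  ok : τ.Ok p N A
  invA : Inv p k A
  invB : Inv p k B
  invE : Inv p k E
  add : ∀ e ∈ B, ∀ e' ∈ A, e + e' ∈ E
  le : w ≤ N

variable {B E : UpperSet Ex} {w : ℤ}

theorem Hyp.vv (H : Hyp (p := p) τ N A B E w) {a s : ℕ} {y : G → Bi k} (hy : y ∈ τ.KK p B a s w) :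
    τ.vB p a (τ.vB p a y) ∈ τ.KK p E a (s + 2) w := by
  refine KK.of_JM (H.ok.vB_mem H.invB (H.ok.vB_mem H.invB hy)) fun l => ?_
  rw [vB_vB fun g => (hy g).2.1]
  refine sum_mem fun g _ => ?_
  refine CK.ind (P := fun z => Ph1 p (τ.tau p g l) a z ∈ JM k E) ?_ (fun x y hx hy => ?_)
    (fun x b hx => ?_) (H.invB.D_CK a (hy g).2)
  · rw [map_zero]; exact zero_mem _
  · rw [map_add]; exact add_mem hx hy
  · rw [Ph1_mul hx.1, Ph1_lv]
    by_cases h : w - τ.dg g - wE p b < 0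
    · rw [Wt.eq_zero hx.2.1 h, zero_mul]; exact zero_mem _
    · have h1 := H.le
      exact mul_mem_JM H.add hx.2.2 (H.invA.al_mem a (H.ok.tau_mem g l b (by omega)))

theorem ZK_h {U : UpperSet Ex} (hU : Inv p k U) {a r : ℕ} {y : G → Bi k}
    (hy : y ∈ τ.ZK p U w a r) : (dP p k (a + 1)).compLeft G y ∈ τ.ZK p U w (a + 1) r := by
  rcases r with _ | r
  · rcases a with _ | a
    · rw [AddSubgroup.mem_bot.1 hy, map_zero]; exact zero_mem _
    · obtain ⟨x, hx, rfl⟩ := hy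
      exact ⟨_, hU.dP_CK _ hx, (compLeft_sg _ x).symm⟩
  · rw [ZK_succ] at hy ⊢
    exact KK.comp hy _ fun _ _ hz => hU.dP_CK _ hz

theorem Ok.ZK_v (H : τ.Ok p N A) {U : UpperSet Ex} (hU : Inv p k U) {a r : ℕ} {y : G → Bi k}
    (hy : y ∈ τ.ZK p U w a r) : τ.Zv p a r y ∈ τ.ZK p U w a (r + 1) := by
  rw [ZK_succ]
  rcases r with _ | r
  · rcases a with _ | a
    · rw [AddSubgroup.mem_bot.1 hy, map_zero]; exact zero_mem _
    · obtain ⟨x, hx, rfl⟩ := hy
      exact H.sg_mem.2 ⟨hx.1.mono (Nat.le_succ a), hx.2⟩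
  · rw [ZK_succ] at hy
    exact H.vB_mem hU hy

theorem ZK_σ {U : UpperSet Ex} {a r : ℕ} {y : G → Bi k} (hy : y ∈ τ.ZK p U w (a + 1) (r + 1)) :
    (Ph1 p (eps (Av k)) a).compLeft G y ∈ τ.ZK p U w a (r + 1) := by
  rw [ZK_succ] at hy ⊢
  exact KK.comp hy _ fun u _ hz => by simpa using Ph1_CK wt_eps hz

/-- the augmented double complex -/
def Hyp.zig (H : Hyp (p := p) τ N A B E w) : Zig (G → Bi k) where
  K := τ.ZK p B w
  K' := τ.ZK p E w
  h a := (dP p k (a + 1)).compLeft G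
  v := τ.Zv p
  σ a := (Ph1 p (eps (Av k)) a).compLeft G
  h_K := ZK_h H.invB
  h_K' := ZK_h H.invE
  v_K := H.ok.ZK_v H.invB
  v_K' := H.ok.ZK_v H.invE
  σ_K := ZK_σ
  σ_K' := ZK_σ
  hh := fun {a _ y} _ => funext fun g => dP_dP (a + 1) (y g)
  hv := fun {a r y} _ => by
    rcases r with _ | r
    · rfl
    · funext h
      change ∑ g, Ph1 p (τ.lam g h) (a + 1) (D p k (a + 1) (dP p k (a + 1) (y g))) =
        dP p k (a + 1) (∑ g, Ph1 p (τ.lam g h) a (D p k a (y g)))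
      rw [map_sum]
      exact Finset.sum_congr rfl fun g _ => by rw [D_dP le_rfl, Ph1_dP le_rfl]
  vv := fun {a r y} hy => by
    rw [ZK_succ]
    rcases r with _ | r
    · rcases a with _ | a
      · rw [AddSubgroup.mem_bot.1 hy, map_zero, map_zero]; exact zero_mem _
      · obtain ⟨x, hx, rfl⟩ := hy
        change τ.vB p (a + 1) (τ.sg x) ∈ _
        rw [H.ok.vB_sg hx.1]
        exact zero_mem _
    · rw [ZK_succ] at hy
      exact H.vv hy
  σh0 := fun {r y} hy => funext fun g => by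
    change Ph1 p _ 0 (dP p k 1 (y g)) = y g
    rw [dP_apply, Finset.sum_range_one, pow_zero, one_smul, Ph1_eps_D (hy g).2.1]
  σh := fun {a r y} hy => funext fun g => by
    change Ph1 p _ (a + 1) (dP p k (a + 2) (y g)) =
      dP p k (a + 1) (Ph1 p _ a (y g)) + ((-1 : ℤ) ^ (a + 1)) • y g
    rw [dP_succ, map_add, Ph1_dP le_rfl, map_zsmul, Ph1_eps_D (hy g).2.1]

theorem Hyp.exists_lift (H : Hyp (p := p) τ N A B E w) {s : ℕ} (hs : τ.Exa p N s) {a : ℕ}
    {x : Bi k} {u : ℤ} (hx : x ∈ CK p k B a u) {q : G → Av k} (hq : τ.Hom p s (w - u) q)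
    (hd : τ.d0 p q = 0) {U V : UpperSet Ex} (hU : x ∈ JM k U)
    (hUV : ∀ e ∈ U, ∀ e' ∈ Ud 1, e + e' ∈ V) :
    ∃ z ∈ H.zig.Vs (a + 1) (s + 1), ∀ g, z g - x * lv k (a + 1) (q g) ∈ JM k V := by
  by_cases hu : u < 0
  · exact ⟨0, zero_mem _, fun g => by
      rw [Wt.eq_zero hx.2.1 hu, zero_mul, Pi.zero_apply, sub_zero]; exact zero_mem _⟩
  have hw := H.le
  rcases s with _ | s
  · obtain ⟨c, rfl⟩ := hs (w - u) (by omega) q hq hd
    by_cases hc : c = 0
    · exact ⟨0, zero_mem _, fun g => by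
        rw [hc, C_0, Pi.single_zero, Pi.zero_apply, Pi.zero_apply, map_zero, mul_zero, sub_zero]
        exact zero_mem _⟩
    have h1 : w - u - τ.dg τ.g0 = 0 := by
      have h2 := (hq τ.g0).2 (d := 0) (by rwa [Pi.single_eq_same, coeff_zero_C])
      rw [← h2, map_zero]
    rw [H.ok.dg0] at h1
    refine ⟨τ.sg (x * C c), ⟨_, ⟨x * C c, ⟨hx.1.mul (lev_C a c), ?_,
      Ideal.mul_mem_right _ _ hx.2.2⟩, rfl⟩, rfl⟩, fun g => ?_⟩
    · have h3 := hx.2.1.mul (isWeightedHomogeneous_C (wB p) c)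
      rwa [show u + 0 = w by omega] at h3
    · rw [sg_apply, Pi.single_apply, Pi.single_apply]
      split_ifs
      · rw [lv_C, sub_self]; exact zero_mem _
      · rw [map_zero, mul_zero, sub_zero]; exact zero_mem _
  · obtain ⟨q', hq', rfl⟩ := hs (w - u) (by omega) q hq hd
    refine ⟨τ.vB p (a + 1) fun g => x * lv k (a + 1) (q' g), ⟨_, fun g => ⟨fun h => ?_,
      (hx.1.mono (Nat.le_succ a)).mul (lev_lv _ _), ?_, Ideal.mul_mem_right _ _ hx.2.2⟩, rfl⟩,
      fun h => ?_⟩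
    · rw [(hq' g).1 h, map_zero, mul_zero]
    · have h3 := hx.2.1.mul (wt_lv (n := a + 1).2 (hq' g).2)
      rwa [show u + (w - u - τ.dg g) = w - τ.dg g by ring] at h3
    · rw [vB_apply, d0, map_sum, Finset.mul_sum, ← Finset.sum_sub_distrib]
      refine sum_mem fun g _ => ?_
      rw [← be1_mA (p := p) a (q' g), Ph1_D_mul hx.1, ← mul_sub]
      exact mul_mem_JM hUV hU (err_mem H.char a _ _)

theorem Hyp.step (H : Hyp (p := p) τ N A B E w) {s : ℕ} (hs : τ.Exa p N s) {a c : ℕ}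
    {y : G → Bi k} (hy : y ∈ τ.KK p B (a + 1) s w) (hc : ∀ g, y g ∈ JM k (Uor E (Ud c)))
    (hv : τ.vB p (a + 1) y ∈ τ.KK p E (a + 1) (s + 1) w) :
    ∃ z ∈ H.zig.Vs (a + 1) (s + 1), ∀ g, y g - z g ∈ JM k (Uor E (Ud (c + 1))) := by
  classical
  have hUV : ∀ e ∈ Uor E (Ud c), ∀ e' ∈ Ud 1, e + e' ∈ Uor E (Ud (c + 1)) := by
    rintro e (he | he) e' he'
    · exact Or.inl (E.upper le_self_add he)
    · exact Or.inr (mem_Ud.2 (by rw [map_add]; exact add_le_add he he'))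
  have key : ∀ m ∈ Finset.univ.biUnion fun g => (y g).support.image (off (a + 1)),
      ∃ z ∈ H.zig.Vs (a + 1) (s + 1), ∀ g,
        z g - monomial m 1 * lv k (a + 1) (cf (a + 1) m (y g)) ∈ JM k (Uor E (Ud (c + 1))) := by
    intro m hm
    by_cases h1 : on 0 m ∈ Uor E (Ud (c + 1))
    · exact ⟨0, zero_mem _, fun g => by
        rw [Pi.zero_apply, zero_sub]
        exact neg_mem (Ideal.mul_mem_right _ _ (monomial_mem_JM h1 1))⟩
    obtain ⟨g, -, hg⟩ := Finset.mem_biUnion.1 hm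
    obtain ⟨m0, hm0, rfl⟩ := Finset.mem_image.1 hg
    have h2 := off_mem_CK (hy g).2 hm0 1
    refine H.exists_lift (u := Finsupp.weight (wB p) (off (a + 1) m0)) hs
      ⟨h2.1, isWeightedHomogeneous_monomial _ _ _ rfl, h2.2.2⟩ (fun g' => ⟨fun h => ?_, ?_⟩) ?_
      (monomial_mem_JM (by rw [on_off (by omega)]; exact mem_JM.1 (hc g) m0 hm0) 1) hUV
    · rw [(hy g').1 h, map_zero]
    · rw [sub_right_comm]
      exact cf_wt (hy g').2 _
    · funext h
      have h3 := cf_JM (hv h).2.1 (hv h).2.2.2 (m := off (a + 1) m0) fun h4 => h1 (Or.inl h4)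
      rw [vB_apply, map_sum] at h3
      rw [d0, Pi.zero_apply, ← h3]
      exact Finset.sum_congr rfl fun g' _ =>
        (cf_v H.char hUV ((KK.of_JM hy hc) g').2 _ h1).symm
  choose! z hz hz' using key
  refine ⟨∑ m ∈ _, z m, sum_mem hz, fun g => ?_⟩
  have e := sum_cf (hy g).2.1
    (F := Finset.univ.biUnion fun g => (y g).support.image (off (a + 1))) fun m0 hm0 =>
      Finset.mem_biUnion.2 ⟨g, Finset.mem_univ g, Finset.mem_image_of_mem _ hm0⟩
  have e2 : ∀ u, y g - u = ∑ m ∈ Finset.univ.biUnion fun g => (y g).support.image (off (a + 1)),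
      monomial m 1 * lv k (a + 1) (cf (a + 1) m (y g)) - u := fun u => by rw [e]
  rw [Finset.sum_apply, e2, ← Finset.sum_sub_distrib]
  refine sum_mem fun m hm => ?_
  rw [← neg_sub]
  exact neg_mem (hz' m hm g)

theorem Hyp.col_succ (H : Hyp (p := p) τ N A B E w) {s : ℕ} (hs : τ.Exa p N s) :
    H.zig.Col (s + 1) := by
  intro a y hy hv
  have key : ∀ c : ℕ, ∃ z ∈ H.zig.Vs (a + 1) (s + 1), ∀ g, y g - z g ∈ JM k (Uor E (Ud c)) := by
    intro c
    induction c with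
    | zero => exact ⟨0, zero_mem _, fun g => mem_JM.2 fun m _ => Or.inr (Nat.zero_le _)⟩
    | succ c ih =>
      obtain ⟨z, hz, h1⟩ := ih
      have h2 : z ∈ H.zig.K (a + 1) (s + 1) := by
        obtain ⟨u, hu, rfl⟩ := hz
        exact H.zig.v_K hu
      have h3 := sub_mem hv (Zig.v_Vs hz)
      rw [← map_sub] at h3
      obtain ⟨z', hz', h4⟩ := H.step hs (sub_mem hy h2) h1 h3
      exact ⟨z + z', add_mem hz hz', fun g => by rw [Pi.add_apply, ← sub_sub]; exact h4 g⟩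
  obtain ⟨z, hz, h1⟩ := key (Finset.univ.sup (fun g => (w - τ.dg g).toNat) + 1)
  have h2 : z ∈ H.zig.K (a + 1) (s + 1) := by
    obtain ⟨u, hu, rfl⟩ := hz
    exact H.zig.v_K hu
  have h3 : y - z ∈ τ.KK p B (a + 1) s w := sub_mem hy h2
  rw [← add_sub_cancel z y]
  refine add_mem (AddSubgroup.mem_sup_left hz) (AddSubgroup.mem_sup_right ?_)
  refine KK.of_JM h3 fun g => mem_JM.2 fun m hm => ?_
  rcases mem_JM.1 (h1 g) m hm with h | h
  · exact h
  · exfalso
    have h4 := degree_le_weight (p := p) m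
    have h5 := (h3 g).2.2.1 (mem_support_iff.1 hm)
    have h6 : (w - τ.dg g).toNat ≤ Finset.univ.sup fun g => (w - τ.dg g).toNat :=
      Finset.le_sup (f := fun g => (w - τ.dg g).toNat) (Finset.mem_univ g)
    have h7 := mem_Ud.1 h
    omega

theorem Hyp.col_zero (H : Hyp (p := p) τ N A B E w) : H.zig.Col 0 := by
  rintro a _ ⟨x, hx, rfl⟩ hv
  exact AddSubgroup.mem_sup_right ⟨x, ⟨hx.1, hx.2.1, (H.ok.sg_mem.1 hv).2.2⟩, rfl⟩

theorem Hyp.col (H : Hyp (p := p) τ N A B E w) {n : ℕ} (hs : ∀ s < n, τ.Exa p N s) :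
    ∀ r ≤ n, H.zig.Col r
  | 0, _ => H.col_zero
  | r + 1, hr => H.col_succ (hs r hr)

end Tw

end Vale.Agent.P236K.Alg
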