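import Vale.Agent.P236K.Alg.V1
import Mathlib.Algebra.Module.ZMod

/-!
# P236K / Alg / Crd : coordinates on the image of `H (W / v_1 ^ a)` in `H (W / v_1 ^ j)`
-/

set_option linter.unusedSectionVars false

noncomputable section

namespace Vale.Agent.P236K.Alg

open Vale.Agent.P217 Vale.Agent.P251.F Vale.Agent.P257.H80 MvPolynomial
open Vale.Agent.P251.S (IC)
open Vale.Agent.P236K.SS (ACob cupC)

/-- linear combinations -/
def lc {ι k V : Type} [Fintype ι] [CommRing k] [AddCommGroup V] [Module k V] (c : ι → k)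
    (B : ι → V) : V := ∑ i, c i • B i

section lc

variable {ι V V' : Type} [Fintype ι] {p : ℕ} [AddCommGroup V] [Module (ZMod p) V]
  [AddCommGroup V'] [Module (ZMod p) V']

theorem map_lc (f : V →+ V') (c : ι → ZMod p) (B : ι → V) :
    f (lc c B) = lc c fun i => f (B i) := by
  rw [lc, lc, map_sum]
  exact Finset.sum_congr rfl fun i _ => ZMod.map_smul f _ _

theorem lc_mem {S : AddSubgroup V} (c : ι → ZMod p) {B : ι → V} (h : ∀ i, B i ∈ S) :
    lc c B ∈ S := sum_mem fun i _ => ZMod.smul_mem (h i) _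

theorem lc_add (c c' : ι → ZMod p) (B : ι → V) : lc (c + c') B = lc c B + lc c' B := by
  simp only [lc, Pi.add_apply, add_smul, Finset.sum_add_distrib]

theorem lc_zero (B : ι → V) : lc (0 : ι → ZMod p) B = 0 := by
  simp only [lc, Pi.zero_apply, zero_smul, Finset.sum_const_zero]

theorem lc_zero' (c : ι → ZMod p) : lc c (fun _ => (0 : V)) = 0 := by
  simp only [lc, smul_zero, Finset.sum_const_zero]

theorem lc_single [DecidableEq ι] (i : ι) (a : ZMod p) (B : ι → V) :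
    lc (Pi.single i a) B = a • B i := by
  rw [lc, Finset.sum_eq_single i, Pi.single_eq_same]
  · intro l _ hl
    rw [Pi.single_eq_of_ne hl, zero_smul]
  · intro h
    exact absurd (Finset.mem_univ i) h

theorem lc_basis [DecidableEq ι] (c : ι → ZMod p) :
    lc c (fun i => (Pi.single i 1 : ι → ZMod p)) = c := by
  funext l
  rw [lc, Finset.sum_apply, Finset.sum_eq_single l]
  · simp
  · intro i _ hi
    rw [Pi.smul_apply, Pi.single_eq_of_ne hi.symm, smul_zero]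
  · intro h
    exact absurd (Finset.mem_univ l) h

theorem lc_sub (c : ι → ZMod p) (B B' : ι → V) :
    lc c B - lc c B' = lc c fun i => B i - B' i := by
  simp only [lc, smul_sub, Finset.sum_sub_distrib]

end lc

namespace Tw

section gen

variable {p : ℕ} [hp : Fact p.Prime] {k G : Type} [CommRing k] [PL p k] [Fintype G]
  [DecidableEq G] {τ : Tw k G}

/-- the basis vector `v^e g` -/
def bas (k : Type) [CommRing k] (g : G) (e : Ex) : G → Av k := Pi.single g (monomial e 1)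

theorem bas_mem {U : UpperSet Ex} {s : ℕ} {w : ℤ} {g : G} {e : Ex} (hs : τ.sd g = s)
    (hw : wE p e + τ.dg g = w) (he : e ∈ U) : bas k g e ∈ τ.WK p U s w := by
  refine ⟨fun h => ?_, fun h => ?_⟩ <;> rw [bas, Pi.single_apply]
  · split_ifs with h1
    · subst h1
      exact ⟨fun h2 => absurd hs h2, isWeightedHomogeneous_monomial _ _ _ (eq_sub_of_add_eq hw)⟩
    · exact ⟨fun _ => rfl, isWeightedHomogeneous_zero _ _ _⟩
  · split_ifs
    · exact monomial_mem_JA he 1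
    · exact zero_mem _

theorem act_bas (y : Gam k) (g : G) (e : Ex) (h : G) :
    τ.act p y (bas k g e) h = fn (τ.lam g h) (y * etaA p k (monomial e 1)) := by
  rw [act_apply, Finset.sum_eq_single g, bas, Pi.single_eq_same]
  · intro g' _ hg
    rw [bas, Pi.single_eq_of_ne hg, map_zero, mul_zero, map_zero]
  · intro h1
    exact absurd (Finset.mem_univ g) h1

theorem WK.ind {s : ℕ} {w : ℤ} {P : (G → Av k) → Prop} (h0 : P 0)
    (hadd : ∀ x y, P x → P y → P (x + y))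
    (hb : ∀ g e (c : k), τ.sd g = s → wE p e + τ.dg g = w → P (c • bas k g e)) {U : UpperSet Ex}
    {y : G → Av k} (hy : y ∈ τ.WK p U s w) : P y := by
  rw [← Finset.univ_sum_single y]
  refine Finset.sum_induction _ P hadd h0 fun g _ => ?_
  rw [(y g).as_sum, ← AddMonoidHom.single_apply (f := fun _ => Av k), map_sum]
  refine Finset.sum_induction _ P hadd h0 fun e he => ?_
  have h1 := hb g e (coeff e (y g)) (by
    by_contra h
    rw [(hy.1 g).1 h] at he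
    simp at he) (add_eq_of_eq_sub ((hy.1 g).2 (mem_support_iff.1 he)))
  rwa [bas, ← Pi.single_smul, smul_monomial, smul_eq_mul, mul_one] at h1

theorem smul_mem_WK {U : UpperSet Ex} {s : ℕ} {w w' : ℤ} {u : G → Av k} (hu : u ∈ τ.WK p U s w)
    (l : ℕ) (e : w + l * wz p 0 = w') : (X 0 ^ l : Av k) • u ∈ τ.WK p U s w' := by
  refine ⟨fun g => ⟨fun h => ?_, ?_⟩, fun g => Ideal.mul_mem_left _ _ (hu.2 g)⟩
  · rw [Pi.smul_apply, (hu.1 g).1 h, smul_zero]
  · have h := ((isWeightedHomogeneous_X k (wz p) 0).pow l).mul (hu.1 g).2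
    rwa [nsmul_eq_mul, show l * wz p 0 + (w - τ.dg g) = w' - τ.dg g by rw [← e]; ring] at h

theorem act_smul (h0 : (p : k) = 0) (y : Gam k) (l : ℕ) (u : G → Av k) :
    τ.act p y ((X 0 ^ l : Av k) • u) = (X 0 ^ l : Av k) • τ.act p y u := by
  have e : etaA p k (X 0) = C (X 0) := by
    rw [etaA_X, etaT_X_zero p (cast_eq_zero_of (C.comp C) h0), RingHom.comp_apply, io_X]
  funext h
  rw [Pi.smul_apply, act_apply, act_apply, Finset.smul_sum]
  refine Finset.sum_congr rfl fun g _ => ?_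
  rw [Pi.smul_apply, smul_eq_mul, map_mul (etaA p k), map_pow, e, ← map_pow, mul_left_comm,
    fn_C_mul, smul_eq_mul]

theorem smul_JW {j : ℕ} (l : ℕ) {u : G → Av k} (hu : u ∈ JW k G (U1 j)) :
    (X 0 ^ l : Av k) • u ∈ JW k G (U1 (l + j)) := fun g => by
  rw [Pi.smul_apply, smul_eq_mul, ← lv_mem_JM, map_mul, ← vP_eq]
  exact mul_mem_JM (fun _ he _ he' => mem_U1.2 (add_le_add (mem_U1.1 he) (mem_U1.1 he'))) (vP_JM l)
    (lv_mem_JM.2 (hu g))

theorem smul_WT (h0 : (p : k) = 0) {j s : ℕ} {w w' : ℤ} (l : ℕ) (e : w + l * wz p 0 = w')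
    {u : G → Av k} (hu : u ∈ τ.WT p (U1 j) w s) :
    (X 0 ^ l : Av k) • u ∈ τ.WT p (U1 (l + j)) w' s := by
  obtain ⟨b, hb, c, hc, rfl⟩ := AddSubgroup.mem_sup.1 hu
  rw [smul_add]
  refine add_mem ?_ (mem_WT_of_JW (smul_JW l hc))
  rcases s with _ | s
  · rw [AddSubgroup.mem_bot.1 hb, smul_zero]
    exact zero_mem _
  · obtain ⟨y, hy, rfl⟩ := hb
    rw [dW, ← act_smul h0]
    exact dW_mem_WT (smul_mem_WK hy l e)

theorem Ok.act_mem {N : ℤ} {A : UpperSet Ex} (H : τ.Ok p N A) {V : UpperSet Ex} (hV : Inv p k V)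
    {y : Gam k} {v w : ℤ} (hy : Wt p v (be1 p k 0 y)) {s : ℕ} {u : G → Av k}
    (hu : u ∈ τ.WK p V s w) : τ.act p y u ∈ τ.WK p V (s + 1) (v + w) := by
  rw [← Lx_be1]
  exact H.Lx_mem (U := Uall) hV (fun _ _ _ he => V.upper le_add_self he)
    ⟨lev_be1 0 y, hy, mem_JM_all _⟩ hu

theorem Ok.WBd_WK {N : ℤ} {A : UpperSet Ex} (H : τ.Ok p N A) {s : ℕ} {w : ℤ} {b : G → Av k}
    (hb : b ∈ τ.WBd p Uall w s) : b ∈ τ.WK p Uall s w := by
  rcases s with _ | s
  · rw [AddSubgroup.mem_bot.1 hb]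
    exact zero_mem _
  · obtain ⟨y, hy, rfl⟩ := hb
    exact H.dW_mem inv_all hy

end gen

variable (p : ℕ) [hp : Fact p.Prime] {G : Type} [Fintype G] [DecidableEq G] (τ : Tw (ZMod p) G)

/-- coordinates on the image of `H^s (W / v_1 ^ a)_w` in `H^s (W / v_1 ^ j)_w` -/
structure Crd (a j s : ℕ) (w : ℤ) (n : ℕ) where
  /-- the coordinates -/
  ka : (G → Av (ZMod p)) →+ (Fin n → ZMod p)
  /-- the representatives -/
  rep : Fin n → G → Av (ZMod p)
  cob : ∀ u ∈ τ.WK p Uall s w, u ∈ τ.WT p (U1 j) w s → ka u = 0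
  mem : ∀ i, rep i ∈ τ.WZ p (U1 a) w s
  dual : ∀ i, ka (rep i) = Pi.single i 1
  span : ∀ y ∈ τ.WZ p (U1 a) w s, ∃ c : Fin n → ZMod p, y - lc c rep ∈ τ.WT p (U1 j) w s

variable {p τ}

namespace Crd

variable {N : ℤ} {a j s n : ℕ} {w w' : ℤ} (R : τ.Crd p a j s w n)

theorem ka_lc (c : Fin n → ZMod p) : R.ka (lc c R.rep) = c := by
  rw [map_lc, funext R.dual, lc_basis]

theorem lc_mem (c : Fin n → ZMod p) : lc c R.rep ∈ τ.WZ p (U1 a) w s := Alg.lc_mem c R.mem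

theorem sub_mem {y : G → Av (ZMod p)} (hy : y ∈ τ.WZ p (U1 a) w s) :
    y - lc (R.ka y) R.rep ∈ τ.WT p (U1 j) w s := by
  obtain ⟨c, hc⟩ := R.span y hy
  have h := R.cob _ (_root_.sub_mem hy.1 (R.lc_mem c).1) hc
  rw [map_sub, ka_lc, sub_eq_zero] at h
  rwa [h]

theorem inj {y : G → Av (ZMod p)} (hy : y ∈ τ.WZ p (U1 a) w s) (h : R.ka y = 0) :
    y ∈ τ.WT p (U1 j) w s := by
  have h1 := R.sub_mem hy
  rwa [h, lc_zero, sub_zero] at h1

/-- the finite condition of the rule for `Tors` -/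
theorem wChk (l : ℕ)
    (h : ∀ i, (X 0 ^ l : Av (ZMod p)) • R.rep i ∈ τ.WT p (U1 (l + j)) (w + l * wz p 0) s) :
    τ.WChk p a s w l j := by
  intro y hy
  have h1 := add_mem (smul_WT (ZMod.natCast_self p) l rfl (R.sub_mem hy))
    (Alg.lc_mem (R.ka y) h)
  have e := map_lc (DistribSMul.toAddMonoidHom _ (X 0 ^ l : Av (ZMod p))) (R.ka y) R.rep
  simp only [DistribSMul.toAddMonoidHom_apply] at e
  rwa [← e, ← smul_add, sub_add_cancel] at h1

/-- the coordinates of a cochain -/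
def c : Cob Laz s →+ (Fin n → ZMod p) := R.ka.comp (τ.Ps p s)

theorem c_apply (z : Cob Laz s) : R.c z = R.ka (τ.Ps p s z) := rfl

variable (H : τ.Ok p N (U1 a)) (hw : w ≤ N) (hj : j ≤ a)

include H

theorem c_v {b : Cob Laz 0} (hb : IsV p j b) (e : w' + j * wz p 0 = w) {z : Cob Laz s}
    (hz : Cob.IsWt w' z) : R.c (cupC (add_zero s) z b) = 0 :=
  R.cob _ (H.Ps_mem (SS.isWt_cupC _ hz hb.wt e)) (rho_v_mem hb z)

include hw

theorem Ps_sub {z : Cob Laz s} (hz : Cob.IsWt w z) (hd : Cob.d s z ∈ IC p 1 (s + 1)) :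
    τ.Ps p s z - lc (R.c z) R.rep ∈ τ.WT p (U1 j) w s := R.sub_mem (H.rho_map hw le_rfl hz hd)

include hj

theorem c_cob {z : Cob Laz s} (hz : Cob.IsWt w z) (h : ACob p 1 w z) : R.c z = 0 :=
  R.cob _ (H.Ps_mem hz) (H.rho_cob hw hj hz h)

theorem c_ker (hs : ∀ r < s, τ.Exa p N r) (e : w' + j * wz p 0 = w) {b : Cob Laz 0}
    (hb : IsV p j b) {z : Cob Laz s} (hz : Cob.IsWt w z) (hd : Cob.d s z ∈ IC p 1 (s + 1))
    (h : R.c z = 0) : ∃ z' : Cob Laz s, Cob.IsWt w' z' ∧ Cob.d s z' ∈ IC p 1 (s + 1) ∧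
      ACob p 1 w (z - cupC (add_zero s) z' b) :=
  H.rho_ker hw hj hs e hb hz hd (R.inj (H.rho_map hw le_rfl hz hd) h)

theorem c_inj (hs : ∀ r < s, τ.Exa p N r) (e : w' + j * wz p 0 = w)
    (ht : Tors p (ZMod p) s w' j) {z : Cob Laz s} (hz : Cob.IsWt w z)
    (hd : Cob.d s z ∈ IC p 1 (s + 1)) (h : R.c z = 0) : ACob p 1 w z :=
  H.rho_inj hw hj hs e ht hz hd (R.inj (H.rho_map hw le_rfl hz hd) h)

omit hj in
theorem c_surj {i : ℕ} (ha : j + i = a) (hs : ∀ r ≤ s, τ.Exa p N r) (e : w' + a * wz p 0 = w)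
    (ht : Tors p (ZMod p) (s + 1) w' i) (x : Fin n → ZMod p) :
    ∃ z : Cob Laz s, Cob.IsWt w z ∧ Cob.d s z ∈ IC p 1 (s + 1) ∧ R.c z = x := by
  subst ha
  obtain ⟨z, hz, hd, h⟩ := H.rho_surj hw le_rfl hs e ht (R.lc_mem x)
  have h1 := R.cob _ (_root_.sub_mem (H.Ps_mem hz) (R.lc_mem x).1) h
  rw [map_sub, ka_lc, sub_eq_zero] at h1
  exact ⟨z, hz, hd, h1⟩

/-- the matrix of a multiplier: row `i` is the image of the `i`-th representative -/
theorem c_mul {σ s' n' : ℕ} {v : ℤ} (R' : τ.Crd p a j s' w' n') (hw' : w' ≤ N) (e : s + σ = s')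
    (e' : w + v = w') {b : Cob Laz σ} (hb : Cob.IsWt v b) (hdb : Cob.d σ b ∈ IC p 1 (σ + 1))
    {M : Fin n → Fin n' → ZMod p}
    (hM : ∀ i, R'.ka (τ.Lx p σ (cm p (ZMod p) σ b) (R.rep i)) = M i) {z : Cob Laz s}
    (hz : Cob.IsWt w z) (hd : Cob.d s z ∈ IC p 1 (s + 1)) :
    R'.c (cupC e z b) = lc (R.c z) M := by
  subst e
  have h0 := _root_.sub_mem (H.Ps_mem hz) (R.lc_mem (R.c z)).1
  have h1 := (H.hyp1 (ZMod.natCast_self p) hj hw').Lx_WT ((add_comm v w).trans e') (cm_mem hb)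
    (by rw [dB_cm hdb]; exact zero_mem _) h0 (R.Ps_sub H hw hz hd)
  have h2 := H.Lx_all (cm_mem (k := ZMod p) hb) h0
  rw [(add_comm v w).trans e'] at h2
  have h3 := R'.cob _ h2 h1
  rw [map_sub, map_sub, sub_eq_zero, map_lc, map_lc, funext hM] at h3
  rw [c_apply, Ps_cupC, h3]

end Crd

/-! ### construction from matrices -/

variable (p τ)

/-- `rd` reads the coefficients modulo the ideal of `U` in degree `s` and weight `w` -/
structure Rd (U : UpperSet Ex) (s : ℕ) (w : ℤ) {V : Type} [AddCommGroup V]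
    (rd : (G → Av (ZMod p)) →+ V) : Prop where
  zero : ∀ u ∈ τ.WK p U s w, rd u = 0
  inj : ∀ u ∈ τ.WK p Uall s w, rd u = 0 → u ∈ JW (ZMod p) G U

/-- `B` generates the subgroup `S` modulo the ideal of `U` -/
structure Gen (U : UpperSet Ex) (S : AddSubgroup (G → Av (ZMod p))) {ι : Type} [Fintype ι]
    (B : ι → G → Av (ZMod p)) : Prop where
  mem : ∀ i, B i ∈ S
  span : ∀ y ∈ S, ∃ c : ι → ZMod p, y - lc c B ∈ JW (ZMod p) G U

/-- the list `B` of basis vectors is complete -/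
structure Cov (U : UpperSet Ex) (s : ℕ) (w : ℤ) {ι : Type} (B : ι → G × Ex) : Prop where
  sd : ∀ i, τ.sd (B i).1 = s
  wt : ∀ i, wE p (B i).2 + τ.dg (B i).1 = w
  cov : ∀ g e, τ.sd g = s → wE p e + τ.dg g = w → e ∉ U → ∃ i, B i = (g, e)

/-- the coefficients at the positions `B` -/
def rdB {ι : Type} (B : ι → G × Ex) : (G → Av (ZMod p)) →+ (ι → ZMod p) where
  toFun u i := coeff (B i).2 (u (B i).1)
  map_zero' := funext fun _ => coeff_zero _
  map_add' _ _ := funext fun _ => coeff_add _ _ _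

variable {p τ} {U : UpperSet Ex} {s : ℕ} {w N : ℤ} {ι ι' V V' : Type} [Fintype ι] [Fintype ι']
  [AddCommGroup V] [Module (ZMod p) V] [AddCommGroup V'] [Module (ZMod p) V']

theorem Cov.gen {B : ι → G × Ex} (h : τ.Cov p U s w B) :
    Gen p U (τ.WK p Uall s w) fun i => bas (ZMod p) (B i).1 (B i).2 := by
  classical
  refine ⟨fun i => bas_mem (h.sd i) (h.wt i) (mem_Uall _), fun y hy => ?_⟩
  refine WK.ind (P := fun y => ∃ c : ι → ZMod p,
    y - lc c (fun i => bas (ZMod p) (B i).1 (B i).2) ∈ JW (ZMod p) G U) ⟨0, ?_⟩ ?_ ?_ hy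
  · rw [lc_zero, sub_zero]
    exact zero_mem _
  · rintro x y ⟨c, hc⟩ ⟨c', hc'⟩
    exact ⟨c + c', by rw [lc_add, add_sub_add_comm]; exact add_mem hc hc'⟩
  · intro g e c h1 h2
    by_cases he : e ∈ U
    · exact ⟨0, by
        rw [lc_zero, sub_zero]
        exact ZMod.smul_mem (K := JW (ZMod p) G U) (bas_mem h1 h2 he).2 c⟩
    · obtain ⟨i, hi⟩ := h.cov g e h1 h2 he
      exact ⟨Pi.single i c, by rw [lc_single, hi, sub_self]; exact zero_mem _⟩

theorem Cov.rd {B : ι → G × Ex} (h : τ.Cov p U s w B) (h' : ∀ i, (B i).2 ∉ U) :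
    τ.Rd p U s w (rdB p B) := by
  refine ⟨fun u hu => funext fun i => mem_JA'.1 (hu.2 _) _ (h' i),
    fun u hu h0 g => mem_JA'.2 fun e he => ?_⟩
  by_contra h1
  obtain ⟨i, hi⟩ := h.cov g e (by
    by_contra h2
    exact h1 (by rw [(hu.1 g).1 h2, coeff_zero])) (add_eq_of_eq_sub ((hu.1 g).2 h1)) he
  have h2 : coeff (B i).2 (u (B i).1) = 0 := congrFun h0 i
  rw [hi] at h2
  exact h1 h2

theorem gen_bd_zero : Gen p U (τ.WBd p Uall w 0) (Fin.elim0 : Fin 0 → _) :=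
  ⟨fun i => i.elim0, fun y hy => ⟨0, by
    rw [AddSubgroup.mem_bot.1 hy, lc_zero, sub_zero]; exact zero_mem _⟩⟩

theorem Ok.gen_bd {A : UpperSet Ex} (H : τ.Ok p N A) (hU : Inv p (ZMod p) U)
    {B : ι → G → Av (ZMod p)} (h : Gen p U (τ.WK p Uall s w) B) :
    Gen p U (τ.WBd p Uall w (s + 1)) fun i => τ.dW p (B i) := by
  refine ⟨fun i => ⟨_, h.mem i, rfl⟩, ?_⟩
  rintro _ ⟨y, hy, rfl⟩
  obtain ⟨c, hc⟩ := h.span y hy
  refine ⟨c, ?_⟩
  rw [← map_lc, ← map_sub]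
  exact (H.dW_mem hU ⟨(sub_mem hy (lc_mem c h.mem)).1, hc⟩).2

/-- membership in `WZ` from the matrix -/
theorem Ok.mem_WZ_of {A : UpperSet Ex} (H : τ.Ok p N A) {r : (G → Av (ZMod p)) →+ V}
    (hr : τ.Rd p U (s + 1) w r) {u : G → Av (ZMod p)} (hu : u ∈ τ.WK p Uall s w)
    (h : r (τ.dW p u) = 0) : u ∈ τ.WZ p U w s := ⟨hu, hr.inj _ (H.dW_mem inv_all hu) h⟩

/-- membership in `WT` from a witness -/
theorem Ok.mem_WT_of {A : UpperSet Ex} (H : τ.Ok p N A) {r : (G → Av (ZMod p)) →+ V}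
    (hr : τ.Rd p U s w r) {u b : G → Av (ZMod p)} (hu : u ∈ τ.WK p Uall s w)
    (hb : b ∈ τ.WBd p Uall w s) (h : r u = r b) : u ∈ τ.WT p U w s :=
  mem_WT.2 ⟨b, hb, hr.inj (u - b) (sub_mem hu (H.WBd_WK hb)) (by rw [map_sub, h, sub_self])⟩

/-- a map which kills the generators of the coboundaries kills `WT` -/
theorem Ok.zero_of_WT {A : UpperSet Ex} (H : τ.Ok p N A) {r : (G → Av (ZMod p)) →+ V}
    (hr : ∀ u ∈ τ.WK p U s w, r u = 0) {T : ι → G → Av (ZMod p)}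
    (hT : Gen p U (τ.WBd p Uall w s) T) (h0 : ∀ i, r (T i) = 0) {u : G → Av (ZMod p)}
    (hu : u ∈ τ.WK p Uall s w) (h : u ∈ τ.WT p U w s) : r u = 0 := by
  obtain ⟨b, hb, h1⟩ := mem_WT.1 h
  obtain ⟨c, hc⟩ := hT.span b hb
  have h2 := add_mem (show u - b ∈ JW (ZMod p) G U from h1) hc
  rw [sub_add_sub_cancel] at h2
  have h3 := hr _ ⟨(sub_mem hu (H.WBd_WK (lc_mem c hT.mem))).1, h2⟩
  rwa [map_sub, map_lc, funext h0, lc_zero', sub_zero] at h3

/-- cocycles are combinations of the generators with coefficients in the kernel of the matrix -/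
theorem Ok.exists_ker {A : UpperSet Ex} (H : τ.Ok p N A) (hU : Inv p (ZMod p) U)
    {r : (G → Av (ZMod p)) →+ V} (hr : ∀ u ∈ τ.WK p U (s + 1) w, r u = 0)
    {B : ι → G → Av (ZMod p)} (hB : Gen p U (τ.WK p Uall s w) B) {y : G → Av (ZMod p)}
    (hy : y ∈ τ.WZ p U w s) : ∃ c : ι → ZMod p, lc c (fun i => r (τ.dW p (B i))) = 0 ∧
      y - lc c B ∈ JW (ZMod p) G U := by
  obtain ⟨c, hc⟩ := hB.span y hy.1
  have h1 := hr _ (H.dW_mem hU ⟨(sub_mem (show y ∈ τ.WK p Uall s w from hy.1)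
    (lc_mem c hB.mem)).1, hc⟩)
  rw [map_sub, map_sub, hr _ ⟨(H.dW_mem inv_all hy.1).1, hy.2⟩, zero_sub, neg_eq_zero, map_lc,
    map_lc] at h1
  exact ⟨c, h1, hc⟩

/-- coordinates from matrices: `r` reads degree `s` modulo `v_1 ^ j`, `r'` reads degree `s + 1`
modulo `v_1 ^ a`, `B` generates degree `s`, `T` generates the coboundaries -/
def Ok.crd {a j n : ℕ} {A : UpperSet Ex} (H : τ.Ok p N A) (hj : j ≤ a)
    {r : (G → Av (ZMod p)) →+ V} (hr : τ.Rd p (U1 j) s w r) {r' : (G → Av (ZMod p)) →+ V'}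
    (hr' : τ.Rd p (U1 a) (s + 1) w r') {B : ι → G → Av (ZMod p)}
    (hB : Gen p (U1 a) (τ.WK p Uall s w) B) {T : ι' → G → Av (ZMod p)}
    (hT : Gen p (U1 j) (τ.WBd p Uall w s) T) (κ : V →+ (Fin n → ZMod p))
    (I : Fin n → ι → ZMod p) (h0 : ∀ i, κ (r (T i)) = 0)
    (hI : ∀ l, lc (I l) (fun i => r' (τ.dW p (B i))) = 0)
    (hd : ∀ l, κ (lc (I l) fun i => r (B i)) = Pi.single l 1)
    (hs : ∀ c : ι → ZMod p, lc c (fun i => r' (τ.dW p (B i))) = 0 →
      ∃ (x : Fin n → ZMod p) (b : ι' → ZMod p), lc c (fun i => r (B i)) =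
        lc x (fun l => lc (I l) fun i => r (B i)) + lc b fun i => r (T i)) :
    τ.Crd p a j s w n where
  ka := κ.comp r
  rep l := lc (I l) B
  cob u hu h := H.zero_of_WT (r := κ.comp r) (fun u hu => by
    rw [AddMonoidHom.comp_apply, hr.zero u hu, map_zero]) hT h0 hu h
  mem l := H.mem_WZ_of hr' (lc_mem _ hB.mem) (by rw [map_lc, map_lc, hI])
  dual l := by rw [AddMonoidHom.comp_apply, map_lc, hd]
  span y hy := by
    obtain ⟨c, h1, h2⟩ := H.exists_ker (inv_U1 (ZMod.natCast_self p) a) hr'.zero hB hy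
    obtain ⟨x, b, h3⟩ := hs c h1
    have h4 := H.mem_WT_of hr (sub_mem (lc_mem c hB.mem) (lc_mem x fun l => lc_mem (I l) hB.mem))
      (lc_mem b hT.mem) (by simp only [map_sub, map_lc, h3, add_sub_cancel_left])
    have h5 := add_mem (mem_WT_of_JW (τ := τ) (p := p) (w := w) (s := s) (u := y - lc c B)
      fun g => JA_mono (fun _ he => hj.trans he) (h2 g)) h4
    exact ⟨x, by rwa [sub_add_sub_cancel] at h5⟩

end Tw

end Vale.Agent.P236K.Alg
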