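import Vale.Agent.P236K.Alg.Crd
import Mathlib.LinearAlgebra.Basis.VectorSpace

/-!
# P236K / Alg / CrdB : coordinates from a basis, with values in `ℕ → ZMod p`
-/

set_option linter.unusedSectionVars false

noncomputable section

namespace Vale.Agent.P236K.Alg

open Vale.Agent.P217 Vale.Agent.P251.F Vale.Agent.P257.H80 MvPolynomial Finset
open Vale.Agent.P251.S (IC)
open Vale.Agent.P236K.SS (ACob cupC)

variable {p : ℕ} [hp : Fact p.Prime]

/-- extension by zero -/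
def ext0 (p n : ℕ) : (Fin n → ZMod p) →+ (ℕ → ZMod p) where
  toFun x i := if h : i < n then x ⟨i, h⟩ else 0
  map_zero' := funext fun i => by split_ifs <;> rfl
  map_add' x y := funext fun i => by
    rw [Pi.add_apply]
    split_ifs
    · rfl
    · rw [add_zero]

theorem ext0_lt {n i : ℕ} (h : i < n) (x : Fin n → ZMod p) : ext0 p n x i = x ⟨i, h⟩ := dif_pos h

theorem ext0_ge {n i : ℕ} (h : n ≤ i) (x : Fin n → ZMod p) : ext0 p n x i = 0 :=
  dif_neg (not_lt.2 h)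

theorem ext0_res {n : ℕ} {x : ℕ → ZMod p} (h : ∀ i, n ≤ i → x i = 0) :
    ext0 p n (fun i => x i) = x := funext fun i => by
  rcases Nat.lt_or_ge i n with h1 | h1
  · rw [ext0_lt h1]
  · rw [ext0_ge h1, h i h1]

theorem ext0_eq_zero {n : ℕ} {x : Fin n → ZMod p} (h : ext0 p n x = 0) : x = 0 :=
  funext fun i => (ext0_lt i.2 x).symm.trans (congrFun h i)

theorem lc_eq_sum {V : Type} [AddCommGroup V] [Module (ZMod p) V] {n : ℕ} (x : Fin n → ZMod p)
    (r : ℕ → V) : lc x (fun i => r i) = ∑ i ∈ range n, ext0 p n x i • r i := by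
  rw [lc, ← Fin.sum_univ_eq_sum_range fun i => ext0 p n x i • r i]
  exact sum_congr rfl fun i _ => by rw [ext0_lt i.2]

theorem lc_res {V : Type} [AddCommGroup V] [Module (ZMod p) V] (n : ℕ) (c : ℕ → ZMod p)
    (r : ℕ → V) : lc (fun i : Fin n => c i) (fun i => r i) = ∑ i ∈ range n, c i • r i :=
  Fin.sum_univ_eq_sum_range (fun i => c i • r i) n

theorem exists_dual {V : Type} [AddCommGroup V] [Module (ZMod p) V] (S : AddSubgroup V) {n : ℕ}
    (r : Fin n → V) (h : ∀ c : Fin n → ZMod p, lc c r ∈ S → c = 0) :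
    ∃ κ : V →+ (Fin n → ZMod p), (∀ u ∈ S, κ u = 0) ∧ ∀ i, κ (r i) = Pi.single i 1 := by
  let S' : Submodule (ZMod p) V := AddSubgroup.toZModSubmodule p S
  let f : (Fin n → ZMod p) →ₗ[ZMod p] V ⧸ S' := S'.mkQ.comp (Fintype.linearCombination _ r)
  obtain ⟨g, hg⟩ := f.exists_leftInverse_of_injective (LinearMap.ker_eq_bot'.2 fun c hc =>
    h c ((Submodule.Quotient.mk_eq_zero S').1 hc))
  refine ⟨(g.comp S'.mkQ).toAddMonoidHom, fun u hu => ?_, fun i => ?_⟩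
  · change g (S'.mkQ u) = 0
    rw [show S'.mkQ u = 0 from (Submodule.Quotient.mk_eq_zero S').2 hu, map_zero]
  · have h1 : g (S'.mkQ (Fintype.linearCombination (ZMod p) r (Pi.single i 1))) =
        Pi.single i 1 :=
      LinearMap.congr_fun hg (Pi.single i 1)
    rwa [Fintype.linearCombination_apply_single, one_smul] at h1

namespace Tw

variable {G : Type} [Fintype G] [DecidableEq G] {τ : Tw (ZMod p) G} {N : ℤ} {a j s n : ℕ}
  {w w' : ℤ}

/-- coordinates from a basis -/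
theorem exists_crd {r : ℕ → G → Av (ZMod p)} (mem : ∀ i < n, r i ∈ τ.WZ p (U1 a) w s)
    (ind : ∀ c : ℕ → ZMod p, ∑ i ∈ range n, c i • r i ∈ τ.WT p (U1 j) w s → ∀ i < n, c i = 0)
    (span : ∀ u ∈ τ.WZ p (U1 a) w s, ∃ c : ℕ → ZMod p,
      u - ∑ i ∈ range n, c i • r i ∈ τ.WT p (U1 j) w s) :
    ∃ R : τ.Crd p a j s w n, ∀ i, R.rep i = r i := by
  obtain ⟨κ, h1, h2⟩ := exists_dual (τ.WT p (U1 j) w s) (fun i : Fin n => r i) fun c hc =>
    funext fun i => (ext0_lt i.2 c).symm.trans (ind _ (lc_eq_sum c r ▸ hc) i i.2)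
  exact ⟨⟨κ, fun i => r i, fun u _ => h1 u, fun i => mem i i.2, h2, fun y hy =>
    (span y hy).elim fun c hc => ⟨fun i => c i, by rwa [lc_res]⟩⟩, fun _ => rfl⟩

namespace Crd

variable (R : τ.Crd p a j s w n)

/-- the coordinates of a cochain, extended by zero -/
def cN : Cob Laz s →+ (ℕ → ZMod p) := (ext0 p n).comp R.c

theorem cN_apply (z : Cob Laz s) : R.cN z = ext0 p n (R.c z) := rfl

theorem cN_dim (z : Cob Laz s) {i : ℕ} (h : n ≤ i) : R.cN z i = 0 := ext0_ge h _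

theorem c_eq_zero {z : Cob Laz s} (h : R.cN z = 0) : R.c z = 0 := ext0_eq_zero h

theorem cN_eq_zero {z : Cob Laz s} (h : R.c z = 0) : R.cN z = 0 := by rw [cN_apply, h, map_zero]

variable {r : ℕ → G → Av (ZMod p)} (hr : ∀ i, R.rep i = r i)

include hr

/-- coordinates of a vector -/
theorem ka_eq {u : G → Av (ZMod p)} (hu : u ∈ τ.WK p Uall s w) {c : ℕ → ZMod p}
    (h : u - ∑ i ∈ range n, c i • r i ∈ τ.WT p (U1 j) w s) : R.ka u = fun i : Fin n => c i := by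
  rw [← lc_res, ← funext hr] at h
  have h1 := R.cob _ (_root_.sub_mem hu (R.lc_mem _).1) h
  rwa [map_sub, ka_lc, sub_eq_zero] at h1

variable (H : τ.Ok p N (U1 a)) (hw : w ≤ N)

include H

theorem cN_eq {z : Cob Laz s} (hz : Cob.IsWt w z) {c : ℕ → ZMod p} (hc : ∀ i, n ≤ i → c i = 0)
    (h : τ.Ps p s z - ∑ i ∈ range n, c i • r i ∈ τ.WT p (U1 j) w s) : R.cN z = c := by
  rw [cN_apply, c_apply, R.ka_eq hr (H.Ps_mem hz) h, ext0_res hc]

include hw

theorem Ps_sub' {z : Cob Laz s} (hz : Cob.IsWt w z) (hd : Cob.d s z ∈ IC p 1 (s + 1)) :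
    τ.Ps p s z - ∑ i ∈ range n, R.cN z i • r i ∈ τ.WT p (U1 j) w s := by
  have h := R.Ps_sub H hw hz hd
  rwa [funext hr, lc_eq_sum] at h

/-- the matrix of a multiplier -/
theorem cN_mul (hj : j ≤ a) {σ s' n' : ℕ} {v : ℤ} (R' : τ.Crd p a j s' w' n')
    {r' : ℕ → G → Av (ZMod p)} (hr' : ∀ i, R'.rep i = r' i) (hw' : w' ≤ N) (e : s + σ = s')
    (e' : w + v = w') {b : Cob Laz σ} (hb : Cob.IsWt v b) (hdb : Cob.d σ b ∈ IC p 1 (σ + 1))
    {P : ℕ → ℕ → ZMod p} (h0 : ∀ i < n, ∀ l, n' ≤ l → P i l = 0)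
    (hP : ∀ i < n, τ.Lx p σ (cm p (ZMod p) σ b) (r i) - ∑ l ∈ range n', P i l • r' l ∈
      τ.WT p (U1 j) w' s') {z : Cob Laz s} (hz : Cob.IsWt w z)
    (hd : Cob.d s z ∈ IC p 1 (s + 1)) :
    R'.cN (cupC e z b) = ∑ i ∈ range n, R.cN z i • P i := by
  have h1 := R.c_mul H hw hj R' hw' e e' hb hdb (M := fun i l => P i l) (fun i => by
    refine R'.ka_eq hr' ?_ (hr i ▸ hP i i.2)
    have h2 := H.Lx_all (cm_mem (k := ZMod p) hb) (R.mem i).1
    rwa [e, add_comm, e'] at h2) hz hd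
  rw [cN_apply, h1, map_lc, funext fun i : Fin n => ext0_res (h0 i i.2), lc_eq_sum]
  rfl

omit hr in
theorem cN_surj {i : ℕ} (ha : j + i = a) (hs : ∀ r ≤ s, τ.Exa p N r) (e : w' + a * wz p 0 = w)
    (ht : Tors p (ZMod p) (s + 1) w' i) {x : ℕ → ZMod p} (hx : ∀ l, n ≤ l → x l = 0) :
    ∃ z : Cob Laz s, Cob.IsWt w z ∧ Cob.d s z ∈ IC p 1 (s + 1) ∧ R.cN z = x := by
  obtain ⟨z, hz, hd, h⟩ := R.c_surj H hw ha hs e ht fun l => x l
  exact ⟨z, hz, hd, by rw [cN_apply, h, ext0_res hx]⟩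

end Crd

theorem Ok.hyp0 (H : τ.Ok p N Unone) (hw : w ≤ N) : Hyp (p := p) τ N Unone Uall Unone w :=
  ⟨ZMod.natCast_self p, H, inv_none, inv_all, inv_none, fun _ _ _ he =>
    absurd he (not_mem_Unone _), hw⟩

theorem Ok.to1 (H : τ.Ok p N Unone) (a : ℕ) : τ.Ok p N (U1 a) :=
  H.mono (fun _ he => absurd he (not_mem_Unone _)) le_rfl

/-- an exact cocycle of `W` comes from a cocycle -/
theorem Crd.exists_of_exact (R : τ.Crd p a j s w n) (H : τ.Ok p N Unone) (hw : w ≤ N)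
    (hs : ∀ r ≤ s, τ.Exa p N r) {u : G → Av (ZMod p)} (hu : u ∈ τ.WK p Uall s w)
    (hd : τ.dW p u = 0) : ∃ z : Cob Laz s, Cob.IsWt w z ∧ Cob.d s z ∈ IC p 1 (s + 1) ∧
      R.c z = R.ka u := by
  obtain ⟨z, hz, h1, h2⟩ := (H.hyp0 hw).exists_Ps (cpt_one p) hs (u := u)
    ⟨hu, fun g => by rw [hd]; exact zero_mem _⟩
  have h3 := R.cob _ (_root_.sub_mem (H.Ps_mem hz) hu)
    (WT_mono (fun _ he => absurd he (not_mem_Unone _)) h2)
  rw [map_sub, sub_eq_zero] at h3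
  exact ⟨z, hz, h1, h3⟩

end Tw

end Vale.Agent.P236K.Alg
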