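import Vale.Agent.P236K.Alg.Log

/-!
# P236K / Alg / Inv : closed formulas modulo the invariant ideals
-/

set_option linter.unusedSectionVars false

noncomputable section

namespace Vale.Agent.P236K.Alg

variable (p : ℕ) [hp : Fact p.Prime] {A B : Type} [CommRing A] [CommRing B]

theorem map_LE' (θ : A →+* B) (φ : VZ →+* A) (t : ℕ → A) (n : ℕ) :
    θ (LE p φ t n) = LE p (θ.comp φ) (fun k => θ (t k)) n := by
  rw [LE, LE, map_sum]
  refine Finset.sum_congr rfl fun i _ => ?_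
  rw [map_mul, map_mul, map_pow, map_pow, map_natCast, map_th, RingHom.comp_apply]

theorem LL_of_zero {φ : VZ →+* B} {n : ℕ} (h : ∀ i < n, φ (MvPolynomial.X i) = 0) {m : ℕ}
    (hm : m < n) : φ (LL p (m + 1)) = 0 := by
  rw [map_LL_succ]
  refine Finset.sum_eq_zero fun i _ => ?_
  rw [h _ (by omega), zero_pow (pow_ne_zero _ hp.out.ne_zero), mul_zero]

theorem LL_of_zero' {φ : VZ →+* B} {n : ℕ} (h : ∀ i < n, φ (MvPolynomial.X i) = 0) :
    φ (LL p (n + 1)) = (p : B) ^ n * φ (MvPolynomial.X n) := by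
  rw [map_LL_succ, Finset.sum_range_succ', LL_zero, map_one, mul_one, pow_zero, pow_one,
    Nat.sub_zero, Finset.sum_eq_zero, zero_add]
  intro i hi
  rw [Finset.mem_range] at hi
  rw [h _ (by omega), zero_pow (pow_ne_zero _ hp.out.ne_zero), mul_zero]

theorem LE_of_zero {φ : VZ →+* B} {n : ℕ} (h : ∀ i < n, φ (MvPolynomial.X i) = 0) (t : ℕ → B)
    {m : ℕ} (hm : m ≤ n) : LE p φ t m = (p : B) ^ m * th t m := by
  rw [LE, Finset.sum_range_succ', LL_zero, map_one, mul_one, pow_zero, pow_one, Nat.sub_zero,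
    Finset.sum_eq_zero, zero_add]
  intro i hi
  rw [Finset.mem_range] at hi
  rw [LL_of_zero p h (by omega), mul_zero, zero_mul]

theorem LE_of_zero' {φ : VZ →+* B} {n : ℕ} (h : ∀ i < n, φ (MvPolynomial.X i) = 0) (t : ℕ → B) :
    LE p φ t (n + 1) = (p : B) ^ (n + 1) * t n + (p : B) ^ n * φ (MvPolynomial.X n) := by
  rw [LE, Finset.sum_range_succ, Finset.sum_range_succ', LL_zero, map_one, mul_one, pow_zero,
    pow_one, Nat.sub_zero, Finset.sum_eq_zero, zero_add, Nat.sub_self, pow_zero, one_mul, th_zero,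
    one_pow, mul_one, LL_of_zero' p h, th_succ]
  intro i hi
  rw [Finset.mem_range] at hi
  rw [LL_of_zero p h (by omega), mul_zero, zero_mul]

variable [PL p B]

/-- **The coproduct modulo `(v_1, v_2, …)`**, first form. -/
theorem th_delT_of_zero {φ : VZ →+* B} (t t' : ℕ → B) {n : ℕ}
    (h : ∀ i, φ (MvPolynomial.X i) = 0) :
    th (delT p φ t t') n = ∑ m ∈ Finset.range (n + 1), th t m * th t' (n - m) ^ p ^ m := by
  set φ₀ : VZ →+* UZ p (ℕ ⊕ ℕ) := vOf fun _ => 0 with hφ₀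
  set t₀ : ℕ → UZ p (ℕ ⊕ ℕ) := fun i => MvPolynomial.X (Sum.inl i) with ht₀
  set s₀ : ℕ → UZ p (ℕ ⊕ ℕ) := fun i => MvPolynomial.X (Sum.inr i) with hs₀
  have h0 : ∀ N, ∀ i < N, φ₀ (MvPolynomial.X i) = 0 := fun _ i _ => vOf_X _ _
  have h1 := LL_delT p φ₀ t₀ s₀ n
  change LE p φ₀ (delT p φ₀ t₀ s₀) n = ∑ m ∈ Finset.range (n + 1),
    (p : UZ p (ℕ ⊕ ℕ)) ^ (n - m) * LE p φ₀ t₀ m * th s₀ (n - m) ^ p ^ m at h1
  rw [LE_of_zero p (h0 n) _ le_rfl] at h1
  have h2 : th (delT p φ₀ t₀ s₀) n -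
      ∑ m ∈ Finset.range (n + 1), th t₀ m * th s₀ (n - m) ^ p ^ m = 0 := by
    apply UZ_cancel p n
    rw [mul_sub, h1, Finset.mul_sum, sub_eq_zero]
    refine Finset.sum_congr rfl fun m hm => ?_
    rw [Finset.mem_range] at hm
    have h3 : (p : UZ p (ℕ ⊕ ℕ)) ^ n = p ^ (n - m) * p ^ m := by
      rw [← pow_add]
      congr 1
      omega
    rw [LE_of_zero p (h0 m) _ le_rfl, h3]
    ring
  have h3 := congrArg (uev p (Sum.elim t t')) (sub_eq_zero.1 h2)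
  have h4 : (uev p (Sum.elim t t')).comp φ₀ = φ :=
    VZ.ext fun i => by rw [RingHom.comp_apply, hφ₀, vOf_X, map_zero, h]
  rw [map_th, map_sum] at h3
  simp only [map_delT, h4, map_mul, map_pow, map_th, ht₀, hs₀, uev_X, Sum.elim_inl,
    Sum.elim_inr] at h3
  exact h3

/-- **The coproduct modulo `(v_1, v_2, …)`.** -/
theorem delT_of_zero {φ : VZ →+* B} (h : ∀ i, φ (MvPolynomial.X i) = 0) (t t' : ℕ → B) (n : ℕ) :
    delT p φ t t' n =
      t n + t' n + ∑ i ∈ Finset.range n, t i * t' (n - 1 - i) ^ p ^ (i + 1) := by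
  have h1 := th_delT_of_zero p t t' (n := n + 1) h
  rw [th_succ, Finset.sum_range_succ, Finset.sum_range_succ', Nat.sub_self] at h1
  simp only [th_zero, th_succ, one_pow, mul_one, one_mul, pow_zero, pow_one, Nat.sub_zero] at h1
  rw [h1, add_comm, add_comm _ (t' n), add_assoc]
  congr 2
  refine Finset.sum_congr rfl fun i hi => ?_
  rw [Finset.mem_range] at hi
  have h2 : n + 1 - (i + 1) = (n - 1 - i) + 1 := by omega
  rw [h2, th_succ]

/-- **Invariance of `v_{n+1}` modulo `(p, v_1, …, v_n)`.** -/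
theorem etaT_inv_dvd {φ : VZ →+* B} {n : ℕ} (h : ∀ i < n, φ (MvPolynomial.X i) = 0) (t : ℕ → B)
    {k : ℕ} (hk : k ≤ n) : (p : B) ∣ etaT p φ t (MvPolynomial.X k) - φ (MvPolynomial.X k) := by
  set φ₀ : VZ →+* UZ p (ℕ ⊕ ℕ) :=
    vOf fun i => if i < n then 0 else MvPolynomial.X (Sum.inl i) with hφ₀
  set t₀ : ℕ → UZ p (ℕ ⊕ ℕ) := fun i => MvPolynomial.X (Sum.inr i) with ht₀
  have h0 : ∀ i < n, φ₀ (MvPolynomial.X i) = 0 := fun i hi => by rw [hφ₀, vOf_X, if_pos hi]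
  have h1 := etaT_congr p (fun n x => UZ_cancel p n) le_rfl φ₀ t₀
    (fun k => φ₀ (MvPolynomial.X k)) (n + 1) (fun m hm => by
      have hm0 : ∀ i < m, φ₀ (MvPolynomial.X i) = 0 := fun i hi => h0 i (by omega)
      rw [LE_of_zero' p hm0, Finset.sum_range_succ', Finset.sum_eq_zero, zero_add,
        LE_of_zero p hm0 _ (Nat.zero_le _)]
      · simp
      · intro i hi
        rw [Finset.mem_range] at hi
        rw [hm0 _ (by omega), zero_pow (pow_ne_zero _ hp.out.ne_zero), mul_zero]) k (by omega)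
  have h3 := map_dvd (uev p (Sum.elim (fun i => φ (MvPolynomial.X i)) t)) h1
  have h4 : (uev p (Sum.elim (fun i => φ (MvPolynomial.X i)) t)).comp φ₀ = φ :=
    VZ.ext fun i => by
      rw [RingHom.comp_apply, hφ₀, vOf_X]
      split_ifs with hi
      · rw [map_zero, h i hi]
      · rw [uev_X, Sum.elim_inl]
  rw [pow_one, map_natCast, map_sub, map_etaT, h4, ← RingHom.comp_apply _ φ₀, h4] at h3
  simpa only [ht₀, uev_X, Sum.elim_inr] using h3

theorem etaT_inv (hB : (p : B) = 0) {φ : VZ →+* B} {n : ℕ}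
    (h : ∀ i < n, φ (MvPolynomial.X i) = 0) (t : ℕ → B) {k : ℕ} (hk : k ≤ n) :
    etaT p φ t (MvPolynomial.X k) = φ (MvPolynomial.X k) := by
  have h1 := etaT_inv_dvd p h t hk
  rwa [hB, zero_dvd_iff, sub_eq_zero] at h1

/-- `v_1` is invariant modulo `p` -/
theorem etaT_X_zero (hB : (p : B) = 0) (φ : VZ →+* B) (t : ℕ → B) :
    etaT p φ t (MvPolynomial.X 0) = φ (MvPolynomial.X 0) :=
  etaT_inv p hB (n := 0) (fun _ hi => absurd hi (Nat.not_lt_zero _)) t le_rfl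

theorem etaT_of_zero (hB : (p : B) = 0) {φ : VZ →+* B} (h : ∀ i, φ (MvPolynomial.X i) = 0)
    (t : ℕ → B) (k : ℕ) : etaT p φ t (MvPolynomial.X k) = 0 := by
  rw [etaT_inv p hB (n := k) (fun i _ => h i) t le_rfl, h]

/-- `η (v_{n+1}) ≡ v_{n+1}` modulo every ideal containing `p, v_1, …, v_n` -/
theorem etaT_sub_mem (φ : VZ →+* B) (t : ℕ → B) {I : Ideal B} (hp' : (p : B) ∈ I) {n : ℕ}
    (h : ∀ i < n, φ (MvPolynomial.X i) ∈ I) :
    etaT p φ t (MvPolynomial.X n) - φ (MvPolynomial.X n) ∈ I := by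
  have : PL p (B ⧸ I) := PL.of_hom p (Ideal.Quotient.mk I)
  rw [← Ideal.Quotient.eq, map_etaT]
  refine etaT_inv p ?_ (n := n) (fun i hi =>
    (Ideal.Quotient.eq_zero_iff_mem (I := I)).2 (h i hi)) _ le_rfl
  rw [← map_natCast (Ideal.Quotient.mk I)]
  exact Ideal.Quotient.eq_zero_iff_mem.2 hp'

/-- `η (v_1) = v_1 + p t_1` -/
theorem etaT_X_zero' (φ : VZ →+* B) (t : ℕ → B) :
    etaT p φ t (MvPolynomial.X 0) = φ (MvPolynomial.X 0) + p * t 0 := by
  have h1 := LL_etaT' p φ t 1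
  rw [LE_of_zero' p (n := 0) fun _ hi => absurd hi (Nat.not_lt_zero _),
    LL_of_zero' p (n := 0) fun _ hi => absurd hi (Nat.not_lt_zero _)] at h1
  linear_combination h1

/-- `Δ (t_1) = t_1 + t'_1` -/
theorem delT_zero (φ : VZ →+* B) (t t' : ℕ → B) : delT p φ t t' 0 = t 0 + t' 0 := by
  set φ₀ : VZ →+* UZ p (ℕ ⊕ ℕ ⊕ ℕ) := vOf fun i => MvPolynomial.X (Sum.inl i) with hφ₀
  set t₀ : ℕ → UZ p (ℕ ⊕ ℕ ⊕ ℕ) := fun i => MvPolynomial.X (Sum.inr (Sum.inl i)) with ht₀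
  set s₀ : ℕ → UZ p (ℕ ⊕ ℕ ⊕ ℕ) := fun i => MvPolynomial.X (Sum.inr (Sum.inr i)) with hs₀
  have h1 := congrArg (fun ψ : VZ →+* UZ p (ℕ ⊕ ℕ ⊕ ℕ) => ψ (MvPolynomial.X 0))
    (etaT_delT p φ₀ t₀ s₀)
  simp only [etaT_X_zero'] at h1
  have h2 : delT p φ₀ t₀ s₀ 0 - (t₀ 0 + s₀ 0) = 0 := by
    apply UZ_cancel p 1
    linear_combination h1
  have h3 := congrArg (uev p (Sum.elim (fun i => φ (MvPolynomial.X i)) (Sum.elim t t')))
    (sub_eq_zero.1 h2)
  rw [map_delT, hφ₀, comp_vOf, map_add] at h3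
  simpa only [ht₀, hs₀, uev_X, Sum.elim_inl, Sum.elim_inr, vOf_eq] using h3

end Vale.Agent.P236K.Alg
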