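import Vale.Agent.P236K.Alg.Frm
import Vale.Agent.P236K.Alg.Inv

/-!
# P236K / Alg / FrmS : readable forms of the small formulas modulo `3`
-/

namespace Vale.Agent.P236K.Alg

open Pol MvPolynomial

variable {B : Type} [CommRing B] [PL 3 B]

theorem eta2_lit : etaD 1 = [(128, 1),
    (268435459, 2),
    (805306369, 1)] := by decide +kernel

theorem eta2_eq (h3 : (3 : B) = 0) (φ : VZ →+* B) (t : ℕ → B) :
    etaT 3 φ t (X 1) =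
      φ (X 1) + 2 * (φ (X 0) ^ 3 * t 0) + φ (X 0) * t 0 ^ 3 := by
  rw [etaT_eq h3 φ t t (by norm_num), eta2_lit]
  simp only [ev, xsOf, mon, Nat.reduceMod, Nat.reduceDiv, pow_zero, pow_one, mul_one, one_mul,
    Nat.cast_one, Nat.cast_ofNat, add_zero]
  ring

theorem eta3_lit : etaD 2 = [(16384, 1),
    (268435716, 1),
    (268435840, 2),
    (536871047, 2),
    (805306626, 2),
    (1073741833, 1),
    (1073741957, 2),
    (1342177288, 2),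
    (1610612867, 2),
    (1879048198, 1),
    (2415919232, 1),
    (2684354563, 2),
    (34359738377, 2),
    (103079215105, 1)] := by decide +kernel

theorem eta3_eq (h3 : (3 : B) = 0) (φ : VZ →+* B) (t : ℕ → B) :
    etaT 3 φ t (X 2) =
      φ (X 2) + φ (X 0) ^ 4 * φ (X 1) ^ 2 * t 0 + 2 * (φ (X 1) ^ 3 * t 0) +
      2 * (φ (X 0) ^ 7 * φ (X 1) * t 0 ^ 2) + 2 * (φ (X 0) ^ 2 * φ (X 1) ^ 2 * t 0 ^ 3) +
      φ (X 0) ^ 9 * t 0 ^ 4 + 2 * (φ (X 0) ^ 5 * φ (X 1) * t 0 ^ 4) +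
      2 * (φ (X 0) ^ 8 * t 0 ^ 5) + 2 * (φ (X 0) ^ 3 * φ (X 1) * t 0 ^ 6) +
      φ (X 0) ^ 6 * t 0 ^ 7 + φ (X 1) * t 0 ^ 9 + 2 * (φ (X 0) ^ 3 * t 0 ^ 10) +
      2 * (φ (X 0) ^ 9 * t 1) + φ (X 0) * t 1 ^ 3 := by
  rw [etaT_eq h3 φ t t (by norm_num), eta3_lit]
  simp only [ev, xsOf, mon, Nat.reduceMod, Nat.reduceDiv, pow_zero, pow_one, mul_one, one_mul,
    Nat.cast_one, Nat.cast_ofNat, add_zero]
  ring

theorem del2_lit : delD 1 = [(34359738368, 1),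
    (72057594574798849, 2),
    (144115188344291329, 2),
    (216172782382219264, 1),
    (9223372036854775808, 1)] := by decide +kernel

theorem del2_eq (h3 : (3 : B) = 0) (φ : VZ →+* B) (t s : ℕ → B) :
    delT 3 φ t s 1 =
      t 1 + 2 * (φ (X 0) * t 0 ^ 2 * s 0) + 2 * (φ (X 0) * t 0 * s 0 ^ 2) + t 0 * s 0 ^ 3 + s 1 := by
  rw [delT_eq h3 φ t s (by norm_num), del2_lit]
  simp only [ev, xsOf, mon, Nat.reduceMod, Nat.reduceDiv, pow_zero, pow_one, mul_one, one_mul,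
    Nat.cast_one, Nat.cast_ofNat, add_zero]
  ring

theorem del3_lit : delD 2 = [(4398046511104, 1),
    (72057596185411588, 2),
    (72057663294275586, 1),
    (144115189954904068, 2),
    (144115223509336067, 2),
    (144115257063768066, 1),
    (216172783724396672, 2),
    (216172817278828547, 1),
    (216172851101696001, 2),
    (288230377493889028, 2),
    (288230411048321027, 2),
    (288230411316756482, 2),
    (360287971263381508, 2),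
    (360287971531816963, 2),
    (360288005086248962, 2),
    (432345565032874112, 2),
    (432345565301309443, 1),
    (432345599124176897, 2),
    (504403158802366468, 2),
    (504403159070801923, 2),
    (504403159339237378, 1),
    (576460752571858948, 2),
    (576460753108729858, 1),
    (648518380701089792, 1),
    (9223372105574252545, 2),
    (9295429665789313026, 2),
    (9367487226004373507, 2),
    (9367487259558805506, 2),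
    (9439544819773865987, 1),
    (9439544853596733441, 1),
    (9511602413543358467, 2),
    (9511602413811793922, 2),
    (9583660007581286402, 2),
    (9655717601619214337, 2),
    (18446744108069289985, 2),
    (18518801668284350466, 1),
    (18590859262053842946, 1),
    (18662916856091770881, 2),
    (27670116110832762880, 1),
    (1180591620717411303424, 1)] := by decide +kernel

theorem del3_eq (h3 : (3 : B) = 0) (φ : VZ →+* B) (t s : ℕ → B) :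
    delT 3 φ t s 2 =
      t 2 + 2 * (φ (X 0) ^ 4 * t 0 ^ 8 * s 0) + φ (X 0) ^ 2 * t 0 ^ 2 * t 1 ^ 2 * s 0 +
      2 * (φ (X 0) ^ 4 * t 0 ^ 7 * s 0 ^ 2) + 2 * (φ (X 0) ^ 3 * t 0 ^ 4 * t 1 * s 0 ^ 2) +
      φ (X 0) ^ 2 * t 0 * t 1 ^ 2 * s 0 ^ 2 + 2 * (φ (X 1) * t 0 ^ 6 * s 0 ^ 3) +
      φ (X 0) ^ 3 * t 0 ^ 3 * t 1 * s 0 ^ 3 + 2 * (φ (X 0) * t 0 * t 1 ^ 2 * s 0 ^ 3) +
      2 * (φ (X 0) ^ 4 * t 0 ^ 5 * s 0 ^ 4) + 2 * (φ (X 0) ^ 3 * t 0 ^ 2 * t 1 * s 0 ^ 4) +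
      2 * (φ (X 0) ^ 2 * t 0 ^ 3 * t 1 * s 0 ^ 4) + 2 * (φ (X 0) ^ 4 * t 0 ^ 4 * s 0 ^ 5) +
      2 * (φ (X 0) ^ 3 * t 0 ^ 5 * s 0 ^ 5) + 2 * (φ (X 0) ^ 2 * t 0 ^ 2 * t 1 * s 0 ^ 5) +
      2 * (φ (X 1) * t 0 ^ 3 * s 0 ^ 6) + φ (X 0) ^ 3 * t 0 ^ 4 * s 0 ^ 6 +
      2 * (φ (X 0) * t 0 ^ 2 * t 1 * s 0 ^ 6) + 2 * (φ (X 0) ^ 4 * t 0 ^ 2 * s 0 ^ 7) +
      2 * (φ (X 0) ^ 3 * t 0 ^ 3 * s 0 ^ 7) + φ (X 0) ^ 2 * t 0 ^ 4 * s 0 ^ 7 +
      2 * (φ (X 0) ^ 4 * t 0 * s 0 ^ 8) + φ (X 0) ^ 2 * t 0 ^ 3 * s 0 ^ 8 + t 1 * s 0 ^ 9 +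
      2 * (φ (X 0) * t 1 ^ 2 * s 1) + 2 * (φ (X 0) ^ 2 * t 0 ^ 2 * t 1 * s 0 * s 1) +
      2 * (φ (X 0) ^ 3 * t 0 ^ 4 * s 0 ^ 2 * s 1) +
      2 * (φ (X 0) ^ 2 * t 0 * t 1 * s 0 ^ 2 * s 1) + φ (X 0) ^ 3 * t 0 ^ 3 * s 0 ^ 3 * s 1 +
      φ (X 0) * t 0 * t 1 * s 0 ^ 3 * s 1 + 2 * (φ (X 0) ^ 3 * t 0 ^ 2 * s 0 ^ 4 * s 1) +
      2 * (φ (X 0) ^ 2 * t 0 ^ 3 * s 0 ^ 4 * s 1) + 2 * (φ (X 0) ^ 2 * t 0 ^ 2 * s 0 ^ 5 * s 1) +
      2 * (φ (X 0) * t 0 ^ 2 * s 0 ^ 6 * s 1) + 2 * (φ (X 0) * t 1 * s 1 ^ 2) +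
      φ (X 0) ^ 2 * t 0 ^ 2 * s 0 * s 1 ^ 2 + φ (X 0) ^ 2 * t 0 * s 0 ^ 2 * s 1 ^ 2 +
      2 * (φ (X 0) * t 0 * s 0 ^ 3 * s 1 ^ 2) + t 0 * s 1 ^ 3 + s 2 := by
  rw [delT_eq h3 φ t s (by norm_num), del3_lit]
  simp only [ev, xsOf, mon, Nat.reduceMod, Nat.reduceDiv, pow_zero, pow_one, mul_one, one_mul,
    Nat.cast_one, Nat.cast_ofNat, add_zero]
  ring

end Vale.Agent.P236K.Alg
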