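import Vale.Agent.P236K.Alg.Typ
import Vale.Agent.P257.H80.HazVV
import Mathlib.RingTheory.MvPolynomial.Ideal
import Mathlib.RingTheory.Polynomial.Basic

/-!
# P236K / Alg / Gam : the Hopf algebroid `(Av k, Gam k)`, functionals, twisting data

`Av k = k[v_1, …]`, `Gam k = Av k [t_1, …]`. A functional is a map `l : Ex → Av k`, the value on
the monomial `t^b`. `op l y = y' η(l y'')`, `conv μ l = μ ∘ op l`.
-/

set_option linter.unusedSectionVars false

noncomputable section

namespace Vale.Agent.P236K.Alg

open Vale.Agent.P217 Vale.Agent.P251.F Vale.Agent.P257.H80 MvPolynomial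

/-- exponents -/
abbrev Ex : Type := ℕ →₀ ℕ

/-- polynomials in countably many variables -/
abbrev Av (k : Type) [CommRing k] : Type := MvPolynomial ℕ k

/-- `k[v][t]` -/
abbrev Gam (k : Type) [CommRing k] : Type := Av (Av k)

section fn

variable {R R' : Type} [CommRing R] [CommRing R']

/-- change of coefficients -/
def mA (θ : R →+* R') : Av R →+* Av R' := map θ

@[simp] theorem mA_X (θ : R →+* R') (i : ℕ) : mA θ (X i) = X i := map_X _ _
@[simp] theorem mA_C (θ : R →+* R') (r : R) : mA θ (C r) = C (θ r) := map_C _ _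
theorem mA_monomial (θ : R →+* R') (b : Ex) (r : R) : mA θ (monomial b r) = monomial b (θ r) :=
  map_monomial _ _ _
theorem coeff_mA (θ : R →+* R') (y : Av R) (b : Ex) : coeff b (mA θ y) = θ (coeff b y) :=
  coeff_map _ _ _

/-- the constant coefficient -/
def cc (R : Type) [CommRing R] : Av R →+* R := constantCoeff

@[simp] theorem cc_X (i : ℕ) : cc R (X i) = 0 := constantCoeff_X _ _
@[simp] theorem cc_C (r : R) : cc R (C r) = r := constantCoeff_C _ _
theorem cc_apply (y : Av R) : cc R y = coeff 0 y := rfl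

/-- the linear functional with value `f b` on the monomial with exponent `b` -/
def fn (f : Ex → R) : Av R →ₗ[R] R := (basisMonomials ℕ R).constr ℕ f

theorem fn_one (f : Ex → R) (b : Ex) : fn f (monomial b 1) = f b :=
  (basisMonomials ℕ R).constr_basis ℕ f b

theorem fn_C_mul (f : Ex → R) (r : R) (y : Av R) : fn f (C r * y) = r * fn f y := by
  rw [← smul_eq_C_mul, map_smul, smul_eq_mul]

theorem fn_monomial (f : Ex → R) (b : Ex) (r : R) : fn f (monomial b r) = r * f b := by
  rw [← fn_one f b, ← fn_C_mul, C_mul_monomial, mul_one]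

theorem fn_C (f : Ex → R) (r : R) : fn f (C r) = r * f 0 := fn_monomial f 0 r

theorem fn_eq_sum (f : Ex → R) (y : Av R) : fn f y = ∑ b ∈ y.support, coeff b y * f b := by
  conv_lhs => rw [y.as_sum]
  rw [map_sum]
  exact Finset.sum_congr rfl fun b _ => fn_monomial f b _

theorem map_fn (θ : R →+* R') (f : Ex → R) (y : Av R) :
    θ (fn f y) = fn (fun b => θ (f b)) (mA θ y) := by
  induction y using induction_on' with
  | monomial b r => rw [mA_monomial, fn_monomial, fn_monomial, map_mul]
  | add x y hx hy => rw [map_add, map_add, hx, hy, map_add, map_add]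

theorem fn_add (f g : Ex → R) (y : Av R) : fn (fun b => f b + g b) y = fn f y + fn g y := by
  simp only [fn_eq_sum, mul_add, Finset.sum_add_distrib]

theorem fn_mul (r : R) (f : Ex → R) (y : Av R) : fn (fun b => r * f b) y = r * fn f y := by
  simp only [fn_eq_sum, Finset.mul_sum, mul_left_comm]

theorem fn_zero (y : Av R) : fn (fun _ => (0 : R)) y = 0 := by
  simp only [fn_eq_sum, mul_zero, Finset.sum_const_zero]

theorem fn_sum {ι : Type} (s : Finset ι) (f : ι → Ex → R) (y : Av R) :
    fn (fun b => ∑ i ∈ s, f i b) y = ∑ i ∈ s, fn (f i) y := by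
  simp only [fn_eq_sum, Finset.mul_sum]
  exact Finset.sum_comm

theorem fn_mem {J : Ideal R} (f : Ex → R) {y : Av R} (hy : y ∈ J.map (C : R →+* Av R)) :
    fn f y ∈ J := by
  rw [fn_eq_sum]
  exact sum_mem fun b _ => J.mul_mem_right _ (mem_map_C_iff.1 hy b)

/-- the counit -/
def eps (R : Type) [CommRing R] (b : Ex) : R := if b = 0 then 1 else 0

theorem fn_eps (y : Av R) : fn (eps R) y = cc R y := by
  induction y using induction_on' with
  | monomial b r =>
    rw [fn_monomial, cc_apply, coeff_monomial, eps]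
    split_ifs <;> simp
  | add x y hx hy => rw [map_add, map_add, hx, hy]

end fn

section hopf

variable (p : ℕ) (k : Type) [CommRing k] {R R' : Type} [CommRing R] [CommRing R']

/-- `ℤ[v] → k[v]` -/
def io : VZ →+* Av k := mA (Int.castRingHom k)

@[simp] theorem io_X (i : ℕ) : io k (X i) = X i := map_X _ _

/-- `ℤ[v] → k[v][t]` -/
abbrev io1 : VZ →+* Gam k := C.comp (io k)

/-- `ℤ[v] → k[v][t][t']` -/
abbrev io2 : VZ →+* Av (Gam k) := C.comp (io1 k)

/-- `ℤ[v] → k[v][t][t'][t'']` -/
abbrev io3 : VZ →+* Av (Av (Gam k)) := C.comp (io2 k)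

variable {k}

/-- the map `k[v] → R` defined by `κ` and `φ` -/
def aT (κ : k →+* R) (φ : VZ →+* R) : Av k →+* R := eval₂Hom κ fun i => φ (X i)

@[simp] theorem aT_X (κ : k →+* R) (φ : VZ →+* R) (i : ℕ) : aT κ φ (X i) = φ (X i) := by simp [aT]
@[simp] theorem aT_C (κ : k →+* R) (φ : VZ →+* R) (c : k) : aT κ φ (C c) = κ c := by simp [aT]

theorem aT_comp_io (κ : k →+* R) (φ : VZ →+* R) : (aT κ φ).comp (io k) = φ :=
  VZ.ext fun i => by simp

theorem comp_aT (θ : R →+* R') (κ : k →+* R) (φ : VZ →+* R) :
    θ.comp (aT κ φ) = aT (θ.comp κ) (θ.comp φ) :=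
  ringHom_ext (fun c => by simp) fun i => by simp

variable (k) [hp : Fact p.Prime] [PL p k]

/-- the right unit -/
def etaA : Av k →+* Gam k := aT (C.comp C) (etaT p (io1 k) X)

/-- the coproduct, the inner variables are `t ⊗ 1`, the outer variables are `1 ⊗ t` -/
def delA : Gam k →+* Av (Gam k) :=
  eval₂Hom (C.comp C) (delT p (io2 k) (fun i => C (X i)) X)

variable {p k}

theorem etaA_X (i : ℕ) : etaA p k (X i) = etaT p (io1 k) X (X i) := aT_X _ _ i
@[simp] theorem etaA_C (c : k) : etaA p k (C c) = C (C c) := aT_C _ _ c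
theorem etaA_comp_io : (etaA p k).comp (io k) = etaT p (io1 k) X := aT_comp_io _ _
theorem delA_X (i : ℕ) :
    delA p k (X i) = delT p (io2 k) (fun i => C (X i)) X i := by simp [delA]
@[simp] theorem delA_C (a : Av k) : delA p k (C a) = C (C a) := by simp [delA]

theorem map_etaA [PL p R] (θ : Gam k →+* R) :
    θ.comp (etaA p k) = aT (θ.comp (C.comp C))
      (etaT p (θ.comp (io1 k)) fun i => θ (X i)) := by
  rw [etaA, comp_aT, comp_etaT]

theorem map_delA [PL p R] (θ : Av (Gam k) →+* R) (i : ℕ) :
    θ (delA p k (X i)) = delT p (θ.comp (io2 k)) (fun i => θ (C (X i)))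
      (fun i => θ (X i)) i := by
  rw [delA_X, map_delT]

theorem cc_etaA (a : Av k) : cc (Av k) (etaA p k a) = a := by
  have h : (cc (Av k)).comp (etaA p k) = RingHom.id _ := by
    rw [map_etaA]
    refine ringHom_ext (fun c => by simp) fun i => ?_
    simp only [cc_X, etaT_zero, aT_X]
    simp
  exact RingHom.congr_fun h a

theorem cc_delA (y : Gam k) : cc (Gam k) (delA p k y) = y := by
  have h : (cc (Gam k)).comp (delA p k) = RingHom.id _ := by
    refine ringHom_ext (fun c => by simp) fun i => ?_
    rw [RingHom.comp_apply, map_delA]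
    simp only [cc_X, delT_zero_right]
    simp
  exact RingHom.congr_fun h y

theorem mA_cc_delA (y : Gam k) : mA (cc (Av k)) (delA p k y) = y := by
  have h : (mA (cc (Av k))).comp (delA p k) = RingHom.id _ := by
    refine ringHom_ext (fun c => by simp) fun i => ?_
    rw [RingHom.comp_apply, map_delA]
    simp only [mA_C, cc_X, map_zero, delT_zero_left]
    simp
  exact RingHom.congr_fun h y

theorem C_etaA_io : (C : Gam k →+* Av (Gam k)).comp ((etaA p k).comp (io k)) =
    etaT p (io2 k) fun i => C (X i) := by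
  rw [etaA_comp_io, comp_etaT]

theorem delA_etaA (a : Av k) : delA p k (etaA p k a) = mA (etaA p k) (etaA p k a) := by
  have h : (delA p k).comp (etaA p k) = (mA (etaA p k)).comp (etaA p k) := by
    rw [map_etaA, map_etaA]
    have e1 : (delA p k).comp (io1 k) = io2 k := VZ.ext fun i => by simp
    have e2 : (mA (etaA p k)).comp (io1 k) = etaT p (io2 k) fun i => C (X i) := by
      rw [← C_etaA_io]
      exact VZ.ext fun i => by simp
    have e3 : (fun i => delA p k (X i)) = delT p (io2 k) (fun i => C (X i)) X := funext delA_X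
    have e4 : (fun i => mA (etaA p k) (X i)) = X := funext fun i => mA_X _ _
    have e5 : (delA p k).comp (C.comp C) = (mA (etaA p k)).comp (C.comp (C : k →+* Av k)) :=
      RingHom.ext fun c => by simp
    rw [e1, e2, e3, e4, e5, etaT_delT]
  exact RingHom.congr_fun h a

variable (p k) in
/-- `1 ⊗ Δ` -/
def del2 : Av (Gam k) →+* Av (Av (Gam k)) :=
  eval₂Hom (C.comp C) fun i => mA (mA (etaA p k)) (delA p k (X i))

theorem del2_X (i : ℕ) : del2 p k (X i) = mA (mA (etaA p k)) (delA p k (X i)) := by simp [del2]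
theorem del2_C (y : Gam k) : del2 p k (C y) = C (C y) := by simp [del2]

theorem del2_monomial (b : Ex) (r : Gam k) :
    del2 p k (monomial b r) = C (C r) * mA (mA (etaA p k)) (delA p k (monomial b 1)) := by
  rw [del2, eval₂Hom_monomial, monomial_eq, C_1, one_mul, map_finsuppProd, map_finsuppProd]
  simp only [map_pow]
  rfl

theorem coassoc (y : Gam k) : mA (delA p k) (delA p k y) = del2 p k (delA p k y) := by
  have h : (mA (delA p k)).comp (delA p k) = (del2 p k).comp (delA p k) := by
    refine ringHom_ext (fun c => by simp [del2_C]) fun i => ?_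
    rw [RingHom.comp_apply, RingHom.comp_apply, map_delA, map_delA]
    have e1 : (mA (delA p k)).comp (io2 k) = io3 k := VZ.ext fun i => by simp
    have e2 : (del2 p k).comp (io2 k) = io3 k := VZ.ext fun i => by simp [del2_C]
    have e3 : (mA (mA (etaA p k))).comp (io2 k) = etaT p (io3 k) fun i => C (C (X i)) := by
      rw [← comp_etaT p C (io2 k) fun i => C (X i), ← C_etaA_io]
      exact VZ.ext fun i => by simp
    have e4 : (fun i => mA (delA p k) (C (X i) : Av (Gam k))) =
        delT p (io3 k) (fun i => C (C (X i))) fun i => C (X i) := by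
      funext j
      rw [mA_C, map_delA]
    have e5 : (fun i => del2 p k (X i)) =
        delT p (etaT p (io3 k) fun i => C (C (X i))) (fun i => C (X i)) X := by
      funext j
      rw [del2_X, map_delA, e3]
      simp only [mA_C, mA_X]
    have e6 : (fun i => del2 p k (C (X i))) = fun i => C (C (X i : Gam k)) :=
      funext fun j => del2_C (X j)
    have e7 : (fun i => mA (delA p k) (X i)) = X := funext fun i => mA_X _ _
    rw [e1, e2, e4, e5, e6, e7, ← delT_assoc]
  exact RingHom.congr_fun h y

variable (p) in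
/-- `op l y = y' η(l y'')` -/
def op (l : Ex → Av k) : Gam k →ₗ[Av k] Gam k where
  toFun y := fn (fun b => etaA p k (l b)) (delA p k y)
  map_add' x y := by rw [map_add, map_add]
  map_smul' a y := by
    rw [smul_eq_C_mul, map_mul, delA_C, fn_C_mul, RingHom.id_apply, smul_eq_C_mul]

theorem op_apply (l : Ex → Av k) (y : Gam k) :
    op p l y = fn (fun b => etaA p k (l b)) (delA p k y) := rfl

theorem op_C_mul (l : Ex → Av k) (a : Av k) (y : Gam k) : op p l (C a * y) = C a * op p l y := by
  rw [← smul_eq_C_mul, map_smul, smul_eq_C_mul]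

variable (p) in
/-- the convolution product `y ↦ μ (y' η(l y''))` -/
def conv (μ l : Ex → Av k) (b : Ex) : Av k := fn μ (op p l (monomial b 1))

theorem fn_conv (μ l : Ex → Av k) (y : Gam k) : fn (conv p μ l) y = fn μ (op p l y) := by
  have h : fn (conv p μ l) = (fn μ).comp (op p l) :=
    (basisMonomials ℕ (Av k)).ext fun b => fn_one _ b
  exact LinearMap.congr_fun h y

theorem cc_op (l : Ex → Av k) (y : Gam k) : cc (Av k) (op p l y) = fn l y := by
  rw [op_apply, map_fn, mA_cc_delA]
  simp only [cc_etaA]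

theorem op_eps (y : Gam k) : op p (eps (Av k)) y = y := by
  have h : (fun b => etaA p k (eps (Av k) b)) = eps (Gam k) := by
    funext b
    rw [eps, eps]
    split_ifs <;> simp
  rw [op_apply, h, fn_eps, cc_delA]

theorem op_etaA (l : Ex → Av k) (a : Av k) :
    op p l (etaA p k a) = etaA p k (fn l (etaA p k a)) := by
  rw [op_apply, delA_etaA, map_fn]

theorem op_conv (μ l : Ex → Av k) (y : Gam k) : op p (conv p μ l) y = op p μ (op p l y) := by
  rw [op_apply μ, op_apply l, map_fn (delA p k), coassoc, op_apply]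
  generalize delA p k y = z
  induction z using induction_on' with
  | monomial b r =>
    rw [fn_monomial, del2_monomial, fn_C_mul, fn_C_mul, conv, map_fn, op_apply, map_fn]
    simp only [delA_etaA]
  | add x y hx hy => rw [map_add, hx, hy, map_add, map_add, map_add]

theorem conv_assoc (ν μ l : Ex → Av k) : conv p (conv p ν μ) l = conv p ν (conv p μ l) := by
  funext b
  rw [conv, conv, fn_conv, op_conv]

theorem conv_eps_left (l : Ex → Av k) : conv p (eps (Av k)) l = l := by
  funext b
  rw [conv, fn_eps, cc_op, fn_one]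

theorem conv_eps_right (l : Ex → Av k) : conv p l (eps (Av k)) = l := by
  funext b
  rw [conv, op_eps, fn_one]

theorem op_add (l l' : Ex → Av k) (y : Gam k) :
    op p (fun b => l b + l' b) y = op p l y + op p l' y := by
  simp only [op_apply, map_add, fn_add]

theorem op_mul (a : Av k) (l : Ex → Av k) (y : Gam k) :
    op p (fun b => a * l b) y = etaA p k a * op p l y := by
  simp only [op_apply, map_mul, fn_mul]

theorem op_sum {ι : Type} (s : Finset ι) (l : ι → Ex → Av k) (y : Gam k) :
    op p (fun b => ∑ i ∈ s, l i b) y = ∑ i ∈ s, op p (l i) y := by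
  simp only [op_apply, map_sum, fn_sum]

theorem op_zero (y : Gam k) : op p (fun _ => (0 : Av k)) y = 0 := by
  simp only [op_apply, map_zero, fn_zero]

/-! ### reduction modulo `I = (v_1, v_2, …)` -/

/-- the additive law -/
def ph0 (R : Type) [CommRing R] : VZ →+* R := eval₂Hom (Int.castRingHom R) fun _ => 0

@[simp] theorem ph0_X (i : ℕ) : ph0 R (X i) = 0 := by simp [ph0]

variable (p k) in
/-- the coproduct of `P = k[t]` -/
def del0 : Av k →+* Av (Av k) := eval₂Hom (C.comp C) (delT p (ph0 _) (fun i => C (X i)) X)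

theorem del0_X (i : ℕ) :
    del0 p k (X i) = delT p (ph0 (Av (Av k))) (fun i => C (X i)) X i := by simp [del0]
@[simp] theorem del0_C (c : k) : del0 p k (C c) = C (C c) := by simp [del0]

variable (p) in
/-- `op0 l y = y' l(y'')` on `P` -/
def op0 (l : Ex → k) : Av k →ₗ[k] Av k where
  toFun y := fn (fun b => C (l b)) (del0 p k y)
  map_add' x y := by rw [map_add, map_add]
  map_smul' a y := by
    rw [smul_eq_C_mul, map_mul, del0_C, fn_C_mul, RingHom.id_apply, smul_eq_C_mul]

theorem op0_apply (l : Ex → k) (y : Av k) : op0 p l y = fn (fun b => C (l b)) (del0 p k y) := rfl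

theorem etaT_mem [PL p R] (φ : VZ →+* R) (t : ℕ → R) (i : ℕ) :
    etaT p φ t (X i) ∈ HI p φ (i + 1) := by
  rw [← Ih_haz, ← Ih_smul p _ _ (gT p φ t)⁻¹]
  change _ ∈ Ih p _ ((gT p φ t)⁻¹ • hz p φ)
  rw [← hz_etaT, hz, Ih_haz]
  exact mem_HI p (Nat.lt_succ_self i)

theorem etaT_mem_of [PL p R] (h0 : (p : R) = 0) (φ : VZ →+* R) (t : ℕ → R) (i : ℕ) {J : Ideal R}
    (h : ∀ j ≤ i, φ (X j) ∈ J) : etaT p φ t (X i) ∈ J := by
  refine (Ideal.span_le.2 ?_ : HI p φ (i + 1) ≤ J) (etaT_mem φ t i)
  rintro _ (rfl | ⟨j, hj, rfl⟩)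
  · rw [h0]
    exact zero_mem J
  · exact h j (Nat.lt_succ_iff.1 hj)

theorem cast_eq_zero_of (θ : R →+* R') (h0 : (p : R) = 0) : (p : R') = 0 := by
  rw [← map_natCast θ, h0, map_zero]

theorem red_etaA (h0 : (p : k) = 0) (a : Av k) : mA (cc k) (etaA p k a) = C (cc k a) := by
  have h : (mA (cc k)).comp (etaA p k) = C.comp (cc k) := by
    rw [map_etaA]
    refine ringHom_ext (fun c => by simp) fun i => ?_
    rw [aT_X, RingHom.comp_apply, cc_X, map_zero, ← Ideal.mem_bot]
    exact etaT_mem_of (cast_eq_zero_of C h0) _ _ i fun j _ => by simp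
  exact RingHom.congr_fun h a

theorem red_delA (y : Gam k) : mA (mA (cc k)) (delA p k y) = del0 p k (mA (cc k) y) := by
  have h : (mA (mA (cc k))).comp (delA p k) = (del0 p k).comp (mA (cc k)) := by
    refine ringHom_ext (fun c => by simp) fun i => ?_
    have e : (mA (mA (cc k))).comp (io2 k) = ph0 (Av (Av k)) := VZ.ext fun i => by simp
    rw [RingHom.comp_apply, RingHom.comp_apply, map_delA, mA_X, del0_X, e]
    simp only [mA_C, mA_X]
  exact RingHom.congr_fun h y

theorem red_op (h0 : (p : k) = 0) (l : Ex → Av k) (y : Gam k) :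
    mA (cc k) (op p l y) = op0 p (fun b => cc k (l b)) (mA (cc k) y) := by
  rw [op_apply, map_fn, red_delA, op0_apply]
  simp only [red_etaA h0]

end hopf

end Vale.Agent.P236K.Alg
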