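import Vale.Agent.P236K.Alg.OpB
import Vale.Agent.P236K.Cert.Lift
import Vale.Agent.P236K.SS.One

/-!
# P236K / Alg / J12 : `β₁ ^ 3 α₁ ≠ 0`, and `J1Alg`, `AInj`, `ASurj` from facts on `W / v₁ ^ j`
-/

set_option linter.unusedSectionVars false

noncomputable section

namespace Vale.Agent.P236K.Alg

open Vale.Agent.P217 Vale.Agent.P251.F Vale.Agent.P251.I MvPolynomial
open Vale.Agent.P251.S (IC)
open Vale.Agent.P236K.SS (ACob AInj ASurj cupC b3W b3tW bW tW J1Alg J2Alg)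

/-! ### the periodic complex -/

section per

theorem ex_of_wE_six {e : Ex} (h : wE 3 e = 6) : e = Finsupp.single 0 3 := by
  have h1 : e = Finsupp.single 0 (e 0) := by
    ext i
    rcases i with _ | i
    · simp
    · rw [apply_eq_zero_of_wE (n := 1) (by rw [h]; decide) (by omega)]
      simp
  rw [h1, wE_single, show wz 3 0 = 2 from rfl] at h
  rw [h1, show e 0 = 3 by omega]

/-- the coefficient of `t₁ ^ a` -/
def dl (a : ℕ) (b : Ex) : Av (ZMod 3) := if b = Finsupp.single 0 a then 1 else 0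

theorem fn_dl {R : Type} [CommRing R] (θ : Av (ZMod 3) →+* R) (a : ℕ) (y : Av R) :
    fn (fun b => θ (dl a b)) y = coeff (Finsupp.single 0 a) y := by
  induction y using induction_on' with
  | monomial b r =>
    rw [fn_monomial, coeff_monomial, dl]
    split_ifs <;> simp
  | add x y hx hy => rw [map_add, coeff_add, hx, hy]

/-- the twisting data of `k[t] / t ^ 3` -/
def per : Tw (ZMod 3) (Fin 8) where
  sd g := g
  dg g := 6 * ((g : ℕ) / 2 : ℕ) + 2 * ((g : ℕ) % 2 : ℕ)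
  lam g h := if (h : ℕ) = g + 1 then dl (1 + (g : ℕ) % 2) else fun _ => 0
  g0 := 0

theorem per_lam {g h : Fin 8} (e : (h : ℕ) = g + 1) : per.lam g h = dl (1 + (g : ℕ) % 2) :=
  if_pos e

theorem per_lam_ne {g h : Fin 8} (e : (h : ℕ) ≠ g + 1) : per.lam g h = fun _ => 0 := if_neg e

theorem per_wt (g h : Fin 8) (b : Ex) :
    WA 3 (wE 3 b + per.dg g - per.dg h) (per.lam g h b) := by
  by_cases e : (h : ℕ) = g + 1
  · rw [per_lam e, dl]
    split_ifs with hb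
    · have h1 : wE 3 b + per.dg g - per.dg h = 0 := by
        rw [hb, wE_single, show wz 3 0 = 2 from rfl]
        simp only [per]
        omega
      rw [h1]
      exact isWeightedHomogeneous_one _ _
    · exact isWeightedHomogeneous_zero _ _ _
  · rw [per_lam_ne e]
    exact isWeightedHomogeneous_zero _ _ _

theorem conv_dl {a c : ℕ} (ha : 0 < a) (hc : 0 < c) (h : a + c = 3) (b : Ex) :
    cc (ZMod 3) (conv 3 (dl a) (dl c) b) = 0 := by
  have e : conv 3 (dl a) (dl c) b = coeff (Finsupp.single 0 a) (op 3 (dl c) (monomial b 1)) :=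
    fn_dl (RingHom.id _) a _
  by_contra h0
  have h1 := (Cert.Lf.wg_monomial b).op (c := -(c * 2 : ℤ)) (l := dl c) (fun b => by
    rw [dl]
    split_ifs with hb
    · rw [hb, wE_single, show wz 3 0 = 2 from rfl, add_neg_cancel]
      exact isWeightedHomogeneous_one _ _
    · exact isWeightedHomogeneous_zero _ _ _) (Finsupp.single 0 a)
  rw [← e] at h1
  have h2 := h1 h0
  rw [map_zero, wE_single, show wz 3 0 = 2 from rfl] at h2
  obtain rfl := ex_of_wE_six (e := b) (by omega)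
  have h3 : delA 3 (ZMod 3) (monomial (Finsupp.single 0 3) 1) = C (X 0) ^ 3 + X 0 ^ 3 := by
    have h4 : ((3 : ℕ) : Av (Gam (ZMod 3))) = 0 :=
      cast_eq_zero_of (C.comp (C.comp C)) (ZMod.natCast_self 3)
    rw [← X_pow_eq_monomial, map_pow, delA_X, delT_zero]
    push_cast at h4
    linear_combination (C (X 0) ^ 2 * X 0 + C (X 0) * X 0 ^ 2) * h4
  rw [e, op_apply, fn_dl, h3, coeff_add, ← map_pow, coeff_C, if_neg, X_pow_eq_monomial,
    coeff_monomial, if_neg, add_zero, coeff_zero, map_zero] at h0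
  · exact h0 rfl
  · intro h5
    have := Finsupp.single_injective 0 h5
    omega
  · intro h5
    have := Finsupp.single_eq_zero.1 h5.symm
    omega

theorem per_ok (N : ℤ) : per.Ok 3 N (Ud 1) where
  sd0 := rfl
  dg0 := rfl
  sd_lam g h b e := by rw [per_lam_ne e]
  wt_lam := per_wt
  tau_mem g l b _ := by
    rw [mem_JA_one, Tw.tau, map_sum]
    refine Finset.sum_eq_zero fun h _ => ?_
    by_cases e : (h : ℕ) = g + 1
    · by_cases e' : (l : ℕ) = h + 1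
      · rw [per_lam e, per_lam e']
        exact conv_dl (by omega) (by omega) (by omega) b
      · rw [per_lam_ne e', conv, fn_zero, map_zero]
    · rw [per_lam_ne e, conv, op_zero, map_zero, map_zero]
  lam0 h := by
    by_cases e : (h : ℕ) = (per.g0 : ℕ) + 1
    · rw [per_lam e, dl, if_neg]
      intro h5
      have := Finsupp.single_eq_zero.1 h5.symm
      omega
    · rw [per_lam_ne e]

theorem per_act (a : ℕ) (g g' : Fin 8) (e : (g' : ℕ) = g + 1) :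
    per.act 3 (X 0 ^ a) (Pi.single g 1) =
      if a = 1 + (g : ℕ) % 2 then Pi.single g' 1 else 0 := by
  funext h
  rw [Tw.act_apply, Finset.sum_eq_single g, Pi.single_eq_same, map_one, mul_one, X_pow_eq_monomial,
    fn_one]
  · by_cases e' : h = g'
    · subst e'
      rw [per_lam e, dl]
      simp only [(Finsupp.single_injective (0 : ℕ)).eq_iff]
      split_ifs <;> simp
    · rw [per_lam_ne fun h1 => e' (Fin.ext (by omega))]
      split_ifs <;> simp [e']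
  · intro g'' _ h1
    rw [Pi.single_eq_of_ne h1, map_zero, mul_zero, map_zero]
  · intro h1
    exact absurd (Finset.mem_univ g) h1

theorem per_Lb (g g' g'' : Fin 8) (e : (g' : ℕ) = g + 1) (e' : (g'' : ℕ) = g' + 1)
    (h : (g : ℕ) % 2 = 0) : per.Lb (Pi.single g 1) = -Pi.single g'' 1 := by
  rw [Tw.Lb_apply, per_act 2 g g' e, if_neg (by omega), map_zero, add_zero, ← pow_one (X 0),
    per_act 1 g g' e, if_pos (by omega), pow_one, per_act 2 g' g'' e', if_pos (by omega)]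

end per

theorem Tw.Lx_b3 {k G : Type} [CommRing k] [PL 3 k] [Fintype G] [DecidableEq G] {τ : Tw k G}
    (h3 : ((3 : ℕ) : k) = 0) {t : Cob Laz 1} (ht : IsT1 3 t) (u : G → Av k) :
    τ.Lx 3 6 (cm 3 k 6 (b3W ht).1) u = τ.Lb (τ.Lb (τ.Lb u)) := by
  change τ.Lx 3 6 (cm 3 k 6 (cupC (s := 4) (σ := 2) rfl (cupC (s := 2) (σ := 2) rfl
    (bcls 3 t) (bcls 3 t)) (bcls 3 t))) u = _
  rw [Tw.Lx_cupC, Tw.Lx_cupC, Tw.Lx_b h3 ht, Tw.Lx_b h3 ht, Tw.Lx_b h3 ht]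

theorem Tw.Ps_b3t {k G : Type} [CommRing k] [PL 3 k] [Fintype G] [DecidableEq G] {τ : Tw k G}
    (h3 : ((3 : ℕ) : k) = 0) {t : Cob Laz 1} (ht : IsT1 3 t) :
    τ.Ps 3 7 (b3tW ht).1 = τ.Lt (τ.Lb (τ.Lb (τ.Lb τ.one))) := by
  change τ.Ps 3 7 (cupC (s := 6) (σ := 1) rfl (b3W ht).1 t) = _
  rw [Tw.Ps_cup_t h3 ht, Tw.Ps_eq_Lx, Tw.Lx_b3 h3 ht]

/-- **`β₁ ^ 3 α₁` is not a coboundary modulo `3`.** -/
theorem not_aCob_b3t {t : Cob Laz 1} (ht : IsT1 3 t) : ¬ ACob 3 1 20 (b3tW ht).1 := by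
  intro h
  have h3 := ZMod.natCast_self 3
  have H : Tw.Hyp (p := 3) per 20 (Ud 1) Uall (Ud 1) 20 :=
    ⟨h3, per_ok 20, inv_Ud h3 1, inv_all, inv_Ud h3 1,
      fun _ _ _ he => (Ud 1).upper le_add_self he, le_rfl⟩
  have h1 := H.Th_WT (cm_mem (b3tW ht).2) (AddSubgroup.mem_sup_left (CBd_of_aCob h))
  rw [← Tw.Ps_apply, Tw.Ps_b3t h3 ht, show per.one = Pi.single 0 1 from rfl,
    per_Lb 0 1 2 rfl rfl rfl, map_neg, per_Lb 2 3 4 rfl rfl rfl, neg_neg,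
    per_Lb 4 5 6 rfl rfl rfl, map_neg, Tw.Lt_apply, neg_neg, ← pow_one (X 0), per_act 1 6 7 rfl,
    if_pos (by decide)] at h1
  obtain ⟨_, ⟨y, -, rfl⟩, h2⟩ := Tw.mem_WT.1 h1
  have h4 := mem_JA_one.1 (h2 7)
  rw [Pi.single_eq_same, map_sub, map_one, Tw.dW_apply, map_sum, Finset.sum_eq_zero, sub_zero] at h4
  · exact one_ne_zero h4
  · intro g _
    rw [map_fn, red_etaA h3, fn_C]
    by_cases e : ((7 : Fin 8) : ℕ) = g + 1
    · rw [per_lam e, dl, if_neg, map_zero, mul_zero]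
      intro h5
      have := Finsupp.single_eq_zero.1 h5.symm
      omega
    · rw [per_lam_ne e, map_zero, mul_zero]

namespace Tw

variable {p : ℕ} [hp : Fact p.Prime] {G : Type} [Fintype G] [DecidableEq G] {τ : Tw (ZMod p) G}
  {N : ℤ} {a i j σ s : ℕ} {w v w1 w2 : ℤ} {b : Cob Laz σ}

/-- `AInj` from `W / v₁ ^ a` -/
theorem Ok.aInj_of (H : τ.Ok p N (U1 a)) (hb : Cob.IsWt v b) (hw : w ≤ N) (hw' : w + v ≤ N)
    (hi : i ≤ a) (hj : j ≤ a) (hs : ∀ r < s, τ.Exa p N r) (e : w1 + j * wz p 0 = w)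
    (T : Tors p (ZMod p) s w1 j)
    (h : ∀ u ∈ τ.WZ p (U1 a) w s, τ.Lx p σ (cm p (ZMod p) σ b) u ∈ τ.WT p (U1 i) (w + v) (s + σ) →
      u ∈ τ.WT p (U1 j) w s) : AInj p 1 1 b v s w := by
  intro z hz hd h1
  refine H.rho_inj hw hj hs e T hz hd (h _ (H.rho_map hw le_rfl hz hd) ?_)
  have h2 := H.rho_cob hw' hi (hz.cup hb) h1
  rwa [← SS.cupC_rfl, Ps_cupC] at h2

/-- `ASurj` from `W / v₁ ^ a` -/
theorem Ok.aSurj_of (H : τ.Ok p N (U1 a)) (hb : Cob.IsWt v b) (hdb : Cob.d σ b ∈ IC p 1 (σ + 1))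
    (hw : w ≤ N) (hw' : w + v ≤ N) (hi : i + j ≤ a) (hs : ∀ r ≤ s, τ.Exa p N r)
    (hs' : ∀ r < s + σ, τ.Exa p N r) (e1 : w1 + (i + j : ℕ) * wz p 0 = w)
    (T1 : Tors p (ZMod p) (s + 1) w1 j) (e2 : w2 + i * wz p 0 = w + v)
    (T2 : Tors p (ZMod p) (s + σ) w2 i)
    (h : ∀ c ∈ τ.WZ p (U1 a) (w + v) (s + σ), ∃ u ∈ τ.WZ p (U1 (i + j)) w s,
      c - τ.Lx p σ (cm p (ZMod p) σ b) u ∈ τ.WT p (U1 i) (w + v) (s + σ)) :
    ASurj p 1 1 b v s w := by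
  intro y hy hd
  obtain ⟨u, hu, h1⟩ := h _ (H.rho_map hw' le_rfl hy hd)
  obtain ⟨z, hz, hdz, h2⟩ := H.rho_surj hw hi hs e1 T1 hu
  refine ⟨z, hz, hdz, H.rho_inj hw' (by omega) hs' e2 T2
    ((Cob.wt Laz _ _).sub_mem hy (hz.cup hb)) ?_ ?_⟩
  · rw [map_sub]
    exact sub_mem hd (SS.d_cupC_mem rfl hdz hdb)
  · have h3 := (H.hyp1 (ZMod.natCast_self p) (j := i) (by omega) hw').Lx_WT (add_comm v w)
      (cm_mem hb) (by rw [dB_cm hdb]; exact zero_mem _) (sub_mem (H.Ps_mem hz) hu.1) h2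
    have h4 := sub_mem h1 h3
    rw [map_sub, ← SS.cupC_rfl, Ps_cupC]
    rwa [map_sub, sub_sub, add_sub_cancel] at h4

/-- the cohomology is spanned by one class -/
theorem Ok.rank_one (H : τ.Ok p N (U1 a)) (hw : w ≤ N) (hj : j ≤ a) (hs : ∀ r < s, τ.Exa p N r)
    (e : w1 + j * wz p 0 = w) (T : Tors p (ZMod p) s w1 j) (u0 : G → Av (ZMod p))
    (h : ∀ u ∈ τ.WZ p (U1 a) w s, ∃ c : ℤ, u - c • u0 ∈ τ.WT p (U1 j) w s)
    {x y : Cob Laz s} (hx : Cob.IsWt w x) (hdx : Cob.d s x ∈ IC p 1 (s + 1)) (hy : Cob.IsWt w y)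
    (hdy : Cob.d s y ∈ IC p 1 (s + 1)) (hn : ¬ ACob p 1 w x) : ∃ c : ℤ, ACob p 1 w (y - c • x) := by
  obtain ⟨c, hc⟩ := h _ (H.rho_map hw le_rfl hx hdx)
  obtain ⟨c', hc'⟩ := h _ (H.rho_map hw le_rfl hy hdy)
  have h0 : ∀ m : ℤ, (m : ZMod p) = 0 → m • u0 = 0 := fun m hm => by
    rw [← Int.cast_smul_eq_zsmul (ZMod p), hm, zero_smul]
  have h1 : (c : ZMod p) ≠ 0 := fun h1 =>
    hn (H.rho_inj hw hj hs e T hx hdx (by rwa [h0 c h1, sub_zero] at hc))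
  obtain ⟨m, hm⟩ := ZMod.intCast_surjective ((c' : ZMod p) * (c : ZMod p)⁻¹)
  refine ⟨m, H.rho_inj hw hj hs e T
    ((Cob.wt Laz _ _).sub_mem hy ((Cob.wt Laz _ _).zsmul_mem hx m)) ?_ ?_⟩
  · rw [map_sub, map_zsmul]
    exact sub_mem hdy (zsmul_mem hdx m)
  · have h2 := sub_mem hc' (zsmul_mem hc m)
    have h3 := h0 (m * c - c') (by
      push_cast
      rw [hm, mul_assoc, inv_mul_cancel₀ h1, mul_one, sub_self])
    rw [sub_smul, sub_eq_zero] at h3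
    rw [map_sub, map_zsmul]
    rwa [smul_sub, smul_smul, h3, sub_sub_sub_cancel_right] at h2

end Tw

variable {G : Type} [Fintype G] [DecidableEq G] {τ : Tw (ZMod 3) G} {N : ℤ}

/-- **`J1Alg` from two facts.** -/
theorem j1Alg_of (H : τ.Ok 3 N (U1 6)) (hN : 18 ≤ N) (hs : ∀ r < 2, τ.Exa 3 N r)
    (T : Tors 3 (ZMod 3) 2 12 3) (u0 : G → Av (ZMod 3))
    (h : ∀ u ∈ τ.WZ 3 (U1 6) 18 2, ∃ c : ℤ, u - c • u0 ∈ τ.WT 3 (U1 3) 18 2) : J1Alg :=
  fun _ ht => ⟨not_aCob_b3t ht, fun _ _ hx hdx hy hdy hn =>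
    H.rank_one hN (by norm_num) hs rfl T u0 h hx hdx hy hdy hn⟩

/-- `b` is injective on `(s, w) = (6, 56)` -/
theorem aInj_b_of (H : τ.Ok 3 N (U1 6)) (hN : 62 ≤ N) (hs : ∀ r < 6, τ.Exa 3 N r)
    (T : Tors 3 (ZMod 3) 6 50 3)
    (h : ∀ u ∈ τ.WZ 3 (U1 6) 56 6, τ.Lb u ∈ τ.WT 3 (U1 6) 62 8 → u ∈ τ.WT 3 (U1 3) 56 6)
    {t : Cob Laz 1} (ht : IsT1 3 t) : AInj 3 1 1 (bW ht).1 6 6 56 :=
  H.aInj_of (i := 6) (bW ht).2 (by omega) (by omega) le_rfl (by norm_num) hs rfl T fun u hu h1 =>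
    h u hu (by rwa [← Tw.Lx_b (ZMod.natCast_self 3) ht])

/-- `b` is onto from `(s, w) = (5, 56)` -/
theorem aSurj_b_of (H : τ.Ok 3 N (U1 6)) (hN : 62 ≤ N) (hs : ∀ r < 7, τ.Exa 3 N r)
    (T1 : Tors 3 (ZMod 3) 6 44 3) (T2 : Tors 3 (ZMod 3) 7 56 3)
    (h : ∀ c ∈ τ.WZ 3 (U1 6) 62 7, ∃ u ∈ τ.WZ 3 (U1 6) 56 5, c - τ.Lb u ∈ τ.WT 3 (U1 3) 62 7)
    {t : Cob Laz 1} (ht : IsT1 3 t) : ASurj 3 1 1 (bW ht).1 6 5 56 :=
  H.aSurj_of (i := 3) (j := 3) (bW ht).2 (by rw [SS.d_bW]; exact zero_mem _) (by omega) (by omega)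
    le_rfl (fun r hr => hs r (by omega)) hs rfl T1 rfl T2 fun c hc => by
      obtain ⟨u, hu, h1⟩ := h c hc
      exact ⟨u, hu, by rwa [← Tw.Lx_b (ZMod.natCast_self 3) ht] at h1⟩

end Vale.Agent.P236K.Alg
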