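import Vale.Agent.P236K.Alg.Typ
import Mathlib.NumberTheory.Multiplicity

/-!
# P236K / Alg / Log : the logarithmic identities for `etaT` and `delT`

`LL p n = p^n ℓ_n ∈ ℤ[v_1, v_2, …]`. In every `p`-local ring
`η (LL n) = ∑ i ≤ n, p^(n-i) LL i t_{n-i}^(p^i)`.
-/

set_option linter.unusedSectionVars false

noncomputable section

namespace Vale.Agent.P236K.Alg

open Vale.Agent.P217 Vale.Agent.P251.F Vale.Agent.P257.H80 Vale.Agent.P221.H246

variable (p : ℕ) {A B : Type} [CommRing A] [CommRing B]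

/-- `p^n ℓ_n` -/
def LL : ℕ → VZ
  | 0 => 1
  | n + 1 => ∑ i : Fin (n + 1), (p : VZ) ^ (n - i) * LL i * MvPolynomial.X (n - i) ^ p ^ (i : ℕ)

theorem LL_zero : LL p 0 = 1 := by rw [LL]

theorem LL_succ (n : ℕ) : LL p (n + 1) =
    ∑ i ∈ Finset.range (n + 1), (p : VZ) ^ (n - i) * LL p i * MvPolynomial.X (n - i) ^ p ^ i := by
  rw [LL, Finset.sum_range]

theorem map_LL_succ (φ : VZ →+* B) (n : ℕ) : φ (LL p (n + 1)) =
    ∑ i ∈ Finset.range (n + 1),
      (p : B) ^ (n - i) * φ (LL p i) * φ (MvPolynomial.X (n - i)) ^ p ^ i := by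
  rw [LL_succ, map_sum]
  refine Finset.sum_congr rfl fun i _ => ?_
  rw [map_mul, map_mul, map_pow, map_pow, map_natCast]

/-- `t_0 = 1, t_1, t_2, …` -/
def th (t : ℕ → B) : ℕ → B
  | 0 => 1
  | k + 1 => t k

@[simp] theorem th_zero (t : ℕ → B) : th t 0 = 1 := rfl

@[simp] theorem th_succ (t : ℕ → B) (k : ℕ) : th t (k + 1) = t k := rfl

theorem map_th (θ : A →+* B) (t : ℕ → A) (k : ℕ) : θ (th t k) = th (fun k => θ (t k)) k := by
  rcases k with _ | k
  · exact map_one θ
  · rfl

variable [hp : Fact p.Prime]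

theorem hzI_LL (n : ℕ) : hzI (LL p n) = (p : MvPolynomial ℕ ℚ) ^ n * ell p n := by
  induction n using Nat.strong_induction_on with
  | _ n ih =>
    rcases n with _ | n
    · rw [LL_zero, ell_zero, map_one, pow_zero, mul_one]
    · have h1 : (p : MvPolynomial ℕ ℚ) * MvPolynomial.C (1 / (p : ℚ)) = 1 := by
        rw [← map_natCast (MvPolynomial.C (σ := ℕ) (R := ℚ)), ← map_mul,
          mul_one_div_cancel (by exact_mod_cast hp.out.ne_zero), map_one]
      rw [map_LL_succ, ell_succ, pow_succ, mul_assoc, ← mul_assoc (p : MvPolynomial ℕ ℚ), h1,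
        one_mul, Finset.mul_sum]
      refine Finset.sum_congr rfl fun i hi => ?_
      rw [Finset.mem_range] at hi
      have h2 : hzI (MvPolynomial.X (n - i)) = MvPolynomial.X (n - i) := MvPolynomial.map_X _ _
      have h3 : (p : MvPolynomial ℕ ℚ) ^ n = p ^ (n - i) * p ^ i := by
        rw [← pow_add]
        congr 1
        omega
      rw [ih i hi, h2, h3]
      ring

/-! ### coefficients of a substitution of a monomial -/

omit hp in
theorem coeff_subst_mono (f : PowerSeries B) (a : B) {q : ℕ} (hq : 0 < q) (m : ℕ) :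
    PowerSeries.coeff m (PowerSeries.subst (PowerSeries.C a * PowerSeries.X ^ q : PowerSeries B) f :
      PowerSeries B) = if q ∣ m then PowerSeries.coeff (m / q) f * a ^ (m / q) else 0 := by
  have h0 : MvPowerSeries.constantCoeff (PowerSeries.C a * PowerSeries.X ^ q : PowerSeries B) =
      0 := by
    change PowerSeries.constantCoeff (PowerSeries.C a * PowerSeries.X ^ q : PowerSeries B) = 0
    rw [map_mul, map_pow, PowerSeries.constantCoeff_X, zero_pow hq.ne', mul_zero]
  have h1 := hz_coeff_subst f h0 (Finsupp.single () m) (M := m + 1) (by simp)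
  refine h1.trans ?_
  have h2 : ∀ d, MvPowerSeries.coeff (Finsupp.single () m)
      ((PowerSeries.C a * PowerSeries.X ^ q : PowerSeries B) ^ d) =
        if m = q * d then a ^ d else 0 := by
    intro d
    change PowerSeries.coeff m ((PowerSeries.C a * PowerSeries.X ^ q : PowerSeries B) ^ d) = _
    rw [mul_pow, ← map_pow, ← pow_mul, PowerSeries.coeff_C_mul, PowerSeries.coeff_X_pow]
    split_ifs
    · rw [mul_one]
    · rw [mul_zero]
  simp only [h2]
  split_ifs with h
  · obtain ⟨d, rfl⟩ := h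
    rw [Nat.mul_div_cancel_left _ hq, Finset.sum_eq_single d, if_pos rfl]
    · intro b _ hb
      rw [if_neg, mul_zero]
      intro h
      exact hb (Nat.eq_of_mul_eq_mul_left hq h).symm
    · intro hd
      exact absurd (Finset.mem_range.2 (Nat.lt_succ_of_le (Nat.le_mul_of_pos_left _ hq))) hd
  · refine Finset.sum_eq_zero fun d _ => ?_
    rw [if_neg, mul_zero]
    intro h'
    exact h ⟨d, h'⟩

/-! ### the rational case -/

section rat

variable {K : Type} [CommRing K] [Algebra ℚ K]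

omit hp in
theorem log_unique {f g : InvSeries K} (hf : f ∈ strict K) (hg : g ∈ strict K) {G : Law K}
    (h : f⁻¹ • G = g⁻¹ • G) : f = g := by
  have key : ∀ n, ∀ k ≤ n, f.c k = g.c k := by
    intro n
    induction n with
    | zero =>
      intro k hk
      obtain rfl : k = 0 := by omega
      rw [mem_strict.1 hf, mem_strict.1 hg]
    | succ n ih =>
      intro k hk
      rcases Nat.lt_or_ge n k with hk' | hk'
      · obtain rfl : k = n + 1 := by omega
        have h1 := (log_compare hg ih G).2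
        rw [h, sub_self, eq_comm, neg_eq_zero, nsmul_eq_mul] at h1
        have h2 : IsUnit ((dC (n + 2) : ℕ) : K) := by
          rw [← map_natCast (algebraMap ℚ K)]
          exact (IsUnit.mk0 _ (by exact_mod_cast dC_pos.ne')).map _
        exact sub_eq_zero.1 (h2.mul_right_eq_zero.1 h1)
      · exact ih k hk'
  exact InvSeries.ext_c fun n => key n n le_rfl

/-- the extension of `φ` to `ℚ[v]` -/
def toQ (φ : VZ →+* K) : MvPolynomial ℕ ℚ →+* K :=
  MvPolynomial.eval₂Hom (algebraMap ℚ K) fun i => φ (MvPolynomial.X i)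

omit hp in
theorem toQ_comp (φ : VZ →+* K) : (toQ φ).comp hzI = φ := by
  refine VZ.ext fun i => ?_
  have h2 : hzI (MvPolynomial.X i) = MvPolynomial.X i := MvPolynomial.map_X _ _
  rw [RingHom.comp_apply, h2, toQ, MvPolynomial.eval₂Hom_X']

/-- the logarithm -/
def lg (φ : VZ →+* K) : InvSeries K := InvSeries.map (toQ φ) (hazInv p)

theorem lg_mem (φ : VZ →+* K) : lg p φ ∈ strict K := map_mem_strict _ (hazInv_mem p)

theorem hz_eq_lg (φ : VZ →+* K) : hz p φ = (lg p φ)⁻¹ • addLaw K := by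
  conv_lhs => rw [← toQ_comp φ]
  rw [hz, ← Law.map_map, haz_map, hazQ, InvSeries.map_smul, map_inv, map_addLaw, lg]

theorem lg_coeff_pow (φ : VZ →+* K) (n : ℕ) :
    PowerSeries.coeff (p ^ n) (lg p φ).val = toQ φ (ell p n) := by
  rw [lg, InvSeries.map_val, PowerSeries.coeff_map]
  exact congrArg _ (hazLog_coeff_pow p n)

theorem lg_coeff_of_ne (φ : VZ →+* K) {m : ℕ} (hm : ∀ k, m ≠ p ^ k) :
    PowerSeries.coeff m (lg p φ).val = 0 := by
  rw [lg, InvSeries.map_val, PowerSeries.coeff_map]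
  exact (congrArg _ (hazLog_coeff_of_ne p hm)).trans (map_zero _)

theorem lg_fs (φ : VZ →+* K) (t : ℕ → K) (k : ℕ) :
    (PowerSeries.subst (fs p (hz p φ) t k) (lg p φ).val : PowerSeries K) =
      ∑ j ∈ Finset.range (k + 1), (PowerSeries.subst
        (PowerSeries.C (th t j) * PowerSeries.X ^ p ^ j : PowerSeries K) (lg p φ).val :
          PowerSeries K) := by
  induction k with
  | zero =>
    rw [Finset.sum_range_one, th_zero, map_one, one_mul, pow_zero, pow_one]
    rfl
  | succ k ih =>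
    rw [Finset.sum_range_succ, ← ih, fs_succ, th_succ]
    have h1 := InvSeries.isHom_smul (lg p φ) (hz p φ)
    have h2 : lg p φ • hz p φ = addLaw K := by rw [hz_eq_lg, smul_inv_smul]
    rw [h2] at h1
    have h3 := IsHom_subst_add (τ := Unit) h1 (cc_fs p (hz p φ) t k) (cc_mono p (t k) (k + 1))
    refine h3.trans ?_
    have c0 := PowerSeries.constantCoeff_subst_eq_zero (cc_fs p (hz p φ) t k) _ (lg p φ).cc
    have c1 := PowerSeries.constantCoeff_subst_eq_zero (cc_mono p (t k) (k + 1)) _ (lg p φ).cc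
    have hs := hasSubst_cons c0 c1
    change MvPowerSeries.subst _ (addLaw K).ps = _
    rw [addLaw_ps, MvPowerSeries.subst_add hs, MvPowerSeries.subst_X hs, MvPowerSeries.subst_X hs]
    rfl

theorem lg_fs_pow (φ : VZ →+* K) (t : ℕ → K) (k n : ℕ) :
    PowerSeries.coeff (p ^ n)
      (PowerSeries.subst (fs p (hz p φ) t k) (lg p φ).val : PowerSeries K) =
      ∑ j ∈ Finset.range (k + 1),
        if j ≤ n then toQ φ (ell p (n - j)) * th t j ^ p ^ (n - j) else 0 := by
  rw [lg_fs, map_sum]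
  refine Finset.sum_congr rfl fun j _ => ?_
  rw [coeff_subst_mono _ _ (pow_pos hp.out.pos j)]
  by_cases h : j ≤ n
  · rw [if_pos h, if_pos (pow_dvd_pow _ h), Nat.pow_div h hp.out.pos, lg_coeff_pow]
  · rw [if_neg h, if_neg]
    intro h'
    exact h ((Nat.pow_dvd_pow_iff_le_right hp.out.one_lt).1 h')

theorem lg_fs_of_ne (φ : VZ →+* K) (t : ℕ → K) (k : ℕ) {m : ℕ} (hm : ∀ k, m ≠ p ^ k) :
    PowerSeries.coeff m
      (PowerSeries.subst (fs p (hz p φ) t k) (lg p φ).val : PowerSeries K) = 0 := by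
  rw [lg_fs, map_sum]
  refine Finset.sum_eq_zero fun j _ => ?_
  rw [coeff_subst_mono _ _ (pow_pos hp.out.pos j)]
  split_ifs with h
  · rw [lg_coeff_of_ne, zero_mul]
    intro i hi
    apply hm (j + i)
    rw [pow_add, ← hi, Nat.mul_div_cancel' h]
  · rfl

variable [PL p K]

theorem lg_etaT (φ : VZ →+* K) (t : ℕ → K) : lg p (etaT p φ t) = lg p φ * gT p φ t := by
  refine log_unique (G := addLaw K) (lg_mem p _) (mul_mem (lg_mem p _) (gT_mem p _ _)) ?_
  rw [← hz_eq_lg, hz_etaT, mul_inv_rev, mul_smul, ← hz_eq_lg]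

theorem ell_etaT (φ : VZ →+* K) (t : ℕ → K) (n : ℕ) :
    toQ (etaT p φ t) (ell p n) =
      ∑ j ∈ Finset.range (n + 1), toQ φ (ell p (n - j)) * th t j ^ p ^ (n - j) := by
  induction n using Nat.strong_induction_on with
  | _ n ih =>
    rcases n with _ | k
    · rw [Finset.sum_range_one, ell_zero, map_one, map_one, th_zero, one_pow, mul_one]
    · have h0 : PowerSeries.constantCoeff (lg p φ).val = 0 := (lg p φ).cc
      have h1 : PowerSeries.coeff 1 (lg p φ).val = 1 := lg_mem p φ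
      have hg : (PowerSeries.subst (gT p φ t).val (lg p φ).val : PowerSeries K) =
          (lg p (etaT p φ t)).val := by
        rw [lg_etaT]
        rfl
      have hA : AgreeLT (τ := Unit) (p ^ (k + 1)) (gT p φ t).val (fs p (hz p φ) t k) := by
        refine agree_of_subst h0 h1 h0 h1 (fun _ _ => rfl) (gT p φ t).cc (cc_fs p _ t k) ?_
        intro e he
        obtain ⟨m, rfl⟩ : ∃ m, e = Finsupp.single () m := ⟨e (), Finsupp.unique_single e⟩
        rw [Finsupp.degree_single] at he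
        change PowerSeries.coeff m (PowerSeries.subst (gT p φ t).val (lg p φ).val :
          PowerSeries K) = PowerSeries.coeff m _
        rw [hg]
        by_cases hm : ∃ n, m = p ^ n
        · obtain ⟨n, rfl⟩ := hm
          have hn : n < k + 1 := (Nat.pow_lt_pow_iff_right hp.out.one_lt).1 he
          rw [lg_coeff_pow, lg_fs_pow, ih n hn]
          refine Finset.sum_subset_zero_on_sdiff (Finset.range_mono (by omega)) ?_ ?_
          · intro j hj
            rw [Finset.mem_sdiff, Finset.mem_range, Finset.mem_range] at hj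
            rw [if_neg (by omega)]
          · intro j hj
            rw [Finset.mem_range] at hj
            rw [if_pos (by omega)]
        · rw [lg_coeff_of_ne p _ fun n hn => hm ⟨n, hn⟩, lg_fs_of_ne p _ _ _ fun n hn => hm ⟨n, hn⟩]
      have e1 := hz_coeff_subst' (τ := Unit) _ h0 h1 (gT p φ t).cc (Finsupp.single () (p ^ (k + 1)))
      have e2 := hz_coeff_subst' (τ := Unit) _ h0 h1 (cc_fs p (hz p φ) t k)
        (Finsupp.single () (p ^ (k + 1)))
      have e3 : ∑ m ∈ Finset.range (Finsupp.degree (Finsupp.single () (p ^ (k + 1)))),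
          PowerSeries.coeff (m + 2) (lg p φ).val * MvPowerSeries.coeff
            (Finsupp.single () (p ^ (k + 1))) ((gT p φ t).val ^ (m + 2)) =
          ∑ m ∈ Finset.range (Finsupp.degree (Finsupp.single () (p ^ (k + 1)))),
          PowerSeries.coeff (m + 2) (lg p φ).val * MvPowerSeries.coeff
            (Finsupp.single () (p ^ (k + 1))) (fs p (hz p φ) t k ^ (m + 2)) := by
        refine Finset.sum_congr rfl fun m _ => ?_
        congr 1
        exact hA.pow (gT p φ t).cc (cc_fs p _ t k) (by omega) _ (by simp)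
      have e4 : MvPowerSeries.coeff (Finsupp.single () (p ^ (k + 1))) (gT p φ t).val =
          t k + MvPowerSeries.coeff (Finsupp.single () (p ^ (k + 1))) (fs p (hz p φ) t k) := by
        have h := gT_c p φ t k
        rw [InvSeries.c, pow_sub_one_add] at h
        exact h
      have e5 : toQ (etaT p φ t) (ell p (k + 1)) = MvPowerSeries.coeff
          (Finsupp.single () (p ^ (k + 1)))
          (PowerSeries.subst (gT p φ t).val (lg p φ).val : PowerSeries K) := by
        rw [hg, ← lg_coeff_pow]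
        rfl
      have e6 := lg_fs_pow p φ t k (k + 1)
      change MvPowerSeries.coeff (Finsupp.single () (p ^ (k + 1))) _ = _ at e6
      rw [e5, e1, e3, e4, add_assoc, ← e2, e6, Finset.sum_range_succ _ (k + 1), Nat.sub_self,
        ell_zero, map_one, one_mul, pow_zero, pow_one, th_succ, add_comm]
      congr 1
      refine Finset.sum_congr rfl fun j hj => ?_
      rw [Finset.mem_range] at hj
      rw [if_pos (by omega)]

theorem LL_etaT_rat (φ : VZ →+* K) (t : ℕ → K) (n : ℕ) :
    etaT p φ t (LL p n) =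
      ∑ i ∈ Finset.range (n + 1), (p : K) ^ (n - i) * φ (LL p i) * th t (n - i) ^ p ^ i := by
  have h1 : ∀ (ψ : VZ →+* K) (m : ℕ), ψ (LL p m) = (p : K) ^ m * toQ ψ (ell p m) := by
    intro ψ m
    conv_lhs => rw [← toQ_comp ψ]
    rw [RingHom.comp_apply, hzI_LL, map_mul, map_pow, map_natCast]
  rw [h1, ell_etaT, Finset.mul_sum, ← Finset.sum_range_reflect]
  refine Finset.sum_congr rfl fun i hi => ?_
  rw [Finset.mem_range] at hi
  have h2 : n + 1 - 1 - i = n - i := by omega
  have h3 : n - (n - i) = i := by omega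
  have h4 : (p : K) ^ n = p ^ (n - i) * p ^ i := by
    rw [← pow_add]
    congr 1
    omega
  rw [h2, h3, h1, h4]
  ring

end rat

/-! ### the universal `p`-local rings -/

/-- the integers prime to `p` -/
def cop : Submonoid ℤ where
  carrier := {m | ¬ (p : ℤ) ∣ m}
  one_mem' := fun h => hp.out.one_lt.ne' (by exact_mod_cast Int.eq_one_of_dvd_one (by simp) h)
  mul_mem' := fun ha hb h =>
    ((Nat.prime_iff_prime_int.1 hp.out).dvd_or_dvd h).elim ha hb

/-- `ℤ_(p)` -/
abbrev Zp : Type := Localization (cop p)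

instance : PL p (Zp p) := ⟨fun m hm => by
  have h := IsLocalization.map_units (Zp p) (⟨(m : ℤ), fun h => hm (by exact_mod_cast h)⟩ : cop p)
  simpa using h⟩

theorem cop_unit [hB : PL p B] (y : cop p) : IsUnit (Int.castRingHom B (y : ℤ)) := by
  have h1 := hB.out (y : ℤ).natAbs fun h => y.2 (Int.natCast_dvd.2 h)
  rcases Int.natAbs_eq (y : ℤ) with h | h
  · rw [h]
    simpa using h1
  · rw [h]
    simpa using h1

/-- the structure map of a `p`-local ring -/
def zpTo (B : Type) [CommRing B] [PL p B] : Zp p →+* B := IsLocalization.lift (cop_unit p)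

instance : PL p ℚ := ⟨fun m hm => IsUnit.mk0 _ (by
  rintro h
  apply hm
  have : m = 0 := by exact_mod_cast h
  rw [this]
  exact dvd_zero _)⟩

theorem cop_le : cop p ≤ nonZeroDivisors ℤ := fun m hm =>
  mem_nonZeroDivisors_of_ne_zero (by
    rintro rfl
    exact hm (dvd_zero _))

theorem zpTo_rat_injective : Function.Injective (zpTo p ℚ) := by
  rw [zpTo, IsLocalization.lift_injective_iff]
  intro x y
  rw [(IsLocalization.injective (Zp p) (cop_le p)).eq_iff]
  exact Int.cast_injective.eq_iff.symm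

/-- the universal `p`-local ring on a set of variables -/
abbrev UZ (σ : Type) : Type := MvPolynomial σ (Zp p)

/-- evaluation -/
def uev {σ : Type} [PL p B] (x : σ → B) : UZ p σ →+* B := MvPolynomial.eval₂Hom (zpTo p B) x

@[simp] theorem uev_X {σ : Type} [PL p B] (x : σ → B) (i : σ) :
    uev p x (MvPolynomial.X i) = x i := MvPolynomial.eval₂Hom_X' _ _ _

theorem UZ_injective (σ : Type) :
    Function.Injective (MvPolynomial.map (zpTo p ℚ) : UZ p σ →+* MvPolynomial σ ℚ) :=
  MvPolynomial.map_injective _ (zpTo_rat_injective p)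

theorem UZ_cancel {σ : Type} (n : ℕ) {x : UZ p σ} (h : (p : UZ p σ) ^ n * x = 0) : x = 0 := by
  apply UZ_injective p σ
  have h1 := congrArg (MvPolynomial.map (zpTo p ℚ) : UZ p σ →+* MvPolynomial σ ℚ) h
  rw [map_mul, map_pow, map_natCast, map_zero] at h1
  rw [map_zero]
  exact (mul_eq_zero.1 h1).resolve_left (pow_ne_zero _ (by exact_mod_cast hp.out.ne_zero))

/-- the ring map `ℤ[v] → B` with given values -/
def vOf (v : ℕ → B) : VZ →+* B := MvPolynomial.eval₂Hom (Int.castRingHom B) v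

omit hp in
@[simp] theorem vOf_X (v : ℕ → B) (i : ℕ) : vOf v (MvPolynomial.X i) = v i :=
  MvPolynomial.eval₂Hom_X' _ _ _

omit hp in
theorem comp_vOf (θ : A →+* B) (v : ℕ → A) : θ.comp (vOf v) = vOf fun i => θ (v i) :=
  VZ.ext fun i => by rw [RingHom.comp_apply, vOf_X, vOf_X]

omit hp in
theorem vOf_eq (φ : VZ →+* B) : (vOf fun i => φ (MvPolynomial.X i)) = φ :=
  VZ.ext fun _ => vOf_X _ _

/-! ### the logarithmic identities -/

variable [PL p A] [PL p B]

/-- **The right unit on the logarithm.** -/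
theorem LL_etaT (φ : VZ →+* B) (t : ℕ → B) (n : ℕ) :
    etaT p φ t (LL p n) =
      ∑ i ∈ Finset.range (n + 1), (p : B) ^ (n - i) * φ (LL p i) * th t (n - i) ^ p ^ i := by
  set φ₀ : VZ →+* UZ p (ℕ ⊕ ℕ) := vOf fun i => MvPolynomial.X (Sum.inl i) with hφ₀
  set t₀ : ℕ → UZ p (ℕ ⊕ ℕ) := fun i => MvPolynomial.X (Sum.inr i) with ht₀
  have nat : ∀ {C : Type} [CommRing C] [PL p C] (θ : UZ p (ℕ ⊕ ℕ) →+* C),
      θ (etaT p φ₀ t₀ (LL p n) - ∑ i ∈ Finset.range (n + 1),
        (p : UZ p (ℕ ⊕ ℕ)) ^ (n - i) * φ₀ (LL p i) * th t₀ (n - i) ^ p ^ i) =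
      etaT p (θ.comp φ₀) (fun k => θ (t₀ k)) (LL p n) - ∑ i ∈ Finset.range (n + 1),
        (p : C) ^ (n - i) * (θ.comp φ₀) (LL p i) * th (fun k => θ (t₀ k)) (n - i) ^ p ^ i := by
    intro C _ _ θ
    rw [map_sub, map_etaT, map_sum]
    congr 1
    refine Finset.sum_congr rfl fun i _ => ?_
    rw [map_mul, map_mul, map_pow, map_pow, map_natCast, map_th, RingHom.comp_apply]
  have h0 : etaT p φ₀ t₀ (LL p n) - ∑ i ∈ Finset.range (n + 1),
      (p : UZ p (ℕ ⊕ ℕ)) ^ (n - i) * φ₀ (LL p i) * th t₀ (n - i) ^ p ^ i = 0 := by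
    apply UZ_injective p
    rw [nat, map_zero, LL_etaT_rat, sub_self]
  have h1 := nat (uev p (Sum.elim (fun i => φ (MvPolynomial.X i)) t))
  rw [h0, map_zero, hφ₀, comp_vOf, ht₀] at h1
  simp only [uev_X, Sum.elim_inl, Sum.elim_inr, vOf_eq] at h1
  exact sub_eq_zero.1 h1.symm

/-- **The coproduct on the logarithm.** -/
theorem LL_delT (φ : VZ →+* B) (t t' : ℕ → B) (n : ℕ) :
    ∑ i ∈ Finset.range (n + 1), (p : B) ^ (n - i) * φ (LL p i) * th (delT p φ t t') (n - i) ^ p ^ i =
      ∑ m ∈ Finset.range (n + 1), (p : B) ^ (n - m) *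
        (∑ i ∈ Finset.range (m + 1), (p : B) ^ (m - i) * φ (LL p i) * th t (m - i) ^ p ^ i) *
          th t' (n - m) ^ p ^ m := by
  rw [← LL_etaT, etaT_delT, LL_etaT]
  refine Finset.sum_congr rfl fun m _ => ?_
  rw [LL_etaT]

/-! ### congruences -/

omit hp in
theorem pow_dvd_sub_pow {R : Type} [CommRing R] {e : ℕ} (he : 1 ≤ e) {a b : R}
    (h : (p : R) ^ e ∣ a - b) (i : ℕ) : (p : R) ^ (e + i) ∣ a ^ p ^ i - b ^ p ^ i := by
  induction i with
  | zero => simpa using h
  | succ i ih =>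
    obtain ⟨c, hc⟩ := ih
    have h1 : a ^ p ^ i = b ^ p ^ i + (p : R) ^ (e + i) * c := by rw [← hc]; ring
    rw [pow_succ p i, pow_mul, pow_mul, h1]
    have h2 : (p : R) ∣ (p : R) ^ (e + i) * c :=
      (dvd_pow_self _ (by omega)).mul_right _
    have h3 := sq_dvd_add_pow_sub_sub ((p : R) ^ (e + i) * c) (b ^ p ^ i) p
    obtain ⟨d, hd⟩ := h3
    have h4 : (b ^ p ^ i + (p : R) ^ (e + i) * c) ^ p - (b ^ p ^ i) ^ p =
        ((p : R) ^ (e + i) * c) ^ 2 * d +
          (b ^ p ^ i) ^ (p - 1) * ((p : R) ^ (e + i) * c) * p := by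
      rw [← hd]
      ring
    rw [h4]
    refine dvd_add ?_ ⟨(b ^ p ^ i) ^ (p - 1) * c, by ring⟩
    obtain ⟨f, hf⟩ := h2
    exact ⟨c * f * d, by rw [sq]; nth_rewrite 2 [hf]; ring⟩

omit hp in
theorem pow_dvd_of_mul {R : Type} [CommRing R] (hR : ∀ (n : ℕ) (x : R), (p : R) ^ n * x = 0 → x = 0)
    {n e : ℕ} {x : R} (h : (p : R) ^ (n + e) ∣ (p : R) ^ n * x) : (p : R) ^ e ∣ x := by
  obtain ⟨c, hc⟩ := h
  exact ⟨c, sub_eq_zero.1 (hR n _ (by rw [mul_sub, hc]; ring))⟩

omit hp in
/-- a triangular system of the shape of the logarithmic identities determines its solution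
modulo `p^e` -/
theorem tri_congr {R : Type} [CommRing R] (hR : ∀ (n : ℕ) (x : R), (p : R) ^ n * x = 0 → x = 0)
    {e : ℕ} (he : 1 ≤ e) (s : ℕ) (L a b : ℕ → R) (hL : L 0 = 1) (N : ℕ)
    (h : ∀ n < N, (p : R) ^ (n + s + e) ∣
      ∑ i ∈ Finset.range (n + 1), (p : R) ^ (n + s - i) * L i * a (n - i) ^ p ^ i -
      ∑ i ∈ Finset.range (n + 1), (p : R) ^ (n + s - i) * L i * b (n - i) ^ p ^ i) :
    ∀ n < N, (p : R) ^ e ∣ a n - b n := by
  intro n
  induction n using Nat.strong_induction_on with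
  | _ n ih =>
    intro hn
    have h1 := h n hn
    rw [← Finset.sum_sub_distrib, Finset.sum_range_succ'] at h1
    have h2 : (p : R) ^ (n + s + e) ∣ ∑ i ∈ Finset.range n,
        ((p : R) ^ (n + s - (i + 1)) * L (i + 1) * a (n - (i + 1)) ^ p ^ (i + 1) -
          (p : R) ^ (n + s - (i + 1)) * L (i + 1) * b (n - (i + 1)) ^ p ^ (i + 1)) := by
      refine Finset.dvd_sum fun i hi => ?_
      rw [Finset.mem_range] at hi
      obtain ⟨c, hc⟩ := pow_dvd_sub_pow p he (ih (n - (i + 1)) (by omega) (by omega)) (i + 1)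
      refine ⟨L (i + 1) * c, ?_⟩
      have h3 : (p : R) ^ (n + s + e) = p ^ (n + s - (i + 1)) * p ^ (e + (i + 1)) := by
        rw [← pow_add]
        congr 1
        omega
      rw [← mul_sub, hc, h3]
      ring
    have h4 := (dvd_add_right h2).1 h1
    rw [hL, Nat.sub_zero, Nat.sub_zero, pow_zero, pow_one, pow_one, mul_one, ← mul_sub] at h4
    exact pow_dvd_of_mul p hR h4

/-- `η (LL n)` as an explicit sum -/
def LE (φ : VZ →+* B) (t : ℕ → B) (n : ℕ) : B :=
  ∑ i ∈ Finset.range (n + 1), (p : B) ^ (n - i) * φ (LL p i) * th t (n - i) ^ p ^ i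

theorem LL_etaT' (φ : VZ →+* B) (t : ℕ → B) (n : ℕ) : etaT p φ t (LL p n) = LE p φ t n :=
  LL_etaT p φ t n

/-- **Congruence lemma for the right unit.** -/
theorem etaT_congr (hR : ∀ (n : ℕ) (x : B), (p : B) ^ n * x = 0 → x = 0) {e : ℕ} (he : 1 ≤ e)
    (φ : VZ →+* B) (t a : ℕ → B) (N : ℕ)
    (h : ∀ n < N, (p : B) ^ (n + e) ∣ LE p φ t (n + 1) -
      ∑ i ∈ Finset.range (n + 1), (p : B) ^ (n - i) * LE p φ t i * a (n - i) ^ p ^ i) :
    ∀ n < N, (p : B) ^ e ∣ etaT p φ t (MvPolynomial.X n) - a n := by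
  refine tri_congr p hR he 0 (LE p φ t) _ a ?_ N fun n hn => ?_
  · rw [← LL_etaT', LL_zero, map_one]
  · have h1 := map_LL_succ p (etaT p φ t) n
    simp only [LL_etaT'] at h1
    simp only [Nat.add_zero]
    rw [← h1]
    exact h n hn

/-- **Congruence lemma for the coproduct.** -/
theorem delT_congr (hR : ∀ (n : ℕ) (x : B), (p : B) ^ n * x = 0 → x = 0) {e : ℕ} (he : 1 ≤ e)
    (φ : VZ →+* B) (t t' a : ℕ → B) (N : ℕ)
    (h : ∀ n < N, (p : B) ^ (n + 1 + e) ∣
      ∑ m ∈ Finset.range (n + 2), (p : B) ^ (n + 1 - m) * LE p φ t m * th t' (n + 1 - m) ^ p ^ m -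
      LE p φ a (n + 1)) :
    ∀ n < N, (p : B) ^ e ∣ delT p φ t t' n - a n := by
  refine tri_congr p hR he 1 (fun i => φ (LL p i)) _ a ?_ N fun n hn => ?_
  · rw [LL_zero, map_one]
  · have h1 := h n hn
    have h2 := LL_delT p φ t t' (n + 1)
    change LE p φ (delT p φ t t') (n + 1) = ∑ m ∈ Finset.range (n + 2),
      (p : B) ^ (n + 1 - m) * LE p φ t m * th t' (n + 1 - m) ^ p ^ m at h2
    rw [← h2] at h1
    have h3 : ∀ c : ℕ → B, LE p φ c (n + 1) = ∑ i ∈ Finset.range (n + 1),
        (p : B) ^ (n + 1 - i) * φ (LL p i) * c (n - i) ^ p ^ i + φ (LL p (n + 1)) := by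
      intro c
      rw [LE, Finset.sum_range_succ, Nat.sub_self, th_zero, pow_zero, one_pow, one_mul, mul_one]
      congr 1
      refine Finset.sum_congr rfl fun i hi => ?_
      rw [Finset.mem_range] at hi
      have h4 : n + 1 - i = (n - i) + 1 := by omega
      rw [h4, th_succ]
    rw [h3, h3, add_sub_add_right_eq_sub] at h1
    exact h1

end Vale.Agent.P236K.Alg
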