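import Vale.Agent.P236K.Alg.V1

/-!
# P236K / Alg / OpB : the cocycles of `α₁` and `β₁` in `Bi k` and their action on `W`
-/

set_option linter.unusedSectionVars false

noncomputable section

namespace Vale.Agent.P236K.Alg

open Vale.Agent.P217 Vale.Agent.P251.F Vale.Agent.P251.I Vale.Agent.P257.H80 MvPolynomial
open Vale.Agent.P236K.SS (cupC)

instance fact3 : Fact (Nat.Prime 3) := ⟨Nat.prime_three⟩

theorem wz_nonneg (p i : ℕ) : 0 ≤ wz p i := Int.natCast_nonneg _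

theorem wE_apply (p : ℕ) (e : Ex) : wE p e = ∑ i ∈ e.support, (e i : ℤ) * wz p i := by
  rw [wE, Finsupp.weight_apply, Finsupp.sum]
  simp only [nsmul_eq_mul]

theorem wE_single (p i n : ℕ) : wE p (Finsupp.single i n) = n * wz p i := by
  rw [wE, Finsupp.weight_single, nsmul_eq_mul]

theorem wE_nonneg (p : ℕ) (e : Ex) : 0 ≤ wE p e := by
  rw [wE_apply]
  exact Finset.sum_nonneg fun i _ => mul_nonneg (Int.natCast_nonneg _) (wz_nonneg p i)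

theorem le_wE (p : ℕ) (e : Ex) (i : ℕ) : (e i : ℤ) * wz p i ≤ wE p e := by
  by_cases h : i ∈ e.support
  · rw [wE_apply]
    exact Finset.single_le_sum (f := fun i => (e i : ℤ) * wz p i)
      (fun i _ => mul_nonneg (Int.natCast_nonneg _) (wz_nonneg p i)) h
  · rw [Finsupp.notMem_support_iff.1 h, Nat.cast_zero, zero_mul]
    exact wE_nonneg p e

theorem wz_mono {i j : ℕ} (h : i ≤ j) : wz 3 i ≤ wz 3 j := by
  rw [wz, wz]
  exact_mod_cast Nat.sub_le_sub_right (Nat.pow_le_pow_right (by norm_num) (by omega)) 1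

theorem apply_eq_zero_of_wE {e : Ex} {n i : ℕ} (h : wE 3 e < wz 3 n) (hi : n ≤ i) : e i = 0 := by
  by_contra h0
  have h1 : (1 : ℤ) ≤ e i := by exact_mod_cast Nat.one_le_iff_ne_zero.2 h0
  have h2 := le_wE 3 e i
  have h3 := wz_mono hi
  nlinarith [wz_nonneg 3 i]

theorem ex_of_wE_two {e : Ex} (h : wE 3 e = 2) : e = Finsupp.single 0 1 := by
  have h1 : e = Finsupp.single 0 (e 0) := by
    ext i
    rcases i with _ | i
    · simp
    · rw [apply_eq_zero_of_wE (n := 1) (by rw [h]; decide) (by omega)]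
      simp
  rw [h1, wE_single, show wz 3 0 = 2 from rfl] at h
  rw [h1, show e 0 = 1 by omega]

theorem WA.eq_two {k : Type} [CommRing k] {a : Av k} (ha : WA 3 2 a) :
    a = C (coeff (Finsupp.single 0 1) a) * X 0 := by
  classical
  ext e
  rw [X, C_mul_monomial, mul_one, coeff_monomial]
  split_ifs with h
  · rw [h]
  · by_contra h0
    exact h (ex_of_wE_two (ha h0)).symm

section cm

variable {p : ℕ} [hp : Fact p.Prime] {k : Type} [CommRing k] [PL p k]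

theorem evT_cm {k' : Type} [CommRing k'] [PL p k'] (κ : k →+* Bi k') {n : ℕ} (z : Cob Laz n) :
    evT κ (uT p k') (cm p k n z) = cm p k' n z := by
  rw [cm_apply, evT_cmp, cm_apply, cmp]

theorem cm_v1 (h0 : (p : k) = 0) : cm p k 0 (C (Laz.v p 1)) = X (0, 0) := by
  have h := cm_v (p := p) (k := k) 0
  rwa [HI_zero, cast_eq_zero_of C h0, Ideal.span_singleton_zero, Ideal.mem_bot, sub_eq_zero] at h

end cm

section three

variable {k : Type} [CommRing k] [PL 3 k]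

/-- the image of `t₁` -/
theorem cm_t (h3 : ((3 : ℕ) : k) = 0) {t : Cob Laz 1} (ht : IsT1 3 t) :
    cm 3 k 1 t = -X (1, 0) := by
  have hw : Cob.IsWt 2 (C (Laz.v 3 1) : Cob Laz 0) := isWt_v 3 1 (by norm_num) 0
  obtain ⟨a, hV⟩ : ∃ a, cm 3 (Zp 3) 0 (C (Laz.v 3 1)) = C a * X (0, 0) := by
    have h1 := (lev_cm (p := 3) (k := Zp 3) (C (Laz.v 3 1) : Cob Laz 0)).lv_rA
    have h2 : WA 3 2 (rA (Zp 3) (cm 3 (Zp 3) 0 (C (Laz.v 3 1)))) := by
      rw [← wt_lv (n := 0), h1]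
      exact wt_cm hw
    exact ⟨_, by rw [← h1, h2.eq_two, map_mul, lv_C, lv_X]⟩
  have h1 : cm 3 (Zp 3) 1 t + C a * X (1, 0) = 0 := by
    apply UZ_cancel 3 1
    have h2 := congrArg (cm 3 (Zp 3) 1) ht
    rw [map_zsmul, cm_d, hV, dB_eq ((lev_C 0 a).mul (lev_X le_rfl)), dP_apply,
      Finset.sum_range_one, map_mul, D_C, D_zero_X, etaT_X_zero', uT_φ] at h2
    simp only [zsmul_eq_mul] at h2
    push_cast at h2 ⊢
    linear_combination h2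
  have h2 := congrArg (evT (C.comp (zpTo 3 k)) (uT 3 k)) h1
  have h4 := congrArg (evT (C.comp (zpTo 3 k)) (uT 3 k)) hV
  rw [evT_cm, cm_v1 h3, map_mul, evT_C, evT_X, co_uT, RingHom.comp_apply] at h4
  have h5 := congrArg (coeff (Finsupp.single ((0, 0) : ℕ × ℕ) 1)) h4
  rw [coeff_C_mul, coeff_X, if_pos rfl, mul_one] at h5
  rw [map_add, evT_cm, map_mul, evT_C, evT_X, co_uT, RingHom.comp_apply, ← h5, C_1, one_mul,
    map_zero] at h2
  exact eq_neg_of_add_eq_zero_left h2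

theorem bcls_three (t : Cob Laz 1) : bcls 3 t = Cob.cup t (t ^ 2) + Cob.cup (t ^ 2) t := by
  rw [bcls, show Finset.Ioo 0 3 = {1, 2} from rfl, Finset.sum_pair (by norm_num)]
  simp

/-- the image of `b₀` -/
theorem cm_b (h3 : ((3 : ℕ) : k) = 0) {t : Cob Laz 1} (ht : IsT1 3 t) :
    cm 3 k 2 (bcls 3 t) = -(be1 3 k 0 (X 0 ^ 2) * sh 3 k 1 (be1 3 k 0 (X 0)) +
      be1 3 k 0 (X 0) * sh 3 k 1 (be1 3 k 0 (X 0 ^ 2))) := by
  rw [bcls_three, map_add, ← SS.cupC_rfl, ← SS.cupC_rfl, cm_cupC, cm_cupC, map_pow, cm_t h3 ht]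
  simp only [map_pow, map_neg, be1_X, zero_add]
  ring

end three

namespace Tw

variable {k G : Type} [CommRing k] [PL 3 k] [Fintype G] [DecidableEq G] (τ : Tw k G)

/-- the action of `α₁` -/
def Lt : (G → Av k) →+ (G → Av k) := -τ.act 3 (X 0)

/-- the action of `β₁` -/
def Lb : (G → Av k) →+ (G → Av k) :=
  -((τ.act 3 (X 0 ^ 2)).comp (τ.act 3 (X 0)) + (τ.act 3 (X 0)).comp (τ.act 3 (X 0 ^ 2)))

theorem Lt_apply (u : G → Av k) : τ.Lt u = -τ.act 3 (X 0) u := rfl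

theorem Lb_apply (u : G → Av k) : τ.Lb u =
    -(τ.act 3 (X 0 ^ 2) (τ.act 3 (X 0) u) + τ.act 3 (X 0) (τ.act 3 (X 0 ^ 2) u)) := rfl

/-- the unit of `W` -/
def one : G → Av k := Pi.single τ.g0 1

variable {τ}

theorem Lx_neg (s : ℕ) (x : Bi k) (u : G → Av k) : τ.Lx 3 s (-x) u = -τ.Lx 3 s x u := by
  rw [← neg_one_zsmul, Lx_zsmul, neg_one_zsmul]

theorem Lx_t (h3 : ((3 : ℕ) : k) = 0) {t : Cob Laz 1} (ht : IsT1 3 t) (u : G → Av k) :
    τ.Lx 3 1 (cm 3 k 1 t) u = τ.Lt u := by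
  rw [cm_t h3 ht, Lx_neg, Lt_apply, ← Lx_be1, be1_X]

theorem Lx_b (h3 : ((3 : ℕ) : k) = 0) {t : Cob Laz 1} (ht : IsT1 3 t) (u : G → Av k) :
    τ.Lx 3 2 (cm 3 k 2 (bcls 3 t)) u = τ.Lb u := by
  rw [cm_b h3 ht, Lx_neg, Lx_add, Lb_apply]
  congr 2
  · rw [← Lx_be1, ← Lx_be1]
    exact Lx_cup (lev_be1 0 _) (lev_be1 0 _) u
  · rw [← Lx_be1, ← Lx_be1]
    exact Lx_cup (lev_be1 0 _) (lev_be1 0 _) u

theorem Lx_cupC {s σ n : ℕ} (h : s + σ = n) (z : Cob Laz s) (b : Cob Laz σ) (u : G → Av k) :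
    τ.Lx 3 n (cm 3 k n (cupC h z b)) u = τ.Lx 3 σ (cm 3 k σ b) (τ.Lx 3 s (cm 3 k s z) u) := by
  obtain rfl : n = σ + s := by omega
  rw [cm_cupC, Lx_cup (lev_cm b) (lev_cm z)]

theorem Ps_eq_Lx {s : ℕ} (z : Cob Laz s) : τ.Ps 3 s z = τ.Lx 3 s (cm 3 k s z) τ.one := by
  rw [Ps_apply, Th_eq_Lx, one]

theorem Ps_cup_t (h3 : ((3 : ℕ) : k) = 0) {t : Cob Laz 1} (ht : IsT1 3 t) {s n : ℕ}
    (h : s + 1 = n) (z : Cob Laz s) : τ.Ps 3 n (cupC h z t) = τ.Lt (τ.Ps 3 s z) := by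
  rw [Ps_cupC, Lx_t h3 ht]

theorem Ps_cup_b (h3 : ((3 : ℕ) : k) = 0) {t : Cob Laz 1} (ht : IsT1 3 t) {s n : ℕ}
    (h : s + 2 = n) (z : Cob Laz s) : τ.Ps 3 n (cupC h z (bcls 3 t)) = τ.Lb (τ.Ps 3 s z) := by
  rw [Ps_cupC, Lx_b h3 ht]

theorem Ps_t (h3 : ((3 : ℕ) : k) = 0) {t : Cob Laz 1} (ht : IsT1 3 t) :
    τ.Ps 3 1 t = τ.Lt τ.one := by rw [Ps_eq_Lx, Lx_t h3 ht]

theorem Ps_b (h3 : ((3 : ℕ) : k) = 0) {t : Cob Laz 1} (ht : IsT1 3 t) :
    τ.Ps 3 2 (bcls 3 t) = τ.Lb τ.one := by rw [Ps_eq_Lx, Lx_b h3 ht]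

end Tw

end Vale.Agent.P236K.Alg
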