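import Vale.Agent.P236K.Alg.OpB
import Vale.Agent.P236K.Alg.FrmS

/-!
# P236K / Alg / Ops : the cocycles `h_j`, `b_j`, `β'_1`, `β'_2` and their action on `W`
-/

set_option linter.unusedSectionVars false

noncomputable section

namespace Vale.Agent.P236K.Alg

open Vale.Agent.P217 Vale.Agent.P251.F Vale.Agent.P251.I Vale.Agent.P257.H80 MvPolynomial
open Vale.Agent.P236K.SS (cupC ACob)
open Vale.Agent.P251.S (IC)

section bi

variable {k : Type} [CommRing k] [PL 3 k]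

theorem three_Bi (h3 : ((3 : ℕ) : k) = 0) : (3 : Bi k) = 0 := by
  have h := cast_eq_zero_of (C : k →+* Bi k) h3
  exact_mod_cast h

theorem three_Gam (h3 : ((3 : ℕ) : k) = 0) : (3 : Gam k) = 0 := by
  have h := cast_eq_zero_of ((C : Av k →+* Gam k).comp C) h3
  exact_mod_cast h

theorem add_pow_three_pow {R : Type} [CommRing R] (h3 : (3 : R) = 0) (a b : R) (j : ℕ) :
    (a + b) ^ 3 ^ j = a ^ 3 ^ j + b ^ 3 ^ j := by
  induction j with
  | zero => simp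
  | succ j ih =>
    rw [pow_succ, pow_mul, pow_mul, pow_mul, ih]
    linear_combination ((a ^ 3 ^ j) ^ 2 * b ^ 3 ^ j + a ^ 3 ^ j * (b ^ 3 ^ j) ^ 2) * h3

theorem dB_zero_eq {z : Bi k} (hz : Lev 0 z) : dB 3 k 0 z = D 3 k 0 z - z := by
  rw [dB_eq hz, dP_apply, Finset.sum_range_one]
  simp [sub_eq_add_neg]

theorem dB_one_eq {z : Bi k} (hz : Lev 1 z) : dB 3 k 1 z = D 3 k 0 z - D 3 k 1 z + z := by
  rw [dB_eq hz, dP_apply, Finset.sum_range_succ, Finset.sum_range_one]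
  simp [sub_eq_add_neg]

theorem dB_two_eq {z : Bi k} (hz : Lev 2 z) :
    dB 3 k 2 z = D 3 k 0 z - D 3 k 1 z + D 3 k 2 z - z := by
  rw [dB_eq hz, dP_apply, Finset.sum_range_succ, Finset.sum_range_succ, Finset.sum_range_one]
  norm_num [sub_eq_add_neg]

/-- the differential of a scalar -/
theorem dB_lv (a : Av k) : dB 3 k 0 (lv k 0 a) = be1 3 k 0 (etaA 3 k a - C a) := by
  rw [dB_zero_eq (lev_lv 0 a), map_sub, be1_etaA, be1_C, ← al_zero (p := 3), D_al le_rfl]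

/-- the differential of a multiple -/
theorem dB_lv_mul (s : ℕ) (a : Av k) (x : Bi k) : dB 3 k s (lv k 0 a * x) =
    lv k 0 a * dB 3 k s x + be1 3 k 0 (etaA 3 k a - C a) * D 3 k 0 x := by
  rw [dB, dP_apply, dP_apply, Finset.sum_range_succ', Finset.sum_range_succ' _ (s + 1), mul_add,
    Finset.mul_sum, add_assoc]
  congr 1
  · refine Finset.sum_congr rfl fun i _ => ?_
    rw [map_mul, D_of_lev (Nat.succ_pos i) (lev_lv 0 a), mul_smul_comm]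
  · rw [pow_zero, one_smul, one_smul, map_mul, map_sub, be1_etaA, be1_C, al_zero,
      ← al_zero (p := 3), D_al le_rfl, al_zero]
    ring

theorem D_X_t (j : ℕ) : D 3 k (j + 1) (X (j + 1, 0)) = X (j + 1, 0) + X (j + 2, 0) := by
  rw [D_X_self, delT_zero]

theorem wt_X (ji : ℕ × ℕ) : Wt 3 (wz 3 ji.2) (X ji : Bi k) := isWeightedHomogeneous_X _ _ _

theorem wt_Xt (n e : ℕ) : Wt 3 (2 * e) ((X (n, 0) : Bi k) ^ e) := by
  have h := (wt_X (k := k) (n, 0)).pow e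
  rwa [nsmul_eq_mul, mul_comm] at h

variable (k) in
/-- the cochain `[t₁ ^ e]` -/
def tB (e : ℕ) : Bi k := be1 3 k 0 (X 0 ^ e)

theorem tB_eq (e : ℕ) : tB k e = X (1, 0) ^ e := by rw [tB, map_pow, be1_X]

theorem tB_mem (e : ℕ) : tB k e ∈ CK 3 k Uall 1 (2 * e) :=
  ⟨lev_be1 0 _, by rw [tB_eq]; exact wt_Xt 1 e, mem_JM_all _⟩

/-- `h_j` is a cocycle -/
theorem dB_tB (h3 : ((3 : ℕ) : k) = 0) (j : ℕ) : dB 3 k 1 (tB k (3 ^ j)) = 0 := by
  rw [dB_one_eq (tB_mem _).1, tB_eq, map_pow, map_pow, D_X_of_ge le_rfl, D_X_t,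
    add_pow_three_pow (three_Bi h3)]
  ring

variable (k) in
/-- the cochain `[t₁ ^ (2 e) | t₁ ^ e] + [t₁ ^ e | t₁ ^ (2 e)]` -/
def bB (e : ℕ) : Bi k :=
  tB k (2 * e) * sh 3 k 1 (tB k e) + tB k e * sh 3 k 1 (tB k (2 * e))

theorem bB_eq (e : ℕ) : bB k e =
    (X (1, 0) ^ e) ^ 2 * X (2, 0) ^ e + X (1, 0) ^ e * (X (2, 0) ^ e) ^ 2 := by
  rw [bB, tB, tB, Tw.sh_be1, Tw.sh_be1]
  simp only [map_pow, be1_X, zero_add]
  ring

theorem bB_mem (e : ℕ) : bB k e ∈ CK 3 k Uall 2 (6 * e) := by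
  refine ⟨((tB_mem _).1.mono (by omega)).mul ((tB_mem _).1.sh 1) |>.add
    (((tB_mem _).1.mono (by omega)).mul ((tB_mem _).1.sh 1)), ?_, mem_JM_all _⟩
  have h1 := (tB_mem (k := k) (2 * e)).2.1.mul (Wt.sh (tB_mem (k := k) e).2.1 1)
  have h2 := (tB_mem (k := k) e).2.1.mul (Wt.sh (tB_mem (k := k) (2 * e)).2.1 1)
  rw [show (2 * ((2 * e : ℕ) : ℤ) + 2 * e) = 6 * e by push_cast; ring] at h1
  rw [show (2 * (e : ℤ) + 2 * ((2 * e : ℕ) : ℤ)) = 6 * e by push_cast; ring] at h2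
  exact h1.add h2

/-- `b_j` is a cocycle -/
theorem dB_bB (h3 : ((3 : ℕ) : k) = 0) (j : ℕ) : dB 3 k 2 (bB k (3 ^ j)) = 0 := by
  have e1 : D 3 k 2 (X (1, 0)) = X (1, 0) := D_of_lev (n := 1) (by omega) (lev_X le_rfl)
  rw [dB_two_eq (bB_mem _).1, bB_eq]
  simp only [map_add, map_mul, map_pow]
  rw [D_X_of_ge (j := 0) (m := 0) le_rfl, D_X_of_ge (j := 0) (m := 1) (by omega),
    D_X_of_ge (j := 1) (m := 1) le_rfl, D_X_t 0, D_X_t 1, e1,
    add_pow_three_pow (three_Bi h3), add_pow_three_pow (three_Bi h3)]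
  ring

variable (k) in
/-- `β'_1 = (η v₂ - v₂) / v₁` -/
def bt1 : Gam k := X 0 ^ 3 - C (X 0 ^ 2) * X 0

variable (k) in
/-- `β'_2 = (η v₂ ^ 2 - v₂ ^ 2) / v₁` -/
def bt2 : Gam k := C (2 * X 1) * X 0 ^ 3 + C (X 0 ^ 2 * X 1) * X 0 + C (X 0) * X 0 ^ 6 +
  C (X 0 ^ 3) * (X 0 ^ 4 + C (X 0 ^ 2) * X 0 ^ 2)

theorem etaA_v1 (h3 : ((3 : ℕ) : k) = 0) : etaA 3 k (X 0) = C (X 0) := by
  rw [etaA_X, etaT_X_zero 3 (cast_eq_zero_of ((C : Av k →+* Gam k).comp C) h3)]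
  simp

theorem etaA_v2 (h3 : ((3 : ℕ) : k) = 0) : etaA 3 k (X 1) = C (X 1) + C (X 0) * bt1 k := by
  have h := three_Gam h3
  rw [etaA_X, eta2_eq h, bt1]
  simp only [RingHom.comp_apply, io_X, map_pow]
  linear_combination (C (X 0) ^ 3 * X 0 : Gam k) * h

theorem etaA_v2_sq (h3 : ((3 : ℕ) : k) = 0) :
    etaA 3 k (X 1 ^ 2) = C (X 1 ^ 2) + C (X 0) * bt2 k := by
  have h := three_Gam h3
  rw [map_pow, etaA_v2 h3, bt1, bt2]
  simp only [map_pow, map_mul, map_ofNat]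
  linear_combination -(C (X 0) ^ 3 * C (X 1) * X 0 + C (X 0) ^ 4 * X 0 ^ 4 : Gam k) * h

/-- a class `(η a - a) / v₁ ^ j` is a cocycle -/
theorem dB_of_div (h3 : ((3 : ℕ) : k) = 0) {a : Av k} {y : Gam k} {j : ℕ}
    (h : etaA 3 k a = C a + C (X 0 ^ j) * y) : dB 3 k 1 (be1 3 k 0 y) = 0 := by
  have h1 := dB_dB (p := 3) (s := 0) (lv k 0 a)
  rw [dB_lv, h, add_sub_cancel_left, map_mul, be1_C, al_zero, ← vP_eq, dB_vP_mul h3] at h1
  exact vP_cancel h1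

theorem dB_bt1 (h3 : ((3 : ℕ) : k) = 0) : dB 3 k 1 (be1 3 k 0 (bt1 k)) = 0 :=
  dB_of_div h3 (j := 1) (by rw [etaA_v2 h3, pow_one])

theorem dB_bt2 (h3 : ((3 : ℕ) : k) = 0) : dB 3 k 1 (be1 3 k 0 (bt2 k)) = 0 :=
  dB_of_div h3 (j := 1) (by rw [etaA_v2_sq h3, pow_one])

theorem wt_term {a : Av k} {w w' : ℤ} (ha : WA 3 w a) (e : ℕ) (h : w + 2 * e = w') :
    Wt 3 w' (be1 3 k 0 (C a * X 0 ^ e)) := by
  rw [map_mul, be1_C, ← h]
  exact (wt_al 0 ha).mul (tB_mem e).2.1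

theorem wa_X (i : ℕ) : WA 3 (wz 3 i) (X i : Av k) := isWeightedHomogeneous_X _ _ _

theorem wa_v1 (e : ℕ) : WA 3 (2 * e) ((X 0 : Av k) ^ e) := by
  have h := (wa_X (k := k) 0).pow e
  rwa [nsmul_eq_mul, mul_comm] at h

theorem wa_v2 (e : ℕ) : WA 3 (8 * e) ((X 1 : Av k) ^ e) := by
  have h := (wa_X (k := k) 1).pow e
  rwa [nsmul_eq_mul, mul_comm] at h

theorem bt1_mem : be1 3 k 0 (bt1 k) ∈ CK 3 k Uall 1 6 := by
  refine ⟨lev_be1 0 _, ?_, mem_JM_all _⟩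
  have h1 := wt_term (k := k) (wa_v1 2) 1 (w' := 6) (by norm_num)
  rw [pow_one] at h1
  rw [bt1, map_sub]
  exact (weightedHomogeneousSubmodule k (wB 3) 6).sub_mem (tB_mem 3).2.1 h1

theorem bt2_mem : be1 3 k 0 (bt2 k) ∈ CK 3 k Uall 1 14 := by
  refine ⟨lev_be1 0 _, ?_, mem_JM_all _⟩
  have h0 : WA 3 8 (2 * X 1 : Av k) := by
    rw [two_mul]
    exact (wa_X 1).add (wa_X 1)
  have h1 := wt_term h0 3 (w' := 14) (by norm_num)
  have h2 := wt_term (k := k) ((wa_v1 2).mul (wa_X 1)) 1 (w' := 14) (by decide)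
  have h3 := wt_term (k := k) (wa_X 0) 6 (w' := 14) (by decide)
  have h4 := wt_term (k := k) (wa_v1 3) 4 (w' := 14) (by norm_num)
  have h5 := wt_term (k := k) ((wa_v1 3).mul (wa_v1 2)) 2 (w' := 14) (by norm_num)
  rw [pow_one] at h2
  rw [bt2, mul_add, ← mul_assoc, ← map_mul, map_add, map_add, map_add, map_add]
  exact ((h1.add h2).add h3).add (h4.add h5)

end bi

/-! ### `b₁` is not a coboundary -/

section nb

variable {k R : Type} [CommRing k] [CommRing R]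

/-- values of the variables -/
def fv (c0 c1 : R) (ji : ℕ × ℕ) : R := if ji = (1, 0) then c0 else if ji = (1, 1) then c1 else 0

theorem eval_wt18 (κ : k →+* R) {y : Bi k} (hy : Wt 3 18 y) : ∃ α β γ : k, ∀ c0 c1 : R,
    eval₂Hom κ (fv c0 c1) y = κ α * c0 ^ 9 + κ β * (c0 ^ 5 * c1) + κ γ * (c0 * c1 ^ 2) := by
  classical
  rw [y.as_sum]
  refine Finset.sum_induction _ (fun y => ∃ α β γ : k, ∀ c0 c1 : R,
    eval₂Hom κ (fv c0 c1) y = κ α * c0 ^ 9 + κ β * (c0 ^ 5 * c1) + κ γ * (c0 * c1 ^ 2)) ?_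
    ⟨0, 0, 0, fun c0 c1 => by simp⟩ fun m hm => ?_
  · rintro x z ⟨a, b, c, h⟩ ⟨a', b', c', h'⟩
    refine ⟨a + a', b + b', c + c', fun c0 c1 => ?_⟩
    rw [map_add, h, h', map_add, map_add, map_add]
    ring
  by_cases h : ∀ ji, ji ≠ (1, 0) → ji ≠ (1, 1) → m ji = 0
  · have e : m = Finsupp.single (1, 0) (m (1, 0)) + Finsupp.single (1, 1) (m (1, 1)) := by
      ext ji
      by_cases h0 : ji = (1, 0)
      · subst h0
        simp
      · by_cases h1 : ji = (1, 1)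
        · subst h1
          simp
        · rw [h ji h0 h1, Finsupp.add_apply, Finsupp.single_eq_of_ne h0,
            Finsupp.single_eq_of_ne h1, add_zero]
    have hw := hy (mem_support_iff.1 hm)
    generalize m (1, 0) = i at e
    generalize m (1, 1) = j at e
    have e2 : ∀ c0 c1 : R, eval₂Hom κ (fv c0 c1) (monomial m (coeff m y)) =
        κ (coeff m y) * (c0 ^ i * c1 ^ j) := fun c0 c1 => by
      have e3 : (monomial m (coeff m y) : Bi k) =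
          C (coeff m y) * (X (1, 0) ^ i * X (1, 1) ^ j) := by
        rw [X_pow_eq_monomial, X_pow_eq_monomial, monomial_mul, C_mul_monomial, ← e, mul_one,
          mul_one]
      rw [e3]
      simp [fv]
    rw [e, map_add, Finsupp.weight_single, Finsupp.weight_single, nsmul_eq_mul, nsmul_eq_mul,
      show wB 3 (1, 0) = 2 from rfl, show wB 3 (1, 1) = 8 from rfl] at hw
    have h1 : (i = 9 ∧ j = 0) ∨ (i = 5 ∧ j = 1) ∨ (i = 1 ∧ j = 2) := by omega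
    rcases h1 with ⟨rfl, rfl⟩ | ⟨rfl, rfl⟩ | ⟨rfl, rfl⟩
    · exact ⟨coeff m y, 0, 0, fun c0 c1 => by rw [e2]; simp⟩
    · exact ⟨0, coeff m y, 0, fun c0 c1 => by rw [e2]; simp⟩
    · exact ⟨0, 0, coeff m y, fun c0 c1 => by rw [e2]; simp⟩
  · refine ⟨0, 0, 0, fun c0 c1 => ?_⟩
    push Not at h
    obtain ⟨ji, h0, h1, h2⟩ := h
    rw [eval₂Hom_monomial, Finsupp.prod,
      Finset.prod_eq_zero (Finsupp.mem_support_iff.2 h2) (by
        rw [fv, if_neg h0, if_neg h1, zero_pow h2])]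
    simp

/-- a chain of isomorphisms of the additive law -/
def xAB (a b : R) : TP 3 R :=
  ⟨ph0 R, fun j i => if i = 0 then (if j = 0 then a else if j = 1 then b else 0) else 0⟩

theorem Lev.evT_fv {κ : k →+* R} {x : TP 3 R} {c0 c1 : R} (h0 : ∀ i, x.φ (X i) = 0)
    (h1 : ∀ i, x.T 0 i = fv c0 c1 (1, i)) {y : Bi k} (hy : Lev 1 y) :
    evT κ x y = eval₂Hom κ (fv c0 c1) y :=
  hy.hom_ext (RingHom.ext fun c => by simp) fun ⟨j, i⟩ h => by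
    rw [evT_X, eval₂Hom_X']
    rcases j with _ | _ | j
    · rw [TP.co_zero, h0]
      simp [fv]
    · rw [TP.co_succ, h1]
    · exact absurd h (by simp)

theorem ev_dB [PL 3 k] [PL 3 R] (h3 : ((3 : ℕ) : R) = 0) (κ : k →+* R) (a b : R) {y : Bi k}
    (hy : Lev 1 y) : evT κ (xAB a b) (dB 3 k 1 y) = eval₂Hom κ (fv b 0) y -
      eval₂Hom κ (fv (a + b) (a * b ^ 3)) y + eval₂Hom κ (fv a 0) y := by
  rw [dB_one_eq hy, map_add, map_sub, evT_D, evT_D]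
  refine congrArg₂ (· + ·) (congrArg₂ (· - ·) ?_ ?_) ?_
  · refine hy.evT_fv (fun i => ?_) fun i => ?_
    · rw [TP.del_zero_φ, TP.ph_succ, TP.ph_zero]
      exact etaT_of_zero 3 h3 (fun i => ph0_X i) _ i
    · rw [TP.del_zero_T]
      rcases i with _ | _ | i <;> simp [xAB, fv]
  · refine hy.evT_fv (fun i => ph0_X i) fun i => ?_
    rw [TP.del_T_self, TP.ph_zero, delT_of_zero 3 (φ := (xAB a b).φ) (fun i => ph0_X i)]
    rcases i with _ | _ | i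
    · simp [xAB, fv]
    · simp [xAB, fv]
    · rw [Finset.sum_eq_zero]
      · simp [xAB, fv]
      · intro j hj
        rcases j with _ | j
        · simp [xAB]
        · simp [xAB]
  · refine hy.evT_fv (fun i => ph0_X i) fun i => ?_
    rcases i with _ | _ | i <;> simp [xAB, fv]

theorem bB_three_not_CBd {c : ZMod 3} (hc : c ≠ 0) :
    C c * bB (ZMod 3) 3 ∉ CBd 3 (ZMod 3) Uall 18 2 := by
  rintro ⟨y, hy, h⟩
  have : PL 3 (Polynomial (ZMod 3)) := PL.of_hom 3 (Polynomial.C : ZMod 3 →+* _)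
  have h3 : ((3 : ℕ) : Polynomial (ZMod 3)) = 0 :=
    cast_eq_zero_of Polynomial.C (ZMod.natCast_self 3)
  obtain ⟨α, β, γ, he⟩ := eval_wt18 (Polynomial.C : ZMod 3 →+* _) hy.2.1
  have h1 := ev_dB h3 Polynomial.C Polynomial.X 1 hy.1
  rw [he, he, he, h, bB_eq] at h1
  simp only [map_add, map_mul, map_pow, evT_X, evT_C, TP.co_succ, xAB] at h1
  have h4 : (3 : Polynomial (ZMod 3)) = 0 := by exact_mod_cast h3
  have h2 : Polynomial.C (c + β) * Polynomial.X ^ 6 + Polynomial.C (2 * β) * Polynomial.X ^ 5 +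
      Polynomial.C β * Polynomial.X ^ 4 + Polynomial.C (c + β + γ) * Polynomial.X ^ 3 +
      Polynomial.C (2 * β + γ) * Polynomial.X ^ 2 + Polynomial.C β * Polynomial.X ^ 1 = 0 := by
    simp only [map_add, map_mul, map_ofNat]
    simp only [if_true, one_ne_zero, if_false, one_pow, mul_one] at h1
    linear_combination h1 - (Polynomial.C α * (3 * Polynomial.X ^ 8 + 12 * Polynomial.X ^ 7 +
      28 * Polynomial.X ^ 6 + 42 * Polynomial.X ^ 5 + 42 * Polynomial.X ^ 4 +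
      28 * Polynomial.X ^ 3 + 12 * Polynomial.X ^ 2 + 3 * Polynomial.X) +
      Polynomial.C β * (Polynomial.X ^ 5 + 3 * Polynomial.X ^ 4 + 3 * Polynomial.X ^ 3 +
        Polynomial.X ^ 2)) * h4
  have h5 := congrArg (fun q => Polynomial.coeff q 6) h2
  have h6 := congrArg (fun q => Polynomial.coeff q 1) h2
  simp only [Polynomial.coeff_add, Polynomial.coeff_C_mul_X_pow, Polynomial.coeff_zero] at h5 h6
  norm_num at h5 h6
  rw [h6, add_zero] at h5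
  exact hc h5

end nb

/-! ### cocycles of `Cob Laz` with a given image -/

/-- `y` is a cocycle modulo `3` of weight `v` with the image `x` -/
structure Op (σ : ℕ) (v : ℤ) (x : Bi (ZMod 3)) (y : Cob Laz σ) : Prop where
  wt : Cob.IsWt v y
  d : Cob.d σ y ∈ IC 3 1 (σ + 1)
  cm : cm 3 (ZMod 3) σ y = x

theorem h33 : ((3 : ℕ) : ZMod 3) = 0 := ZMod.natCast_self 3

theorem exists_op {σ : ℕ} {v : ℤ} {x : Bi (ZMod 3)} (hx : x ∈ CK 3 (ZMod 3) Uall σ v)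
    (hd : dB 3 (ZMod 3) σ x = 0) : ∃ y, Op σ v x y := by
  obtain ⟨z, h1, h2, h3⟩ := exists_cm hx hd
  exact ⟨z, h1, h2, h3⟩

theorem exists_op_h (j : ℕ) : ∃ y, Op 1 (2 * (3 ^ j : ℕ)) (tB _ (3 ^ j)) y :=
  exists_op (tB_mem _) (dB_tB h33 j)

theorem exists_op_b (j : ℕ) : ∃ y, Op 2 (6 * (3 ^ j : ℕ)) (bB _ (3 ^ j)) y :=
  exists_op (bB_mem _) (dB_bB h33 j)

theorem exists_op_h1 : ∃ y, Op 1 6 (tB _ 3) y := exists_op_h 1
theorem exists_op_h2 : ∃ y, Op 1 18 (tB _ 9) y := exists_op_h 2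
theorem exists_op_h3 : ∃ y, Op 1 54 (tB _ 27) y := exists_op_h 3
theorem exists_op_b1 : ∃ y, Op 2 18 (bB _ 3) y := exists_op_b 1
theorem exists_op_b2 : ∃ y, Op 2 54 (bB _ 9) y := exists_op_b 2

theorem exists_op_bt1 : ∃ y, Op 1 6 (be1 3 _ 0 (bt1 _)) y := exists_op bt1_mem (dB_bt1 h33)

theorem exists_op_bt2 : ∃ y, Op 1 14 (be1 3 _ 0 (bt2 _)) y := exists_op bt2_mem (dB_bt2 h33)

theorem Op.not_aCob_b1 {y : Cob Laz 2} (h : Op 2 18 (bB _ 3) y) : ¬ ACob 3 1 18 y := fun h1 => by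
  have h2 := CBd_of_aCob h1
  rw [h.cm] at h2
  exact bB_three_not_CBd one_ne_zero (by rwa [C_1, one_mul])

theorem IsV.op {j : ℕ} {b : Cob Laz 0} (h : IsV 3 j b) : Op 0 (2 * j) (vP _ j) b :=
  ⟨by have h1 := h.wt; rwa [mul_comm] at h1, h.d, h.cm⟩

theorem cm_t' {t : Cob Laz 1} (ht : IsT1 3 t) : cm 3 (ZMod 3) 1 t = -tB _ 1 := by
  rw [cm_t h33 ht, tB_eq, pow_one]

theorem cm_b' {t : Cob Laz 1} (ht : IsT1 3 t) : cm 3 (ZMod 3) 2 (bcls 3 t) = -bB _ 1 := by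
  rw [cm_b h33 ht, bB, tB, tB, mul_one, pow_one]

theorem Op.cup {σ σ' n : ℕ} {v v' w : ℤ} {x x' : Bi (ZMod 3)} {y : Cob Laz σ} {y' : Cob Laz σ'}
    (h : Op σ v x y) (h' : Op σ' v' x' y') (e : σ + σ' = n) (hw : v + v' = w) :
    Op n w (x' * sh 3 _ σ' x) (cupC e y y') :=
  ⟨SS.isWt_cupC e h.wt h'.wt hw, SS.d_cupC_mem e h.d h'.d, by rw [cm_cupC, h.cm, h'.cm]⟩

/-! ### the operators on `W` -/

namespace Tw

section act

variable {p : ℕ} {k G : Type} [CommRing k] [hp : Fact p.Prime] [PL p k] [Fintype G]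
  [DecidableEq G] {τ : Tw k G}

theorem act_add (y y' : Gam k) (u : G → Av k) :
    τ.act p (y + y') u = τ.act p y u + τ.act p y' u := by
  funext h
  simp only [act_apply, Pi.add_apply, add_mul, map_add, Finset.sum_add_distrib]

theorem act_sub (y y' : Gam k) (u : G → Av k) :
    τ.act p (y - y') u = τ.act p y u - τ.act p y' u := by
  funext h
  simp only [act_apply, Pi.sub_apply, sub_mul, map_sub, Finset.sum_sub_distrib]

theorem act_C_mul (a : Av k) (y : Gam k) (u : G → Av k) :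
    τ.act p (C a * y) u = a • τ.act p y u := by
  funext h
  simp only [act_apply, Pi.smul_apply, smul_eq_mul, mul_assoc, fn_C_mul, Finset.mul_sum]

theorem act_smul_eta (y : Gam k) (a : Av k) (u : G → Av k) :
    τ.act p y (a • u) = τ.act p (y * etaA p k a) u := by
  funext h
  simp only [act_apply, Pi.smul_apply, smul_eq_mul, map_mul, mul_assoc]

theorem act_smul_C (y : Gam k) (c : k) (u : G → Av k) :
    τ.act p y ((C c : Av k) • u) = (C c : Av k) • τ.act p y u := by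
  rw [act_smul_eta, etaA_C, mul_comm, act_C_mul]

end act

variable {k G : Type} [CommRing k] [PL 3 k] [Fintype G] [DecidableEq G] (τ : Tw k G)

/-- the action of `[t₁ ^ e]` -/
def Lh (e : ℕ) : (G → Av k) →+ (G → Av k) := τ.act 3 (X 0 ^ e)

/-- the action of `bB e` -/
def LB (e : ℕ) : (G → Av k) →+ (G → Av k) :=
  (τ.Lh (2 * e)).comp (τ.Lh e) + (τ.Lh e).comp (τ.Lh (2 * e))

variable {τ}

theorem Lh_apply (e : ℕ) (u : G → Av k) : τ.Lh e u = τ.act 3 (X 0 ^ e) u := rfl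

theorem Lh_monomial (e : ℕ) (u : G → Av k) :
    τ.Lh e u = τ.act 3 (monomial (Finsupp.single 0 e) 1) u := by
  rw [Lh_apply, X_pow_eq_monomial]

theorem LB_apply (e : ℕ) (u : G → Av k) :
    τ.LB e u = τ.Lh (2 * e) (τ.Lh e u) + τ.Lh e (τ.Lh (2 * e) u) := rfl

theorem Lt_eq (u : G → Av k) : τ.Lt u = -τ.Lh 1 u := by rw [Lt_apply, Lh_apply, pow_one]

theorem Lb_eq (u : G → Av k) : τ.Lb u = -τ.LB 1 u := by
  rw [Lb_apply, LB_apply]
  simp only [Lh_apply, mul_one, pow_one]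

theorem Lx_tB (e : ℕ) (u : G → Av k) : τ.Lx 3 1 (tB k e) u = τ.Lh e u := Lx_be1 _ u

theorem Lx_bB (e : ℕ) (u : G → Av k) : τ.Lx 3 2 (bB k e) u = τ.LB e u := by
  have h : ∀ a b : ℕ, τ.Lx 3 2 (tB k a * sh 3 k 1 (tB k b)) u = τ.Lh a (τ.Lh b u) := fun a b => by
    rw [← Lx_tB, ← Lx_tB]
    exact Lx_cup (a := 1) (b := 1) (tB_mem _).1 (tB_mem _).1 u
  rw [bB, Lx_add, LB_apply, h, h]

theorem act_v1_smul (h3 : ((3 : ℕ) : k) = 0) (y : Gam k) (j : ℕ) (u : G → Av k) :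
    τ.act 3 y ((X 0 ^ j : Av k) • u) = (X 0 ^ j : Av k) • τ.act 3 y u := by
  rw [act_smul_eta, map_pow, etaA_v1 h3, ← map_pow, mul_comm, act_C_mul]

theorem act_bt1 (u : G → Av k) :
    τ.act 3 (bt1 k) u = τ.Lh 3 u - (X 0 ^ 2 : Av k) • τ.Lh 1 u := by
  rw [bt1, act_sub, act_C_mul, Lh_apply, Lh_apply, pow_one]

theorem act_bt2 (u : G → Av k) : τ.act 3 (bt2 k) u =
    (2 * X 1 : Av k) • τ.Lh 3 u + (X 0 ^ 2 * X 1 : Av k) • τ.Lh 1 u + (X 0 : Av k) • τ.Lh 6 u +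
      (X 0 ^ 3 : Av k) • (τ.Lh 4 u + (X 0 ^ 2 : Av k) • τ.Lh 2 u) := by
  simp only [bt2, act_add, act_C_mul, Lh_apply, pow_one]

/-- the action of `β'_2` modulo `v₁ ^ 3` -/
theorem act_bt2_sub (u : G → Av k) : τ.act 3 (bt2 k) u -
    ((2 * X 1 : Av k) • τ.Lh 3 u + (X 0 ^ 2 * X 1 : Av k) • τ.Lh 1 u + (X 0 : Av k) • τ.Lh 6 u) ∈
      JW k G (U1 3) := by
  rw [act_bt2, add_sub_cancel_left]
  exact smul_mem_JW 3 _

/-- the action of `b ^ 3` -/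
theorem Lx_bbb (h3 : ((3 : ℕ) : k) = 0) {t : Cob Laz 1} (ht : IsT1 3 t) (u : G → Av k) :
    τ.Lx 3 6 (cm 3 k 6 (cupC (s := 4) (σ := 2) rfl
      (cupC (s := 2) (σ := 2) rfl (bcls 3 t) (bcls 3 t)) (bcls 3 t))) u =
      τ.Lb (τ.Lb (τ.Lb u)) := by
  rw [Lx_cupC, Lx_cupC, Lx_b h3 ht, Lx_b h3 ht, Lx_b h3 ht]

/-- the action of `b ^ 3 t` -/
theorem Lx_b3t (h3 : ((3 : ℕ) : k) = 0) {t : Cob Laz 1} (ht : IsT1 3 t) (u : G → Av k) :
    τ.Lx 3 7 (cm 3 k 7 (cupC (s := 6) (σ := 1) rfl (cupC (s := 4) (σ := 2) rfl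
      (cupC (s := 2) (σ := 2) rfl (bcls 3 t) (bcls 3 t)) (bcls 3 t)) t)) u =
      τ.Lt (τ.Lb (τ.Lb (τ.Lb u))) := by
  rw [Lx_cupC, Lx_bbb h3 ht, Lx_t h3 ht]

theorem Lt_Lb3 (u : G → Av k) :
    τ.Lt (τ.Lb (τ.Lb (τ.Lb u))) = τ.Lh 1 (τ.LB 1 (τ.LB 1 (τ.LB 1 u))) := by
  simp only [Lt_eq, Lb_eq, map_neg, neg_neg]

end Tw

namespace Op

variable {G : Type} [Fintype G] [DecidableEq G] {τ : Tw (ZMod 3) G} {σ s n : ℕ} {v : ℤ}

theorem Ps_cup {x : Bi (ZMod 3)} {y : Cob Laz σ} (h : Op σ v x y) (e : s + σ = n)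
    (z : Cob Laz s) : τ.Ps 3 n (cupC e z y) = τ.Lx 3 σ x (τ.Ps 3 s z) := by
  rw [Tw.Ps_cupC, h.cm]

theorem Ps_cup_h {j : ℕ} {y : Cob Laz 1} (h : Op 1 v (tB _ j) y) (e : s + 1 = n)
    (z : Cob Laz s) : τ.Ps 3 n (cupC e z y) = τ.Lh j (τ.Ps 3 s z) := by
  rw [h.Ps_cup, Tw.Lx_tB]

theorem Ps_cup_b {j : ℕ} {y : Cob Laz 2} (h : Op 2 v (bB _ j) y) (e : s + 2 = n)
    (z : Cob Laz s) : τ.Ps 3 n (cupC e z y) = τ.LB j (τ.Ps 3 s z) := by
  rw [h.Ps_cup, Tw.Lx_bB]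

theorem Ps_cup_act {g : Gam (ZMod 3)} {y : Cob Laz 1} (h : Op 1 v (be1 3 _ 0 g) y) (e : s + 1 = n)
    (z : Cob Laz s) : τ.Ps 3 n (cupC e z y) = τ.act 3 g (τ.Ps 3 s z) := by
  rw [h.Ps_cup, Tw.Lx_be1]

theorem Ps_cup_v {j : ℕ} {y : Cob Laz 0} (h : Op 0 v (vP _ j) y) (e : s + 0 = n)
    (z : Cob Laz s) : τ.Ps 3 n (cupC e z y) = (X 0 ^ j : Av (ZMod 3)) • τ.Ps 3 s z := by
  subst e
  rw [h.Ps_cup, Tw.Lx_vP]

end Op

end Vale.Agent.P236K.Alg
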