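import Vale.Agent.P236K.Alg.Tw

/-!
# P236K / Alg / Phi : applying a functional to the last isomorphism
-/

set_option linter.unusedSectionVars false

noncomputable section

namespace Vale.Agent.P236K.Alg

open Vale.Agent.P251.F MvPolynomial

/-- exponents of `Bi k` -/
abbrev Ex2 : Type := ℕ × ℕ →₀ ℕ

section split

variable {k : Type} [CommRing k]

variable (k) in
/-- the variables of level `n` -/
def lv (n : ℕ) : Av k →+* Bi k := (rename (Prod.mk n) : Av k →ₐ[k] Bi k)

@[simp] theorem lv_X (n i : ℕ) : lv k n (X i) = X (n, i) := rename_X _ _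
@[simp] theorem lv_C (n : ℕ) (c : k) : lv k n (C c) = C c := rename_C _ _
theorem lv_monomial (n : ℕ) (b : Ex) (c : k) :
    lv k n (monomial b c) = monomial (b.mapDomain (Prod.mk n)) c := rename_monomial _ _ _

theorem lev_lv (n : ℕ) (a : Av k) : Lev n (lv k n a) := by
  induction a using MvPolynomial.induction_on with
  | C c => rw [lv_C]; exact lev_C n c
  | add x y hx hy => rw [map_add]; exact hx.add hy
  | mul_X x i hx => rw [map_mul, lv_X]; exact hx.mul (lev_X le_rfl)

/-- the part of level `n` of an exponent -/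
def on (n : ℕ) (m : Ex2) : Ex := m.comapDomain (Prod.mk n) (Prod.mk_right_injective n).injOn

/-- the part of level different from `n` of an exponent -/
def off (n : ℕ) (m : Ex2) : Ex2 := m.filter fun ji => ji.1 ≠ n

theorem on_apply (n : ℕ) (m : Ex2) (i : ℕ) : on n m i = m (n, i) := rfl

theorem off_apply (n : ℕ) (m : Ex2) (ji : ℕ × ℕ) : off n m ji = if ji.1 ≠ n then m ji else 0 := rfl

theorem on_add (n : ℕ) (m m' : Ex2) : on n (m + m') = on n m + on n m' := by
  ext i
  rfl

theorem on_mono (n : ℕ) {m m' : Ex2} (h : m ≤ m') : on n m ≤ on n m' := fun i => h (n, i)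

theorem on_off {n j : ℕ} (h : j ≠ n) (m : Ex2) : on j (off n m) = on j m := by
  ext i
  rw [on_apply, off_apply, if_pos h, on_apply]

theorem on_mapDomain (n : ℕ) (b : Ex) : on n (b.mapDomain (Prod.mk n)) = b := by
  ext i
  exact Finsupp.mapDomain_apply (Prod.mk_right_injective n) _ _

theorem off_add_on (n : ℕ) (m : Ex2) : off n m + (on n m).mapDomain (Prod.mk n) = m := by
  ext ⟨j, i⟩
  rw [Finsupp.add_apply, off_apply]
  by_cases h : j = n
  · subst h
    rw [if_neg (by simp), zero_add, Finsupp.mapDomain_apply (Prod.mk_right_injective j), on_apply]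
  · rw [if_pos h, Finsupp.mapDomain_of_notMem_range, add_zero]
    rintro ⟨i', hi⟩
    exact h (congrArg Prod.fst hi).symm

theorem monomial_split (n : ℕ) (m : Ex2) (c : k) :
    (monomial m c : Bi k) = monomial (off n m) c * lv k n (monomial (on n m) 1) := by
  rw [lv_monomial, monomial_mul, off_add_on, mul_one]

theorem lev_off {n : ℕ} {z : Bi k} (hz : Lev (n + 1) z) {m : Ex2} (hm : m ∈ z.support) (c : k) :
    Lev n (monomial (off (n + 1) m) c : Bi k) := by
  classical
  refine lev_iff.2 fun m' hm' ji hji => ?_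
  rw [Finset.mem_singleton.1 (support_monomial_subset hm'), Finsupp.mem_support_iff,
    off_apply] at hji
  by_cases h : ji.1 = n + 1
  · exact absurd (if_neg (not_not.2 h)) hji
  · rw [if_pos h] at hji
    have := lev_iff.1 hz m hm ji (Finsupp.mem_support_iff.2 hji)
    omega

theorem Lev.ind {n : ℕ} {P : Bi k → Prop} (h0 : P 0) (hadd : ∀ x y, P x → P y → P (x + y))
    (hm : ∀ x b, Lev n x → P (x * lv k (n + 1) (monomial b 1))) {z : Bi k} (hz : Lev (n + 1) z) :
    P z := by
  rw [z.as_sum]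
  refine Finset.sum_induction _ P hadd h0 fun m hm' => ?_
  rw [monomial_split (n + 1)]
  exact hm _ _ (lev_off hz hm' _)

variable (k) in
/-- the retraction of `lv 0` -/
def rA : Bi k →+* Av k := eval₂Hom C fun ji => if ji.1 = 0 then X ji.2 else 0

theorem rA_lv (a : Av k) : rA k (lv k 0 a) = a := by
  have h : (rA k).comp (lv k 0) = RingHom.id _ :=
    ringHom_ext (fun c => by simp [rA]) fun i => by simp [rA]
  exact RingHom.congr_fun h a

theorem Lev.lv_rA {z : Bi k} (hz : Lev 0 z) : lv k 0 (rA k z) = z :=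
  hz.hom_ext (f := (lv k 0).comp (rA k)) (g := RingHom.id _)
    (RingHom.ext fun c => by simp [rA]) fun ⟨j, i⟩ h => by
      obtain rfl : j = 0 := Nat.le_zero.1 h
      simp [rA]

variable (k) in
/-- polynomials in the variables of level `n` -/
def split (n : ℕ) : Bi k →+* Av (Bi k) :=
  eval₂Hom (C.comp C) fun ji => if ji.1 = n then X ji.2 else C (X ji)

@[simp] theorem split_C (n : ℕ) (c : k) : split k n (C c) = C (C c) := by simp [split]
theorem split_X (n : ℕ) (ji : ℕ × ℕ) :
    split k n (X ji) = if ji.1 = n then X ji.2 else C (X ji) := by simp [split]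

theorem Lev.split {n : ℕ} {z : Bi k} (hz : Lev n z) : split k (n + 1) z = C z :=
  hz.hom_ext (RingHom.ext fun c => by simp) fun ji h => by rw [split_X, if_neg (by omega)]

/-! ### ideals and weights -/

/-- the extension of a monomial ideal -/
def JM (R : Type) [CommRing R] (U : UpperSet Ex) : Ideal (Bi R) :=
  restrictSupportIdeal R {m | on 0 m ∈ U} fun _ _ h hm => U.upper (on_mono 0 h) hm

theorem mem_JM {U : UpperSet Ex} {z : Bi k} : z ∈ JM k U ↔ ∀ m ∈ z.support, on 0 m ∈ U := Iff.rfl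

theorem monomial_mem_JM {U : UpperSet Ex} {m : Ex2} (hm : on 0 m ∈ U) (c : k) :
    monomial m c ∈ JM k U := mem_JM.2 fun _ h => by
  classical
  rwa [Finset.mem_singleton.1 (support_monomial_subset h)]

theorem JM_mono {U V : UpperSet Ex} (h : ∀ e ∈ U, e ∈ V) : JM k U ≤ JM k V :=
  fun _ ha => mem_JM.2 fun e he => h _ (mem_JM.1 ha e he)

theorem mem_JM_all (z : Bi k) : z ∈ JM k Uall := mem_JM.2 fun _ _ => mem_Uall _

theorem mem_JM_none {z : Bi k} : z ∈ JM k Unone ↔ z = 0 :=
  ⟨fun h => by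
    by_contra h0
    obtain ⟨m, hm⟩ := Finset.nonempty_iff_ne_empty.2 (mt support_eq_empty.1 h0)
    exact not_mem_Unone _ (mem_JM.1 h m hm), fun h => h ▸ zero_mem _⟩

theorem mul_mem_JM {U V W : UpperSet Ex} (h : ∀ e ∈ U, ∀ e' ∈ V, e + e' ∈ W) {x y : Bi k}
    (hx : x ∈ JM k U) (hy : y ∈ JM k V) : x * y ∈ JM k W := by
  classical
  refine mem_JM.2 fun m hm => ?_
  obtain ⟨a, ha, b, hb, rfl⟩ := Finset.mem_add.1 (support_mul x y hm)
  rw [on_add]
  exact h _ (mem_JM.1 hx a ha) _ (mem_JM.1 hy b hb)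

theorem mem_support_lv {n : ℕ} {a : Av k} {m : Ex2} :
    m ∈ (lv k n a).support ↔ ∃ e ∈ a.support, e.mapDomain (Prod.mk n) = m := by
  classical
  change m ∈ (rename (Prod.mk n) a).support ↔ _
  rw [support_rename_of_injective (Prod.mk_right_injective n), Finset.mem_image]

theorem lv_mem_JM {U : UpperSet Ex} {a : Av k} : lv k 0 a ∈ JM k U ↔ a ∈ JA k U := by
  rw [mem_JM, mem_JA]
  constructor
  · intro h e he
    rw [← on_mapDomain 0 e]
    exact h _ (mem_support_lv.2 ⟨e, he, rfl⟩)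
  · intro h m hm
    obtain ⟨e, he, rfl⟩ := mem_support_lv.1 hm
    rw [on_mapDomain]
    exact h e he

variable {p : ℕ}

theorem weight_mapDomain (n : ℕ) (b : Ex) :
    Finsupp.weight (wB p) (b.mapDomain (Prod.mk n)) = wE p b := by
  induction b using Finsupp.induction_linear with
  | zero => simp
  | add f g hf hg => rw [Finsupp.mapDomain_add, map_add, map_add, hf, hg]
  | single i e => rw [Finsupp.mapDomain_single, wE, Finsupp.weight_single, Finsupp.weight_single]; rfl

theorem weight_off (n : ℕ) (m : Ex2) :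
    Finsupp.weight (wB p) (off n m) = Finsupp.weight (wB p) m - wE p (on n m) := by
  conv_rhs => rw [← off_add_on n m]
  rw [map_add, weight_mapDomain, off_add_on, add_sub_cancel_right]

theorem weight_nonneg (m : Ex2) : 0 ≤ Finsupp.weight (wB p) m := by
  rw [Finsupp.weight_apply]
  exact Finset.sum_nonneg fun ji _ => nsmul_nonneg (Int.natCast_nonneg _) _

theorem wt_lv {n : ℕ} {w : ℤ} {a : Av k} : Wt p w (lv k n a) ↔ WA p w a := by
  constructor
  · intro h e he
    have h1 := h (mem_support_iff.1 (mem_support_lv.2 ⟨e, mem_support_iff.2 he, rfl⟩))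
    rwa [weight_mapDomain] at h1
  · intro h m hm
    obtain ⟨e, he, rfl⟩ := mem_support_lv.1 (mem_support_iff.2 hm)
    rw [weight_mapDomain]
    exact h (mem_support_iff.1 he)

theorem Wt.eq_zero {w : ℤ} {z : Bi k} (hz : Wt p w z) (hw : w < 0) : z = 0 := by
  by_contra h0
  obtain ⟨m, hm⟩ := Finset.nonempty_iff_ne_empty.2 (mt support_eq_empty.1 h0)
  have h1 := hz (mem_support_iff.1 hm)
  have h2 := weight_nonneg (p := p) m
  omega

/-- cochains of degree `n`, weight `w`, with coefficients in the ideal of `U` -/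
def CK (p : ℕ) (k : Type) [CommRing k] (U : UpperSet Ex) (n : ℕ) (w : ℤ) : AddSubgroup (Bi k) where
  carrier := {z | Lev n z ∧ Wt p w z ∧ z ∈ JM k U}
  zero_mem' := ⟨lev_zero n, isWeightedHomogeneous_zero _ _ _, zero_mem _⟩
  add_mem' := fun hx hy => ⟨hx.1.add hy.1, hx.2.1.add hy.2.1, add_mem hx.2.2 hy.2.2⟩
  neg_mem' := fun hx => ⟨hx.1.neg, neg_mem (s := weightedHomogeneousSubmodule k (wB p) _) hx.2.1,
    neg_mem hx.2.2⟩

theorem mem_CK {U : UpperSet Ex} {n : ℕ} {w : ℤ} {z : Bi k} :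
    z ∈ CK p k U n w ↔ Lev n z ∧ Wt p w z ∧ z ∈ JM k U := Iff.rfl

theorem off_mem_CK {U : UpperSet Ex} {n : ℕ} {w : ℤ} {z : Bi k} (hz : z ∈ CK p k U (n + 1) w)
    {m : Ex2} (hm : m ∈ z.support) (c : k) :
    monomial (off (n + 1) m) c ∈ CK p k U n (w - wE p (on (n + 1) m)) :=
  ⟨lev_off hz.1 hm c, isWeightedHomogeneous_monomial _ _ _ (by
      rw [weight_off, hz.2.1 (mem_support_iff.1 hm)]),
    monomial_mem_JM (by rw [on_off (by omega)]; exact mem_JM.1 hz.2.2 m hm) c⟩

theorem CK.ind {U : UpperSet Ex} {n : ℕ} {w : ℤ} {P : Bi k → Prop} (h0 : P 0)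
    (hadd : ∀ x y, P x → P y → P (x + y))
    (hm : ∀ x b, x ∈ CK p k U n (w - wE p b) → P (x * lv k (n + 1) (monomial b 1))) {z : Bi k}
    (hz : z ∈ CK p k U (n + 1) w) : P z := by
  rw [z.as_sum]
  refine Finset.sum_induction _ P hadd h0 fun m hm' => ?_
  rw [monomial_split (n + 1)]
  exact hm _ _ (off_mem_CK hz hm' _)

end split

section al

variable {p : ℕ} [hp : Fact p.Prime] {k : Type} [CommRing k] [PL p k]

variable (p k) in
/-- the parameters of the `n`-th law -/
def al (n : ℕ) : Av k →+* Bi k := aT C ((uT p k).ph n)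

@[simp] theorem al_C (n : ℕ) (c : k) : al p k n (C c) = C c := aT_C _ _ _

theorem al_zero : al p k 0 = lv k 0 :=
  ringHom_ext (fun c => by simp) fun i => by rw [al, aT_X, lv_X, TP.ph_zero, uT_φ]

theorem D_comp_al (j n : ℕ) : (D p k j).comp (al p k n) = aT C (F3.del j (uT p k).ph n) := by
  rw [al, comp_aT, D_comp_C, ← TP.ph_map, D, uT_map_evT, TP.ph_del]

theorem D_al {j n : ℕ} (h : j ≤ n) (a : Av k) : D p k j (al p k n a) = al p k (n + 1) a := by
  rw [← RingHom.comp_apply, D_comp_al, F3.del, if_neg (by omega)]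
  rfl

theorem lev_al (n : ℕ) (a : Av k) : Lev n (al p k n a) := by
  induction n with
  | zero => rw [al_zero]; exact lev_lv 0 a
  | succ n ih => rw [← D_al (Nat.zero_le n)]; exact ih.D 0

theorem wt_al (n : ℕ) {w : ℤ} {a : Av k} (ha : WA p w a) : Wt p w (al p k n a) := by
  induction n with
  | zero => rw [al_zero]; exact wt_lv.2 ha
  | succ n ih => rw [← D_al (Nat.zero_le n)]; exact ih.D 0

variable (p k) in
/-- `Gam k` placed at the `n`-th isomorphism -/
def be1 (n : ℕ) : Gam k →+* Bi k := eval₂Hom (al p k n) fun i => X (n + 1, i)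

@[simp] theorem be1_C (n : ℕ) (a : Av k) : be1 p k n (C a) = al p k n a := by simp [be1]
@[simp] theorem be1_X (n i : ℕ) : be1 p k n (X i) = X (n + 1, i) := by simp [be1]

theorem be1_comp_io (n : ℕ) : (be1 p k n).comp (io1 k) = (uT p k).ph n :=
  VZ.ext fun i => by simp [al]

theorem be1_etaA (n : ℕ) (a : Av k) : be1 p k n (etaA p k a) = al p k (n + 1) a := by
  have e1 : (be1 p k n).comp (C.comp C) = C := RingHom.ext fun c => by simp
  have e2 : (fun i => be1 p k n (X i)) = (uT p k).T n := funext fun i => be1_X n i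
  rw [← RingHom.comp_apply, map_etaA, be1_comp_io, al, TP.ph_succ, e1, e2]

theorem be1_mA (n : ℕ) (q : Av k) : be1 p k n (mA C q) = lv k (n + 1) q := by
  have h : (be1 p k n).comp (mA C) = lv k (n + 1) :=
    ringHom_ext (fun c => by simp) fun i => by simp
  exact RingHom.congr_fun h q

theorem be1_monomial (n : ℕ) (b : Ex) :
    be1 p k n (monomial b 1) = lv k (n + 1) (monomial b 1) := by
  rw [← be1_mA (p := p), mA_monomial, C_1]

theorem split_be1 (n : ℕ) (y : Gam k) : split k (n + 1) (be1 p k n y) = mA (al p k n) y := by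
  have h : (split k (n + 1)).comp (be1 p k n) = mA (al p k n) :=
    ringHom_ext (fun a => by simp [(lev_al n a).split]) fun i => by simp [split_X]
  exact RingHom.congr_fun h y

theorem lev_be1 (n : ℕ) (y : Gam k) : Lev (n + 1) (be1 p k n y) := by
  induction y using MvPolynomial.induction_on with
  | C a => rw [be1_C]; exact (lev_al n a).mono (Nat.le_succ n)
  | add x y hx hy => rw [map_add]; exact hx.add hy
  | mul_X x i hx => rw [map_mul, be1_X]; exact hx.mul (lev_X le_rfl)

theorem split_D_be1 (n : ℕ) (y : Gam k) :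
    split k (n + 2) (D p k (n + 1) (be1 p k n y)) = mA (be1 p k n) (delA p k y) := by
  have h : ((split k (n + 2)).comp (D p k (n + 1))).comp (be1 p k n) =
      (mA (be1 p k n)).comp (delA p k) := by
    refine ringHom_ext (fun a => ?_) fun i => ?_
    · simp only [RingHom.comp_apply, be1_C, delA_C, mA_C]
      rw [D_of_lev (Nat.lt_succ_self n) (lev_al n a),
        ((lev_al n a).mono (Nat.le_succ n)).split]
    · have e : (split k (n + 2)).comp ((uT p k).ph n) = (mA (be1 p k n)).comp (io2 k) := by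
        refine VZ.ext fun i => ?_
        have h1 : (uT p k).ph n (X i) = al p k n (X i) := (aT_X _ _ i).symm
        simp only [RingHom.comp_apply, io_X, mA_C, be1_C]
        rw [h1, ((lev_al n _).mono (Nat.le_succ n)).split]
      rw [RingHom.comp_apply, RingHom.comp_apply, RingHom.comp_apply, be1_X, D_X_self, map_delT,
        map_delA, e]
      simp [split_X]
  exact RingHom.congr_fun h y

theorem split_D {j n : ℕ} (h : j ≤ n) (z : Bi k) :
    split k (n + 2) (D p k j z) = mA (D p k j) (split k (n + 1) z) := by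
  have h : (split k (n + 2)).comp (D p k j) = (mA (D p k j)).comp (split k (n + 1)) := by
    refine ringHom_ext (fun c => by simp) fun ⟨m, i⟩ => ?_
    rw [RingHom.comp_apply, RingHom.comp_apply, split_X]
    rcases Nat.lt_or_ge m (n + 1) with h1 | h1
    · rw [if_neg (by omega), mA_C, ((lev_X (n := n) (by omega)).D j).split]
    · obtain ⟨m, rfl⟩ : ∃ m', m = m' + 1 := ⟨m - 1, by omega⟩
      rw [D_X_of_ge (by omega), split_X]
      by_cases h2 : m = n
      · rw [if_pos (by omega), if_pos (by omega), mA_X]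
      · rw [if_neg (by omega), if_neg (by omega), mA_C, D_X_of_ge (by omega)]
  exact RingHom.congr_fun h z

theorem be1_mem_JM {U : UpperSet Ex} {n : ℕ} (h : ∀ a ∈ JA k U, al p k n a ∈ JM k U) {y : Gam k}
    (hy : y ∈ (JA k U).map (C : Av k →+* Gam k)) : be1 p k n y ∈ JM k U := by
  have h1 : ((JA k U).map (C : Av k →+* Gam k)).map (be1 p k n) ≤ JM k U := by
    rw [Ideal.map_map, Ideal.map_le_iff_le_comap]
    intro a ha
    rw [Ideal.mem_comap, RingHom.comp_apply, be1_C]
    exact h a ha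
  exact h1 (Ideal.mem_map_of_mem _ hy)

theorem Inv.D_mem {U : UpperSet Ex} (hU : Inv p k U) (j : ℕ) {z : Bi k} (hz : z ∈ JM k U) :
    D p k j z ∈ JM k U := by
  rw [z.as_sum, map_sum]
  refine sum_mem fun m hm => ?_
  have he := mem_JM.1 hz m hm
  rw [monomial_split 0, map_mul]
  refine Ideal.mul_mem_left _ _ ?_
  rcases j with _ | j
  · rw [← al_zero (p := p), D_al le_rfl, ← be1_etaA]
    exact be1_mem_JM (fun a ha => by rw [al_zero]; exact lv_mem_JM.2 ha) (hU _ he)
  · rw [D_of_lev (Nat.succ_pos j) (lev_lv 0 _)]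
    exact lv_mem_JM.2 (monomial_mem_JA he 1)

theorem Inv.al_mem {U : UpperSet Ex} (hU : Inv p k U) (n : ℕ) {a : Av k} (ha : a ∈ JA k U) :
    al p k n a ∈ JM k U := by
  induction n with
  | zero => rw [al_zero]; exact lv_mem_JM.2 ha
  | succ n ih => rw [← D_al (Nat.zero_le n)]; exact hU.D_mem 0 ih

theorem Inv.D_CK {U : UpperSet Ex} (hU : Inv p k U) (j : ℕ) {n : ℕ} {w : ℤ} {z : Bi k}
    (hz : z ∈ CK p k U n w) : D p k j z ∈ CK p k U (n + 1) w :=
  ⟨hz.1.D j, Wt.D hz.2.1 j, hU.D_mem j hz.2.2⟩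

theorem Inv.dP_mem {U : UpperSet Ex} (hU : Inv p k U) (j : ℕ) {z : Bi k} (hz : z ∈ JM k U) :
    dP p k j z ∈ JM k U := by
  rw [dP_apply]
  exact sum_mem fun i _ => zsmul_mem (hU.D_mem i hz) _

theorem Inv.dP_CK {U : UpperSet Ex} (hU : Inv p k U) (j : ℕ) {n : ℕ} {w : ℤ} {z : Bi k}
    (hz : z ∈ CK p k U n w) : dP p k j z ∈ CK p k U (n + 1) w :=
  ⟨hz.1.dP j, Wt.dP hz.2.1 j, hU.dP_mem j hz.2.2⟩

/-! ### the maps `Ph1` -/

variable (p) in
/-- apply the functional `l` to the `n`-th isomorphism -/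
def Ph1 (l : Ex → Av k) (n : ℕ) : Bi k →+ Bi k :=
  (fn fun b => al p k n (l b)).toAddMonoidHom.comp (split k (n + 1)).toAddMonoidHom

theorem Ph1_apply (l : Ex → Av k) (n : ℕ) (z : Bi k) :
    Ph1 p l n z = fn (fun b => al p k n (l b)) (split k (n + 1) z) := rfl

theorem Ph1_D {j n : ℕ} (h : j ≤ n) (l : Ex → Av k) (z : Bi k) :
    Ph1 p l (n + 1) (D p k j z) = D p k j (Ph1 p l n z) := by
  rw [Ph1_apply, Ph1_apply, split_D h, map_fn]
  simp only [D_al h]

theorem Ph1_dP {j n : ℕ} (h : j ≤ n + 1) (l : Ex → Av k) (z : Bi k) :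
    Ph1 p l (n + 1) (dP p k j z) = dP p k j (Ph1 p l n z) := by
  rw [dP_apply, dP_apply, map_sum]
  refine Finset.sum_congr rfl fun i hi => ?_
  rw [map_zsmul, Ph1_D (by have := Finset.mem_range.1 hi; omega)]

theorem Ph1_mul {n : ℕ} {x : Bi k} (hx : Lev n x) (l : Ex → Av k) (z : Bi k) :
    Ph1 p l n (x * z) = x * Ph1 p l n z := by
  rw [Ph1_apply, Ph1_apply, map_mul, hx.split, fn_C_mul]

theorem Ph1_be1 (l : Ex → Av k) (n : ℕ) (y : Gam k) :
    Ph1 p l n (be1 p k n y) = al p k n (fn l y) := by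
  rw [Ph1_apply, split_be1, map_fn]

theorem Ph1_lv (l : Ex → Av k) (n : ℕ) (b : Ex) :
    Ph1 p l n (lv k (n + 1) (monomial b 1)) = al p k n (l b) := by
  rw [← be1_monomial (p := p), Ph1_be1, fn_one]

theorem Ph1_of_lev {n : ℕ} {x : Bi k} (hx : Lev n x) (l : Ex → Av k) :
    Ph1 p l n x = x * al p k n (l 0) := by
  rw [Ph1_apply, hx.split, fn_C]

theorem Ph1_D_be1 (l : Ex → Av k) (n : ℕ) (y : Gam k) :
    Ph1 p l (n + 1) (D p k (n + 1) (be1 p k n y)) = be1 p k n (op p l y) := by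
  rw [Ph1_apply, split_D_be1, op_apply, map_fn]
  simp only [be1_etaA]

theorem Ph1_D_mul {n : ℕ} {x : Bi k} (hx : Lev n x) (l : Ex → Av k) (y : Gam k) :
    Ph1 p l (n + 1) (D p k (n + 1) (x * be1 p k n y)) = x * be1 p k n (op p l y) := by
  rw [map_mul, D_of_lev (Nat.lt_succ_self n) hx, Ph1_mul (hx.mono (Nat.le_succ n)), Ph1_D_be1]

theorem Ph1_zero (n : ℕ) (z : Bi k) : Ph1 p (fun _ => 0) n z = 0 := by
  simp only [Ph1_apply, map_zero, fn_zero]

theorem Ph1_sum {ι : Type} (s : Finset ι) (l : ι → Ex → Av k) (n : ℕ) (z : Bi k) :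
    Ph1 p (fun b => ∑ i ∈ s, l i b) n z = ∑ i ∈ s, Ph1 p (l i) n z := by
  simp only [Ph1_apply, map_sum, fn_sum]

theorem Lev.Ph1 {n : ℕ} {z : Bi k} (hz : Lev (n + 1) z) (l : Ex → Av k) : Lev n (Ph1 p l n z) := by
  refine Lev.ind (P := fun z => Lev n (Alg.Ph1 p l n z)) ?_ (fun x y hx hy => ?_)
    (fun x b hx => ?_) hz
  · rw [map_zero]; exact lev_zero n
  · rw [map_add]; exact hx.add hy
  · rw [Ph1_mul hx, Ph1_lv]; exact hx.mul (lev_al n _)

theorem Ph1_CK {U : UpperSet Ex} {n : ℕ} {w c : ℤ} {l : Ex → Av k}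
    (hl : ∀ b, WA p (wE p b + c) (l b)) {z : Bi k} (hz : z ∈ CK p k U (n + 1) w) :
    Ph1 p l n z ∈ CK p k U n (w + c) := by
  refine CK.ind (P := fun z => Ph1 p l n z ∈ CK p k U n (w + c)) ?_ (fun x y hx hy => ?_)
    (fun x b hx => ?_) hz
  · rw [map_zero]; exact zero_mem _
  · rw [map_add]; exact add_mem hx hy
  · rw [Ph1_mul hx.1, Ph1_lv]
    refine ⟨hx.1.mul (lev_al n _), ?_, Ideal.mul_mem_right _ _ hx.2.2⟩
    have h := hx.2.1.mul (wt_al n (hl b))
    rwa [show w - wE p b + (wE p b + c) = w + c by ring] at h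

theorem Ph1_conv {n : ℕ} {z : Bi k} (hz : Lev (n + 1) z) (μ l : Ex → Av k) :
    Ph1 p μ n (Ph1 p l (n + 1) (D p k (n + 1) z)) = Ph1 p (conv p μ l) n z := by
  refine Lev.ind (P := fun z => Ph1 p μ n (Ph1 p l (n + 1) (D p k (n + 1) z)) =
    Ph1 p (conv p μ l) n z) ?_ (fun x y hx hy => ?_) (fun x b hx => ?_) hz
  · simp only [map_zero]
  · simp only [map_add, hx, hy]
  · rw [Ph1_mul hx, Ph1_lv, ← be1_monomial (p := p), Ph1_D_mul hx, Ph1_mul hx, Ph1_be1, conv]

theorem wt_eps (b : Ex) : WA p (wE p b + 0) (eps (Av k) b) := by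
  rw [eps]
  split_ifs with h
  · rw [h, map_zero, add_zero]
    exact isWeightedHomogeneous_one _ _
  · exact isWeightedHomogeneous_zero _ _ _

theorem Ph1_eps_of_lev {n : ℕ} {x : Bi k} (hx : Lev n x) : Ph1 p (eps (Av k)) n x = x := by
  rw [Ph1_of_lev hx, eps, if_pos rfl, map_one, mul_one]

theorem Ph1_eps_D {n : ℕ} {z : Bi k} (hz : Lev n z) : Ph1 p (eps (Av k)) n (D p k n z) = z := by
  rcases n with _ | n
  · rw [← hz.lv_rA, ← al_zero (p := p), D_al le_rfl, ← be1_etaA, Ph1_be1, fn_eps, cc_etaA]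
  · refine Lev.ind (P := fun z => Ph1 p (eps (Av k)) (n + 1) (D p k (n + 1) z) = z) ?_
      (fun x y hx hy => ?_) (fun x b hx => ?_) hz
    · simp only [map_zero]
    · simp only [map_add, hx, hy]
    · rw [← be1_monomial (p := p), Ph1_D_mul hx, op_eps]

variable (p k) in
/-- the shift by `a` levels -/
def sh : ℕ → (Bi k →+* Bi k)
  | 0 => RingHom.id _
  | a + 1 => (D p k 0).comp (sh a)

theorem sh_zero (z : Bi k) : sh p k 0 z = z := rfl
theorem sh_succ (a : ℕ) (z : Bi k) : sh p k (a + 1) z = D p k 0 (sh p k a z) := rfl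

theorem sh_al (a n : ℕ) (x : Av k) : sh p k a (al p k n x) = al p k (n + a) x := by
  induction a with
  | zero => rfl
  | succ a ih => rw [sh_succ, ih, D_al (Nat.zero_le _), add_assoc]

theorem sh_lv (a : ℕ) (x : Av k) : sh p k a (lv k 0 x) = al p k a x := by
  rw [← al_zero (p := p), sh_al, zero_add]

theorem Ph1_sh (l : Ex → Av k) (a n : ℕ) (z : Bi k) :
    Ph1 p l (n + a) (sh p k a z) = sh p k a (Ph1 p l n z) := by
  induction a with
  | zero => rfl
  | succ a ih => rw [sh_succ, sh_succ, ← add_assoc, Ph1_D (Nat.zero_le _), ih]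

theorem Lev.sh {n : ℕ} {z : Bi k} (hz : Lev n z) (a : ℕ) : Lev (n + a) (sh p k a z) := by
  induction a with
  | zero => exact hz
  | succ a ih =>
    rw [sh_succ, ← add_assoc]
    exact ih.D 0

theorem Wt.sh {w : ℤ} {z : Bi k} (hz : Wt p w z) (a : ℕ) : Wt p w (sh p k a z) := by
  induction a with
  | zero => exact hz
  | succ a ih =>
    rw [sh_succ]
    exact Wt.D ih 0

end al

end Vale.Agent.P236K.Alg
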