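import Mathlib.Algebra.BigOperators.Ring.List
import Mathlib.Algebra.BigOperators.Group.Finset.Basic
import Mathlib.Tactic.Ring
import Mathlib.Tactic.LinearCombination

/-!
# P236K / Alg / Pol : sparse polynomials for kernel evaluation

A polynomial is a list of pairs (key, coefficient); the digits of the key in base `128` are the
exponents. All operations are sound in every commutative ring with `M = 0`.
-/

noncomputable section

namespace Vale.Agent.P236K.Alg.Pol

variable {R : Type} [CommRing R]

/-- the monomial with a given key -/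
def mon : List R → ℕ → R
  | [], _ => 1
  | x :: xs, k => x ^ (k % 128) * mon xs (k / 128)

/-- the first `n` digits are `< 64` -/
def ok (n : ℕ) : ℕ → Bool :=
  Nat.rec (fun _ => true) (fun _ r k => cond (Nat.blt (k % 128) 64) (r (k / 128)) false) n

theorem ok_succ (n k : ℕ) : ok (n + 1) k = true ↔ k % 128 < 64 ∧ ok n (k / 128) = true := by
  change cond (Nat.blt (k % 128) 64) (ok n (k / 128)) false = true ↔ _
  rcases h : Nat.blt (k % 128) 64 with _ | _
  · have : ¬ k % 128 < 64 := fun h' => by
      rw [← Nat.blt_eq, h] at h'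
      exact Bool.false_ne_true h'
    simp [this]
  · rw [Nat.blt_eq] at h
    simp [h]

theorem mon_zero (xs : List R) : mon xs 0 = 1 := by
  induction xs with
  | nil => rfl
  | cons x xs ih => simp [mon, ih]

theorem mon_add (xs : List R) {a b : ℕ} (ha : ok xs.length a = true)
    (hb : ok xs.length b = true) : mon xs (a + b) = mon xs a * mon xs b := by
  induction xs generalizing a b with
  | nil => simp [mon]
  | cons x xs ih =>
    rw [List.length_cons, ok_succ] at ha hb
    have h1 : (a + b) % 128 = a % 128 + b % 128 := by omega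
    have h2 : (a + b) / 128 = a / 128 + b / 128 := by omega
    rw [mon, mon, mon, h1, h2, ih ha.2 hb.2, pow_add]
    ring

theorem mon_pow (xs : List R) {i : ℕ} (hi : i < xs.length) : mon xs (128 ^ i) = xs[i] := by
  induction xs generalizing i with
  | nil => simp at hi
  | cons x xs ih =>
    rcases i with _ | i
    · simp [mon, mon_zero]
    · have h1 : 128 ^ (i + 1) % 128 = 0 := by rw [pow_succ, Nat.mul_mod_left]
      have h2 : 128 ^ (i + 1) / 128 = 128 ^ i := by
        rw [pow_succ, Nat.mul_div_cancel _ (by norm_num)]
      rw [mon, h1, h2, ih (by simpa using hi), pow_zero, one_mul]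
      rfl

theorem map_mon {S : Type} [CommRing S] (θ : R →+* S) (xs : List R) (k : ℕ) :
    θ (mon xs k) = mon (xs.map θ) k := by
  induction xs generalizing k with
  | nil => exact map_one θ
  | cons x xs ih => rw [List.map_cons, mon, mon, map_mul, map_pow, ih]

/-- sparse polynomials -/
abbrev P : Type := List (ℕ × ℕ)

/-- evaluation -/
def ev (xs : List R) : P → R
  | [] => 0
  | x :: l => (x.2 : R) * mon xs x.1 + ev xs l

@[simp] theorem ev_nil (xs : List R) : ev xs [] = 0 := rfl

@[simp] theorem ev_cons (xs : List R) (x : ℕ × ℕ) (l : P) :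
    ev xs (x :: l) = (x.2 : R) * mon xs x.1 + ev xs l := rfl

theorem map_ev {S : Type} [CommRing S] (θ : R →+* S) (xs : List R) (l : P) :
    θ (ev xs l) = ev (xs.map θ) l := by
  induction l with
  | nil => exact map_zero θ
  | cons x l ih => rw [ev_cons, ev_cons, map_add, map_mul, map_natCast, map_mon, ih]

/-- add a term unless the coefficient is zero (evaluates the coefficient) -/
def cz (k c : ℕ) (l : P) : P := Nat.rec l (fun m _ => (k, Nat.succ m) :: l) c

theorem ev_cz (xs : List R) (k c : ℕ) (l : P) :
    ev xs (cz k c l) = (c : R) * mon xs k + ev xs l := by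
  rcases c with _ | c
  · simp [cz]
  · rfl

/-- evaluate a number -/
def fN {α : Type} (n : ℕ) (f : ℕ → α) : α := Nat.rec (f 0) (fun m _ => f (Nat.succ m)) n

theorem fN_eq {α : Type} (n : ℕ) (f : ℕ → α) : fN n f = f n := by
  rcases n with _ | n <;> rfl

/-- evaluate a list -/
def fL {α : Type} (l : P) : (P → α) → α :=
  List.rec (fun f => f []) (fun x _ r f => r fun l => f (x :: l)) l

theorem fL_eq {α : Type} (l : P) (f : P → α) : fL l f = f l := by
  induction l generalizing f with
  | nil => rfl
  | cons x l ih => exact ih _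

theorem cast_mod {M : ℕ} (hM : (M : R) = 0) (c : ℕ) : ((c % M : ℕ) : R) = c := by
  conv_rhs => rw [← Nat.mod_add_div c M]
  push_cast
  rw [hM, zero_mul, add_zero]

/-- sum -/
def add (M : ℕ) (a : P) : P → P :=
  List.rec (fun b => b) (fun x a' ra b => List.rec (x :: a') (fun y b' rb =>
    cond (Nat.blt x.1 y.1) (x :: ra (y :: b'))
      (cond (Nat.beq x.1 y.1) (cz x.1 ((x.2 + y.2) % M) (ra b')) (y :: rb))) b) a

theorem ev_add {M : ℕ} (hM : (M : R) = 0) (xs : List R) (a b : P) :
    ev xs (add M a b) = ev xs a + ev xs b := by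
  induction a generalizing b with
  | nil => exact (zero_add _).symm
  | cons x a ih =>
    induction b with
    | nil => exact (add_zero _).symm
    | cons y b ihb =>
      change ev xs (cond (Nat.blt x.1 y.1) (x :: add M a (y :: b))
        (cond (Nat.beq x.1 y.1) (cz x.1 ((x.2 + y.2) % M) (add M a b))
          (y :: add M (x :: a) b))) = _
      rcases Nat.blt x.1 y.1 with _ | _
      · rcases h : Nat.beq x.1 y.1 with _ | _
        · rw [cond_false, cond_false, ev_cons, ihb, ev_cons, ev_cons]
          ring
        · rw [cond_false, cond_true, ev_cz, ih, cast_mod hM, ev_cons, ev_cons,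
            ← Nat.eq_of_beq_eq_true h]
          push_cast
          ring
      · rw [cond_true, ev_cons, ih, ev_cons, ev_cons]
        ring

/-- all keys are small -/
def okP (n : ℕ) (a : P) : Bool := List.rec true (fun x _ r => cond (ok n x.1) r false) a

theorem okP_cons (n : ℕ) (x : ℕ × ℕ) (a : P) :
    okP n (x :: a) = true ↔ ok n x.1 = true ∧ okP n a = true := by
  change cond (ok n x.1) (okP n a) false = true ↔ _
  rcases ok n x.1 with _ | _ <;> simp

/-- product with a term -/
def sc (M k c : ℕ) (b : P) : P :=
  List.rec [] (fun y _ r => fN (k + y.1) fun k' => cz k' (c * y.2 % M) r) b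

theorem ev_sc {M : ℕ} (hM : (M : R) = 0) (xs : List R) {k : ℕ} (hk : ok xs.length k = true)
    (c : ℕ) {b : P} (hb : okP xs.length b = true) :
    ev xs (sc M k c b) = (c : R) * mon xs k * ev xs b := by
  induction b with
  | nil => exact (mul_zero _).symm
  | cons y b ih =>
    rw [okP_cons] at hb
    change ev xs (fN (k + y.1) fun k' => cz k' (c * y.2 % M) (sc M k c b)) = _
    rw [fN_eq, ev_cz, ih hb.2, cast_mod hM, mon_add xs hk hb.1, ev_cons]
    push_cast
    ring

/-- product (the first factor should be the short one) -/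
def mul (M : ℕ) (a b : P) : P := List.rec [] (fun x _ r => add M (sc M x.1 x.2 b) r) a

theorem ev_mul {M : ℕ} (hM : (M : R) = 0) (xs : List R) {a b : P}
    (ha : okP xs.length a = true) (hb : okP xs.length b = true) :
    ev xs (mul M a b) = ev xs a * ev xs b := by
  induction a with
  | nil => exact (zero_mul _).symm
  | cons x a ih =>
    rw [okP_cons] at ha
    change ev xs (add M (sc M x.1 x.2 b) (mul M a b)) = _
    rw [ev_add hM, ev_sc hM xs ha.1 _ hb, ih ha.2, ev_cons]
    ring

/-- equality test -/
def eqP (a : P) : P → Bool :=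
  List.rec (fun b => List.rec true (fun _ _ _ => false) b) (fun x _ r b =>
    List.rec false (fun y b' _ => cond (Nat.beq x.1 y.1) (cond (Nat.beq x.2 y.2) (r b') false)
      false) b) a

theorem eq_of_eqP {a b : P} (h : eqP a b = true) : a = b := by
  induction a generalizing b with
  | nil =>
    rcases b with _ | ⟨y, b⟩
    · rfl
    · exact absurd h Bool.false_ne_true
  | cons x a ih =>
    rcases b with _ | ⟨y, b⟩
    · exact absurd h Bool.false_ne_true
    · change cond (Nat.beq x.1 y.1) (cond (Nat.beq x.2 y.2) (eqP a b) false) false = true at h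
      rcases h1 : Nat.beq x.1 y.1 with _ | _
      · rw [h1] at h
        exact absurd h Bool.false_ne_true
      · rcases h2 : Nat.beq x.2 y.2 with _ | _
        · rw [h1, h2] at h
          exact absurd h Bool.false_ne_true
        · rw [h1, h2] at h
          rw [ih h, Prod.ext (Nat.eq_of_beq_eq_true h1) (Nat.eq_of_beq_eq_true h2)]

/-- expressions -/
inductive E : Type
  | lit : P → E
  | add : E → E → E
  | mul : E → E → E
  | cube : E → E

/-- the value of an expression -/
def E.val (xs : List R) : E → R
  | .lit a => ev xs a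
  | .add a b => a.val xs + b.val xs
  | .mul a b => a.val xs * b.val xs
  | .cube a => a.val xs ^ 3

/-- normal form, in continuation style; `false` if a key is too large -/
def run (M n : ℕ) (e : E) : (P → Bool) → Bool :=
  E.rec (fun a f => f a) (fun _ _ ra rb f => ra fun a => rb fun b => fL (add M a b) f)
    (fun _ _ ra rb f => ra fun a => rb fun b =>
      cond (okP n a) (cond (okP n b) (fL (mul M a b) f) false) false)
    (fun _ ra f => ra fun a => cond (okP n a) (fL (mul M a a) fun b =>
      cond (okP n b) (fL (mul M a b) f) false) false) e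

theorem run_sound {M : ℕ} (hM : (M : R) = 0) (xs : List R) (e : E) (f : P → Bool)
    (h : run M xs.length e f = true) : ∃ a, ev xs a = e.val xs ∧ f a = true := by
  induction e generalizing f with
  | lit a => exact ⟨a, rfl, h⟩
  | add a b iha ihb =>
    obtain ⟨a', ha, h1⟩ := iha _ h
    obtain ⟨b', hb, h2⟩ := ihb _ h1
    rw [fL_eq] at h2
    exact ⟨_, by rw [ev_add hM, ha, hb, E.val], h2⟩
  | mul a b iha ihb =>
    obtain ⟨a', ha, h1⟩ := iha _ h
    obtain ⟨b', hb, h2⟩ := ihb _ h1
    rcases h3 : okP xs.length a' with _ | _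
    · rw [h3] at h2
      exact absurd h2 Bool.false_ne_true
    · rcases h4 : okP xs.length b' with _ | _
      · rw [h3, h4] at h2
        exact absurd h2 Bool.false_ne_true
      · rw [h3, h4, cond_true, cond_true, fL_eq] at h2
        exact ⟨_, by rw [ev_mul hM xs h3 h4, ha, hb, E.val], h2⟩
  | cube a iha =>
    obtain ⟨a', ha, h1⟩ := iha _ h
    rcases h3 : okP xs.length a' with _ | _
    · rw [h3] at h1
      exact absurd h1 Bool.false_ne_true
    · rw [h3, cond_true, fL_eq] at h1
      rcases h4 : okP xs.length (mul M a' a') with _ | _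
      · rw [h4] at h1
        exact absurd h1 Bool.false_ne_true
      · rw [h4, cond_true, fL_eq] at h1
        refine ⟨_, ?_, h1⟩
        rw [ev_mul hM xs h3 h4, ev_mul hM xs h3 h3, ha, E.val]
        ring

/-- test for the equality of two expressions -/
def chk (M n : ℕ) (e e' : E) : Bool := run M n e fun a => run M n e' fun b => eqP a b

theorem chk_sound {M : ℕ} (hM : (M : R) = 0) (xs : List R) {e e' : E}
    (h : chk M xs.length e e' = true) : e.val xs = e'.val xs := by
  obtain ⟨a, ha, h1⟩ := run_sound hM xs e _ h
  obtain ⟨b, hb, h2⟩ := run_sound hM xs e' _ h1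
  rw [← ha, ← hb, eq_of_eqP h2]

/-! ### building expressions -/

/-- a constant -/
def cst (c : ℕ) : E := .lit [(0, c)]

@[simp] theorem val_cst (xs : List R) (c : ℕ) : (cst c).val xs = c := by
  simp [cst, E.val, mon_zero]

/-- a variable -/
def vr (i : ℕ) : E := .lit [(128 ^ i, 1)]

theorem val_vr (xs : List R) {i : ℕ} (hi : i < xs.length) : (vr i).val xs = xs[i] := by
  simp [vr, E.val, mon_pow xs hi]

/-- `e ^ 3 ^ i` -/
def pw (i : ℕ) (e : E) : E := Nat.rec e (fun _ r => .cube r) i

@[simp] theorem val_pw (xs : List R) (i : ℕ) (e : E) : (pw i e).val xs = e.val xs ^ 3 ^ i := by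
  induction i with
  | zero => simp [pw]
  | succ i ih =>
    change (pw i e).val xs ^ 3 = _
    rw [ih, ← pow_mul, pow_succ]

/-- finite sums -/
def sm (n : ℕ) (f : ℕ → E) : E := Nat.rec (.lit []) (fun i r => .add (f i) r) n

@[simp] theorem val_sm (xs : List R) (n : ℕ) (f : ℕ → E) :
    (sm n f).val xs = ∑ i ∈ Finset.range n, (f i).val xs := by
  induction n with
  | zero => rfl
  | succ n ih =>
    change (f n).val xs + (sm n f).val xs = _
    rw [ih, Finset.sum_range_succ, add_comm]

@[simp] theorem val_lit (xs : List R) (a : P) : (E.lit a).val xs = ev xs a := rfl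

@[simp] theorem val_add (xs : List R) (a b : E) : (a.add b).val xs = a.val xs + b.val xs := rfl

@[simp] theorem val_mul (xs : List R) (a b : E) : (a.mul b).val xs = a.val xs * b.val xs := rfl

end Vale.Agent.P236K.Alg.Pol
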