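import Vale.Agent.P236K.Alg.CmpJ
import Vale.Agent.P236K.SS.Cls

/-!
# P236K / Alg / Psi : from the small complex `W` to statements on `Cob Laz` modulo `I_h`
-/

set_option linter.unusedSectionVars false

noncomputable section

namespace Vale.Agent.P236K.Alg

open Vale.Agent.P217 Vale.Agent.P251.F Vale.Agent.P257.H80 MvPolynomial
open Vale.Agent.P251.S (IC)
open Vale.Agent.P236K.SS (ACob AInj ASurj cupC frontG backG)

instance PL.zmod (p : ℕ) [hp : Fact p.Prime] : PL p (ZMod p) :=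
  ⟨fun m hm => IsUnit.mk0 _ (mt (ZMod.natCast_eq_zero_iff m p).1 hm)⟩

/-! ### the ideals `I_h` -/

section cpt

variable (p : ℕ) [hp : Fact p.Prime]

/-- the exponents of the ideal `(v_1, …, v_h)` -/
def Uv (h : ℕ) : UpperSet Ex := ⟨{e | ∃ i < h, 1 ≤ e i}, fun _ _ h ⟨i, h1, h2⟩ =>
  ⟨i, h1, h2.trans (h i)⟩⟩

theorem X_mem_JM {k : Type} [CommRing k] {U : UpperSet Ex} {i j : ℕ} (h : Finsupp.single i j ∈ U) :
    (X (0, i) : Bi k) ^ j ∈ JM k U := by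
  rw [← lv_X, ← map_pow, lv_mem_JM, X_pow_eq_monomial]
  exact monomial_mem_JA h 1

theorem map_monomial_eq_zero {B : Type} [CommRing B] (φ : VZ →+* B) {i j : ℕ}
    (h : φ (X i) ^ j = 0) {e : Ex} (he : j ≤ e i) : φ (monomial e 1) = 0 := by
  obtain ⟨d, rfl⟩ := le_iff_exists_add.1 (Finsupp.single_le_iff.2 he)
  rw [← one_mul (1 : ℤ), ← monomial_mul, map_mul, ← X_pow_eq_monomial, map_pow, h, zero_mul]

theorem map_lift_I {B : Type} [CommRing B] (φ : VZ →+* B) (h : ℕ) :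
    (Laz.I p (h + 1)).map (Laz.lift (hz p φ)) = HI p φ h := by
  rw [Laz.I_map, Laz.univ_map_lift, hz, Ih_haz]

theorem cpt_of {h : ℕ} {U : UpperSet Ex} (hU : ∀ e, e ∈ U ↔ ∃ i < h, 1 ≤ e i) :
    Cpt p p (Laz.I p (h + 1)) U where
  inv := P257.H314.invariant_I p (h + 1)
  mem := by
    rw [← vv_zero p Laz.univ]
    exact vv_mem_Ih (Nat.succ_pos h) _
  toU a ha := by
    have h1 := Ideal.mem_map_of_mem (Laz.lift (hz p (uT p (ZMod p)).φ)) ha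
    rw [map_lift_I] at h1
    refine (Ideal.span_le.2 ?_ : HI p _ h ≤ _) h1
    rintro _ (rfl | ⟨j, hj, rfl⟩)
    · rw [cast_eq_zero_of C (ZMod.natCast_self p)]
      exact zero_mem _
    · have h2 := X_mem_JM (k := ZMod p) ((hU (Finsupp.single j 1)).2 ⟨j, hj, by simp⟩)
      rw [pow_one, ← uT_φ (p := p)] at h2
      exact h2
  ofU B _ φ hφ e he := by
    obtain ⟨i, hi, he⟩ := (hU e).1 he
    have h1 : HI p φ h = ⊥ := by
      rw [← map_lift_I, Ideal.map_eq_bot_iff_le_ker]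
      exact hφ
    refine map_monomial_eq_zero φ ?_ he
    rw [pow_one, ← Ideal.mem_bot, ← h1]
    exact mem_HI p hi

theorem cpt_I (h : ℕ) : Cpt p p (Laz.I p (h + 1)) (Uv h) := cpt_of p fun _ => Iff.rfl

theorem cpt_one : Cpt p p (Laz.I p 1) Unone :=
  cpt_of p fun e => ⟨fun h => absurd h (not_mem_Unone e), fun ⟨_, h, _⟩ => absurd h (by omega)⟩

theorem cpt_two : Cpt p p (Laz.I p 2) (U1 1) :=
  cpt_of p fun _ => ⟨fun h => ⟨0, Nat.one_pos, h⟩, fun ⟨i, h, h'⟩ => by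
    obtain rfl : i = 0 := by omega
    exact h'⟩

theorem cpt_IJ (j : ℕ) : Cpt p p (Laz.IJ p 2 j) (U1 j) where
  inv := Laz.invariant_IJ p 2 j
  mem := Ideal.mem_sup_left (Ideal.subset_span rfl)
  toU a ha := by
    have h0 : (p : Bi (ZMod p)) = 0 := cast_eq_zero_of C (ZMod.natCast_self p)
    have h1 := Ideal.mem_map_of_mem (Laz.lift (hz p (uT p (ZMod p)).φ)) ha
    rw [Laz.IJ, Ideal.map_sup, Ideal.map_pow, map_lift_I, Ideal.map_span, Set.image_singleton,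
      map_natCast, HI_succ, HI_zero, h0, Ideal.span_singleton_zero, bot_sup_eq, bot_sup_eq,
      Ideal.span_singleton_pow, uT_φ] at h1
    exact (Ideal.span_singleton_le_iff_mem _).2 (X_mem_JM (by simp [mem_U1])) h1
  ofU B _ φ hφ e he := by
    have h1 := ((Laz.IJ_vanish_iff p 2 j _).1 hφ).2
    rw [Laz.univ_map_lift, hz, Ih_haz] at h1
    refine map_monomial_eq_zero φ ?_ (mem_U1.1 he)
    rw [← Ideal.mem_bot, ← h1]
    exact Ideal.pow_mem_pow (mem_HI p Nat.one_pos) j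

variable {p}

theorem cm_cupC {k : Type} [CommRing k] [PL p k] {s σ n : ℕ} (h : s + σ = n) (z : Cob Laz s)
    (b : Cob Laz σ) : cm p k n (cupC h z b) = cm p k σ b * sh p k σ (cm p k s z) :=
  cm_cup h _ (fun _ => rfl) _ (fun _ => rfl) z b

theorem Cpt.Lift.cupC {m : ℕ} [PL p (ZMod m)] {J : Ideal Laz} {U : UpperSet Ex} {H : Cpt p m J U}
    {s σ n : ℕ} (e : s + σ = n) {x y : Bi (ZMod m)} {z : Cob Laz s} {b : Cob Laz σ}
    (h : H.Lift s x z) (h' : H.Lift σ y b) : H.Lift n (y * sh p (ZMod m) σ x) (cupC e z b) :=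
  h.cup e _ (fun _ => rfl) _ (fun _ => rfl) h'

end cpt

/-! ### cocycles and coboundaries of `W` -/

/-- coboundaries modulo the ideal of `U` -/
def CT (p : ℕ) [Fact p.Prime] (k : Type) [CommRing k] [PL p k] (U : UpperSet Ex) (w : ℤ) (s : ℕ) :
    AddSubgroup (Bi k) := CBd p k Uall w s ⊔ (JM k U).toAddSubgroup

/-- vectors with coefficients in the ideal of `U` -/
def JW (k G : Type) [CommRing k] (U : UpperSet Ex) : AddSubgroup (G → Av k) where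
  carrier := {u | ∀ g, u g ∈ JA k U}
  zero_mem' := fun _ => zero_mem _
  add_mem' := fun hx hy g => add_mem (hx g) (hy g)
  neg_mem' := fun hx g => neg_mem (hx g)

namespace Tw

variable (p : ℕ) {k G : Type} [CommRing k] [hp : Fact p.Prime] [PL p k] [Fintype G]
  [DecidableEq G] (τ : Tw k G)

/-- coboundaries of `W` modulo the ideal of `U` -/
def WT (U : UpperSet Ex) (w : ℤ) (s : ℕ) : AddSubgroup (G → Av k) :=
  τ.WBd p Uall w s ⊔ JW k G U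

/-- cocycles of `W` modulo the ideal of `U` -/
def WZ (U : UpperSet Ex) (w : ℤ) (s : ℕ) : AddSubgroup (G → Av k) :=
  τ.WK p Uall s w ⊓ (JW k G U).comap (τ.dW p)

/-- the comparison map from the cobar complex of the Lazard ring -/
def Ps (s : ℕ) : Cob Laz s →+ (G → Av k) := (τ.Th p s).comp (cm p k s).toAddMonoidHom

theorem Ps_apply {s : ℕ} (z : Cob Laz s) : τ.Ps p s z = τ.Th p s (cm p k s z) := rfl

/-- the action of `x` is injective on cohomology -/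
def WInj (U U' : UpperSet Ex) (σ : ℕ) (x : Bi k) (v : ℤ) (s : ℕ) (w : ℤ) : Prop :=
  ∀ u ∈ τ.WZ p U w s, τ.Lx p σ x u ∈ τ.WT p U' (w + v) (s + σ) → u ∈ τ.WT p U w s

/-- the action of `x` is surjective on cohomology -/
def WSurj (U U' : UpperSet Ex) (σ : ℕ) (x : Bi k) (v : ℤ) (s : ℕ) (w : ℤ) : Prop :=
  ∀ c ∈ τ.WZ p U' (w + v) (s + σ), ∃ u ∈ τ.WZ p U w s, c - τ.Lx p σ x u ∈ τ.WT p U' (w + v) (s + σ)

variable {p τ}

theorem mem_WT {U : UpperSet Ex} {w : ℤ} {s : ℕ} {u : G → Av k} :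
    u ∈ τ.WT p U w s ↔ ∃ b ∈ τ.WBd p Uall w s, ∀ g, u g - b g ∈ JA k U := by
  rw [WT, AddSubgroup.mem_sup]
  constructor
  · rintro ⟨b, hb, c, hc, rfl⟩
    exact ⟨b, hb, fun g => by simpa using hc g⟩
  · rintro ⟨b, hb, h⟩
    exact ⟨b, hb, u - b, h, add_sub_cancel _ _⟩

theorem mem_WZ {U : UpperSet Ex} {w : ℤ} {s : ℕ} {u : G → Av k} :
    u ∈ τ.WZ p U w s ↔ u ∈ τ.WK p Uall s w ∧ ∀ g, τ.dW p u g ∈ JA k U := Iff.rfl

theorem mem_WT_of_JW {U : UpperSet Ex} {w : ℤ} {s : ℕ} {u : G → Av k} (h : u ∈ JW k G U) :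
    u ∈ τ.WT p U w s := AddSubgroup.mem_sup_right h

theorem dW_mem_WT {U : UpperSet Ex} {w : ℤ} {s : ℕ} {u : G → Av k} (h : u ∈ τ.WK p Uall s w) :
    τ.dW p u ∈ τ.WT p U w (s + 1) := AddSubgroup.mem_sup_left ⟨u, h, rfl⟩

theorem dP_mul_al (a : ℕ) (x : Bi k) (c : Av k) :
    dP p k (a + 1) (x * al p k a c) = dP p k (a + 1) x * al p k (a + 1) c := by
  rw [dP_apply, dP_apply, Finset.sum_mul]
  refine Finset.sum_congr rfl fun j hj => ?_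
  rw [map_mul, D_al (by have := Finset.mem_range.1 hj; omega), smul_mul_assoc]

theorem Lx_succ {a : ℕ} {x : Bi k} (hx : Lev a x) (u : G → Av k) :
    τ.Lx p (a + 1) x u = τ.Lx p a x (τ.dW p u) := by
  have h := Lx_cup (τ := τ) (p := p) hx (lev_be1 (p := p) 0 1) u
  rwa [Lx_be1, map_one, map_one, mul_one] at h

theorem Lx_zsmul (s : ℕ) (c : ℤ) (x : Bi k) (u : G → Av k) :
    τ.Lx p s (c • x) u = c • τ.Lx p s x u :=
  map_zsmul (AddMonoidHom.mk' (fun x => τ.Lx p s x u) fun x y => Lx_add s x y u) c x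

theorem Lx_sub (s : ℕ) (x y : Bi k) (u : G → Av k) :
    τ.Lx p s (x - y) u = τ.Lx p s x u - τ.Lx p s y u :=
  map_sub (AddMonoidHom.mk' (fun x => τ.Lx p s x u) fun x y => Lx_add s x y u) x y

variable {N : ℤ} {A B E : UpperSet Ex} {w : ℤ}

/-- the Leibniz rule for the action -/
theorem Hyp.dW_Lx (H : Hyp (p := p) τ N A B E w) {U V : UpperSet Ex} (hV : Inv p k V)
    (h : ∀ e ∈ U, ∀ e' ∈ V, e + e' ∈ B) {a s : ℕ} {w1 w2 : ℤ} (hw : w1 + w2 = w) {x : Bi k}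
    (hx : x ∈ CK p k U a w1) {u : G → Av k} (hu : u ∈ τ.WK p V s w2) :
    τ.Lx p (a + 1) (dB p k a x) u + ((-1 : ℤ) ^ a) • τ.Lx p a x (τ.dW p u) -
      τ.dW p (τ.Lx p a x u) ∈ JW k G E := by
  have h1 : (fun g => x * al p k a (u g)) ∈ τ.KK p B a s w := fun g =>
    ⟨fun h1 => by simp only [(hu.1 g).1 h1, map_zero, mul_zero], hx.1.mul (lev_al a _), by
      rw [← hw, add_sub_assoc]; exact hx.2.1.mul (wt_al a (hu.1 g).2),
      mul_mem_JM h hx.2.2 (hV.al_mem a (hu.2 g))⟩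
  have h2 := Zig.Psi_h (Z := H.zig) (a := a) (r := s + 1) (by rw [← ZK_succ] at h1; exact h1)
  have e1 : H.zig.h a (fun g => x * al p k a (u g)) =
      fun g => dP p k (a + 1) x * al p k (a + 1) (u g) := funext fun g => dP_mul_al a x (u g)
  have l1 : ∀ g, Lev (a + 1) (dP p k (a + 1) x * al p k (a + 1) (u g)) := fun g =>
    (hx.1.dP _).mul (lev_al _ _)
  have l2 : ∀ g, Lev a (x * al p k a (u g)) := fun g => hx.1.mul (lev_al _ _)
  rw [e1, H.Psi_succ l1, H.Psi_succ l2, ← funext fun g => (lev_PhiN (τ := τ) (p := p) l1 g).lv_rA,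
    ← funext fun g => (lev_PhiN (τ := τ) (p := p) l2 g).lv_rA] at h2
  change _ - τ.vB p 0 _ ∈ _ at h2
  rw [vB_lv] at h2
  intro g
  have h3 : lv k 0 (τ.Lx p (a + 1) (dP p k (a + 1) x) u g) -
    lv k 0 (τ.dW p (τ.Lx p a x u) g) ∈ JM k E := (h2 g).2.2.2
  rw [← map_sub, lv_mem_JM] at h3
  rw [dB_eq hx.1, Lx_add, Lx_zsmul, Lx_succ hx.1, pow_succ, mul_neg_one, neg_smul,
    neg_add_cancel_right]
  exact h3

theorem Hyp.dW_JW (H : Hyp (p := p) τ N A B E w) {s : ℕ} {u : G → Av k} (hu : u ∈ τ.WK p B s w)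
    (h : u ∈ JW k G E) : τ.dW p u ∈ JW k G E := (H.ok.dW_mem H.invE ⟨hu.1, h⟩).2

theorem Hyp.Lx_JW (H : Hyp (p := p) τ N A B E w) {a s : ℕ} {w1 w2 : ℤ} {x : Bi k}
    (hx : x ∈ CK p k Uall a w1) {u : G → Av k} (hu : u ∈ τ.WK p Uall s w2) (h : u ∈ JW k G E) :
    τ.Lx p a x u ∈ JW k G E :=
  (H.ok.Lx_mem (U := Uall) H.invE (fun _ _ _ he => E.upper le_add_self he) hx ⟨hu.1, h⟩).2

theorem Ok.Lx_JM (H : τ.Ok p N A) {a s : ℕ} {w1 w2 : ℤ} {x : Bi k} (hx : x ∈ CK p k E a w1)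
    {u : G → Av k} (hu : u ∈ τ.WK p Uall s w2) : τ.Lx p a x u ∈ JW k G E :=
  (H.Lx_mem (V := Uall) inv_all (fun _ he _ _ => E.upper le_self_add he) hx hu).2

theorem Ok.Lx_all (H : τ.Ok p N A) {a s : ℕ} {w1 w2 : ℤ} {x : Bi k} (hx : x ∈ CK p k Uall a w1)
    {u : G → Av k} (hu : u ∈ τ.WK p Uall s w2) : τ.Lx p a x u ∈ τ.WK p Uall (s + a) (w1 + w2) :=
  H.Lx_mem (V := Uall) inv_all (fun _ _ _ _ => mem_Uall _) hx hu

/-- a coboundary acts trivially on cohomology -/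
theorem Hyp.Lx_CT (H : Hyp (p := p) τ N A Uall E w) {a s : ℕ} {w1 w2 : ℤ} (hw : w1 + w2 = w)
    {x : Bi k} (hx : x ∈ CK p k Uall a w1) (h : x ∈ CT p k E w1 a) {u : G → Av k}
    (hu : u ∈ τ.WZ p E w2 s) : τ.Lx p a x u ∈ τ.WT p E w (s + a) := by
  obtain ⟨b, hb, c, hc, rfl⟩ := AddSubgroup.mem_sup.1 h
  rcases a with _ | a
  · rw [AddSubgroup.mem_bot.1 hb, zero_add] at hx ⊢
    exact mem_WT_of_JW (H.ok.Lx_JM ⟨hx.1, hx.2.1, hc⟩ hu.1)
  · obtain ⟨y, hy, rfl⟩ := hb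
    have h1 := sub_mem hx (inv_all.dP_CK (a + 2) hy)
    change dB p k a y + c - dB p k a y ∈ _ at h1
    rw [add_sub_cancel_left] at h1
    have h2 := H.dW_Lx inv_all (fun _ _ _ _ => mem_Uall _) hw hy hu.1
    have h3 := zsmul_mem (H.Lx_JW hy (H.ok.dW_mem inv_all hu.1) hu.2) ((-1 : ℤ) ^ a)
    have h4 := H.ok.Lx_all hy hu.1
    rw [hw] at h4
    have h5 := add_mem (mem_WT_of_JW (τ := τ) (p := p) (w := w) (s := s + a + 1) (sub_mem h2 h3))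
      (dW_mem_WT h4)
    rw [Lx_add]
    refine add_mem ?_ (mem_WT_of_JW (H.ok.Lx_JM ⟨h1.1, h1.2.1, hc⟩ hu.1))
    rwa [show ∀ a b c : G → Av k, a + b - c - b + c = a from fun a b c => by abel] at h5

/-- a cocycle acts on cocycles -/
theorem Hyp.Lx_WZ (H : Hyp (p := p) τ N A Uall E w) {a s : ℕ} {w1 w2 : ℤ} (hw : w1 + w2 = w)
    {x : Bi k} (hx : x ∈ CK p k Uall a w1) (h : dB p k a x ∈ JM k E) {u : G → Av k}
    (hu : u ∈ τ.WZ p E w2 s) : τ.Lx p a x u ∈ τ.WZ p E w (s + a) := by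
  have h1 := inv_all.dP_CK (a + 2) hx
  have h2 := H.dW_Lx inv_all (fun _ _ _ _ => mem_Uall _) hw hx hu.1
  have h3 := zsmul_mem (H.Lx_JW hx (H.ok.dW_mem inv_all hu.1) hu.2) ((-1 : ℤ) ^ a)
  have h4 := H.ok.Lx_JM (x := dB p k a x) ⟨h1.1, h1.2.1, h⟩ hu.1
  have h5 := sub_mem (add_mem h4 h3) h2
  rw [sub_sub_cancel] at h5
  exact ⟨hw ▸ H.ok.Lx_all hx hu.1, h5⟩

/-- a cocycle acts on coboundaries -/
theorem Hyp.Lx_WT (H : Hyp (p := p) τ N A Uall E w) {a s : ℕ} {w1 w2 : ℤ} (hw : w1 + w2 = w)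
    {x : Bi k} (hx : x ∈ CK p k Uall a w1) (h : dB p k a x ∈ JM k E) {u : G → Av k}
    (hu : u ∈ τ.WK p Uall s w2) (h' : u ∈ τ.WT p E w2 s) :
    τ.Lx p a x u ∈ τ.WT p E w (s + a) := by
  obtain ⟨b, hb, c, hc, rfl⟩ := AddSubgroup.mem_sup.1 h'
  rcases s with _ | s
  · rw [AddSubgroup.mem_bot.1 hb, zero_add] at hu
    rw [AddSubgroup.mem_bot.1 hb, zero_add c]
    exact mem_WT_of_JW (H.Lx_JW hx hu hc)
  · obtain ⟨y, hy, rfl⟩ := hb
    have h0 := sub_mem hu (H.ok.dW_mem inv_all hy)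
    rw [add_sub_cancel_left] at h0
    have h1 := inv_all.dP_CK (a + 2) hx
    have h2 := H.dW_Lx inv_all (fun _ _ _ _ => mem_Uall _) hw hx hy
    have h3 := H.ok.Lx_JM (x := dB p k a x) ⟨h1.1, h1.2.1, h⟩ hy
    have h4 := H.ok.Lx_all hx hy
    rw [hw] at h4
    have h5 := zsmul_mem (add_mem (mem_WT_of_JW (τ := τ) (p := p) (w := w) (s := s + a + 1)
      (sub_mem h2 h3)) (dW_mem_WT h4)) ((-1 : ℤ) ^ a)
    rw [map_add, add_right_comm s 1 a]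
    refine add_mem ?_ (mem_WT_of_JW (H.Lx_JW hx h0 hc))
    rwa [show ∀ a b c : G → Av k, a + b - c - a + c = b from fun a b c => by abel,
      Zig.sq_sign] at h5

theorem Ok.Ps_mem (H : τ.Ok p N A) {s : ℕ} {z : Cob Laz s} (hz : Cob.IsWt w z) :
    τ.Ps p s z ∈ τ.WK p Uall s w := by
  rw [Ps_apply]
  exact H.Th_mem (cm_mem hz)

theorem Ps_cupC {s σ n : ℕ} (h : s + σ = n) (z : Cob Laz s) (b : Cob Laz σ) :
    τ.Ps p n (cupC h z b) = τ.Lx p σ (cm p k σ b) (τ.Ps p s z) := by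
  obtain rfl : n = σ + s := by omega
  rw [Ps_apply, cm_cupC, Th_cup (lev_cm b) (lev_cm z), Ps_apply]

theorem Hyp.Ps_d (H : Hyp (p := p) τ N A Uall E w) {s : ℕ} {z : Cob Laz s} (hz : Cob.IsWt w z) :
    τ.Ps p (s + 1) (Cob.d s z) - ((-1 : ℤ) ^ (s + 1)) • τ.dW p (τ.Ps p s z) ∈ JW k G E := by
  rw [Ps_apply, cm_d, map_zsmul, ← smul_sub]
  exact zsmul_mem (show _ ∈ JW k G E from H.Th_dB (cm_mem hz)) _

end Tw

namespace Tw

variable {p : ℕ} [hp : Fact p.Prime] {m : ℕ} [PL p (ZMod m)] {G : Type} [Fintype G]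
  [DecidableEq G] {τ : Tw (ZMod m) G} {N : ℤ} {A A' E E' : UpperSet Ex} {w : ℤ} {h h' : ℕ}

theorem Ok.Ps_IC (H : τ.Ok p N A) (c : Cpt p m (Laz.I p h) E) {s : ℕ} {z : Cob Laz s}
    (hz : Cob.IsWt w z) (h1 : z ∈ IC p h s) : τ.Ps p s z ∈ JW (ZMod m) G E :=
  (H.Th_mem ⟨lev_cm z, wt_cm hz, c.cm_JC h1⟩).2

theorem Hyp.Ps_WZ (H : Hyp (p := p) τ N A Uall E w) (c : Cpt p m (Laz.I p h) E) {s : ℕ}
    {z : Cob Laz s} (hz : Cob.IsWt w z) (hd : Cob.d s z ∈ IC p h (s + 1)) :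
    τ.Ps p s z ∈ τ.WZ p E w s := by
  have h1 := zsmul_mem (sub_mem (H.ok.Ps_IC c hz.d hd) (H.Ps_d hz)) ((-1 : ℤ) ^ (s + 1))
  rw [sub_sub_cancel, Zig.sq_sign] at h1
  exact ⟨H.ok.Ps_mem hz, h1⟩

theorem Hyp.Ps_WT (H : Hyp (p := p) τ N A Uall E w) (c : Cpt p m (Laz.I p h) E) {s : ℕ}
    {z : Cob Laz s} (hz : Cob.IsWt w z) (h1 : ACob p h w z) : τ.Ps p s z ∈ τ.WT p E w s := by
  rcases s with _ | s
  · exact mem_WT_of_JW (H.ok.Ps_IC c hz h1)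
  · obtain ⟨y, hy, h2⟩ := h1
    have h3 := add_mem (H.ok.Ps_IC c ((Cob.wt Laz _ w).sub_mem hz hy.d) h2) (H.Ps_d hy)
    rw [map_sub, sub_add_sub_cancel] at h3
    have h4 := add_mem (mem_WT_of_JW (τ := τ) (p := p) (w := w) (s := s + 1) h3)
      (zsmul_mem (dW_mem_WT (H.ok.Ps_mem hy)) ((-1 : ℤ) ^ (s + 1)))
    rwa [sub_add_cancel] at h4

theorem dB_cm_mem (c : Cpt p m (Laz.I p h) E) {s : ℕ} {z : Cob Laz s}
    (hd : Cob.d s z ∈ IC p h (s + 1)) : dB p (ZMod m) s (cm p (ZMod m) s z) ∈ JM (ZMod m) E := by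
  have h1 := zsmul_mem (c.cm_JC hd) ((-1 : ℤ) ^ (s + 1))
  rwa [cm_d, Zig.sq_sign] at h1

theorem aCob_of_CT (c : Cpt p m (Laz.I p h) E) {s : ℕ} {z : Cob Laz s} (hz : Cob.IsWt w z)
    (hd : Cob.d s z ∈ IC p h (s + 1)) (h1 : cm p (ZMod m) s z ∈ CT p (ZMod m) E w s) :
    ACob p h w z := by
  obtain ⟨b, hb, x, hx, e⟩ := AddSubgroup.mem_sup.1 h1
  rcases s with _ | s
  · rw [AddSubgroup.mem_bot.1 hb, zero_add] at e
    exact c.inj_zero hd (e ▸ hx)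
  · obtain ⟨y, hy, rfl⟩ := hb
    exact c.inj_succ hz hd hy.1 (by rw [← e, add_sub_cancel_left]; exact hx)

/-- a cocycle whose image in `W` is a coboundary is a coboundary -/
theorem Hyp.aCob (H : Hyp (p := p) τ N A Uall E w) (c : Cpt p m (Laz.I p h) E) {s : ℕ}
    (hs : ∀ r < s, τ.Exa p N r) {z : Cob Laz s} (hz : Cob.IsWt w z)
    (hd : Cob.d s z ∈ IC p h (s + 1)) (h1 : τ.Ps p s z ∈ τ.WT p E w s) : ACob p h w z := by
  obtain ⟨b, hb, h2⟩ := mem_WT.1 h1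
  obtain ⟨x, hx, h3⟩ := H.Th_inj hs (cm_mem hz) (dB_cm_mem c hd) hb h2
  exact aCob_of_CT c hz hd (AddSubgroup.mem_sup.2 ⟨x, hx, _, h3, add_sub_cancel _ _⟩)

/-- every cocycle of `W` comes from a cocycle -/
theorem Hyp.exists_Ps (H : Hyp (p := p) τ N A Uall E w) (c : Cpt p m (Laz.I p h) E) {s : ℕ}
    (hs : ∀ r ≤ s, τ.Exa p N r) {u : G → Av (ZMod m)} (hu : u ∈ τ.WZ p E w s) :
    ∃ z : Cob Laz s, Cob.IsWt w z ∧ Cob.d s z ∈ IC p h (s + 1) ∧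
      τ.Ps p s z - u ∈ τ.WT p E w s := by
  obtain ⟨x, hx, h1, h2⟩ := H.Th_surj hs hu.1 hu.2
  obtain ⟨z, hz, h3⟩ := Cpt.exists_lift (H := c) hx.1 hx.2.1
  refine ⟨z, hz, h3.d.mem (zsmul_mem h1 _), ?_⟩
  have h4 := sub_mem (cm_mem hz) hx
  have h5 := add_mem (mem_WT_of_JW (τ := τ) (p := p) (w := w) (s := s)
    (H.ok.Th_mem ⟨h4.1, h4.2.1, h3.cm_sub⟩).2) (mem_WT.2 h2 : τ.Th p s x - u ∈ _)
  rwa [map_sub, sub_add_sub_cancel] at h5

theorem Hyp.algVan (H : Hyp (p := p) τ N A Uall E w) (c : Cpt p m (Laz.I p h) E) {s : ℕ}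
    (hs : ∀ r < s, τ.Exa p N r) (h1 : ∀ u ∈ τ.WZ p E w s, u ∈ τ.WT p E w s) :
    P257.H314.AlgVan p h s w := by
  rcases s with _ | s <;> exact fun z hz hd => H.aCob c hs hz hd (h1 _ (H.Ps_WZ c hz hd))

/-- `AInj` from the small complex; `x` is any cochain cohomologous to `cm b` -/
theorem Hyp.aInj {σ s : ℕ} {v : ℤ} (H : Hyp (p := p) τ N A Uall E w)
    (H' : Hyp (p := p) τ N A' Uall E' (w + v)) (c : Cpt p m (Laz.I p h) E)
    (c' : Cpt p m (Laz.I p h') E') (hE : ∀ e ∈ E, e ∈ E') (hs : ∀ r < s, τ.Exa p N r)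
    {b : Cob Laz σ} (hb : Cob.IsWt v b) {x : Bi (ZMod m)} (hx : x ∈ CK p (ZMod m) Uall σ v)
    (hbx : cm p (ZMod m) σ b - x ∈ CT p (ZMod m) E' v σ) (h1 : τ.WInj p E E' σ x v s w) :
    AInj p h h' b v s w := by
  intro z hz hd h2
  have h3 := H.Ps_WZ c hz hd
  refine H.aCob c hs hz hd (h1 _ h3 ?_)
  have h4 := H'.Ps_WT c' (hz.cup hb) h2
  rw [← SS.cupC_rfl, Ps_cupC] at h4
  have h5 := H'.Lx_CT (add_comm v w) (sub_mem (cm_mem hb) hx) hbx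
    (u := τ.Ps p s z) ⟨h3.1, fun g => JA_mono hE (h3.2 g)⟩
  have h6 := sub_mem h4 h5
  rwa [Lx_sub, sub_sub_cancel] at h6

/-- `ASurj` from the small complex -/
theorem Hyp.aSurj {σ s : ℕ} {v : ℤ} (H : Hyp (p := p) τ N A Uall E w)
    (H' : Hyp (p := p) τ N A' Uall E' (w + v)) (c : Cpt p m (Laz.I p h) E)
    (c' : Cpt p m (Laz.I p h') E') (hE : ∀ e ∈ E, e ∈ E') (hs : ∀ r ≤ s, τ.Exa p N r)
    (hs' : ∀ r < s + σ, τ.Exa p N r) {b : Cob Laz σ} (hb : Cob.IsWt v b)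
    (hdb : Cob.d σ b ∈ IC p h' (σ + 1)) (hI : ∀ n, IC p h n ≤ IC p h' n) {x : Bi (ZMod m)}
    (hx : x ∈ CK p (ZMod m) Uall σ v) (hbx : cm p (ZMod m) σ b - x ∈ CT p (ZMod m) E' v σ)
    (h1 : τ.WSurj p E E' σ x v s w) : ASurj p h h' b v s w := by
  intro y hy hd
  obtain ⟨u, hu, h2⟩ := h1 _ (H'.Ps_WZ c' hy hd)
  obtain ⟨z, hz, hdz, h3⟩ := H.exists_Ps c hs hu
  refine ⟨z, hz, hdz, H'.aCob c' hs' ((Cob.wt Laz _ _).sub_mem hy (hz.cup hb)) ?_ ?_⟩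
  · rw [map_sub]
    exact sub_mem hd (SS.d_cupC_mem rfl (hI _ hdz) hdb)
  · have h4 := H'.Lx_CT (add_comm v w) (sub_mem (cm_mem hb) hx) hbx
      (u := u) ⟨hu.1, fun g => JA_mono hE (hu.2 g)⟩
    have h5 := H'.Lx_WT (add_comm v w) (cm_mem hb) (dB_cm_mem c' hdb)
      (sub_mem (H.ok.Ps_mem hz) hu.1) (by
        obtain ⟨b', hb', h6⟩ := mem_WT.1 h3
        exact mem_WT.2 ⟨b', hb', fun g => JA_mono hE (h6 g)⟩)
    have h6 := sub_mem (sub_mem h2 h4) h5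
    rw [map_sub, ← SS.cupC_rfl, Ps_cupC]
    rw [Lx_sub, map_sub] at h6
    convert h6 using 1
    abel

end Tw

end Vale.Agent.P236K.Alg
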