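import Vale.Agent.P236K.Alg.Typ
import Vale.Agent.P251.F.F3Homot
import Vale.Agent.P257.H93.Seq
import Mathlib.Algebra.MvPolynomial.Supported
import Mathlib.Algebra.Polynomial.Laurent

/-!
# P236K / Alg / Seq : infinite chains of typical isomorphisms and the ring `Bi k`

`TP p R`: a Hazewinkel law and a sequence of typical isomorphisms. `Bi k = k[v, t^(0), t^(1), …]`,
the variable `(0, i)` is `v_(i+1)`, the variable `(j+1, i)` is `t_(i+1)` of the `j`-th isomorphism.
`D j : Bi k →+* Bi k` are the cofaces.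
-/

set_option linter.unusedSectionVars false

noncomputable section

namespace Vale.Agent.P236K.Alg

open Vale.Agent.P217 Vale.Agent.P251.F Vale.Agent.P257.H80 Vale.Agent.P221.H246 MvPolynomial

/-- a Hazewinkel law and a sequence of typical isomorphisms -/
@[ext] structure TP (p : ℕ) (R : Type) [CommRing R] where
  /-- the parameters of the first law -/
  φ : VZ →+* R
  /-- the coordinates of the isomorphisms -/
  T : ℕ → ℕ → R

namespace TP

variable {p : ℕ} {R R' : Type} [CommRing R] [CommRing R']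

/-- base change -/
def map (θ : R →+* R') (x : TP p R) : TP p R' := ⟨θ.comp x.φ, fun k i => θ (x.T k i)⟩

/-- scaling -/
def sc (u : R) (x : TP p R) : TP p R :=
  ⟨scV p u x.φ, fun k i => u ^ (p ^ (i + 1) - 1) * x.T k i⟩

/-- the coordinates -/
def co (x : TP p R) : ℕ × ℕ → R
  | (0, i) => x.φ (X i)
  | (j + 1, i) => x.T j i

/-- the point with given coordinates -/
def ofCo (c : ℕ × ℕ → R) : TP p R :=
  ⟨eval₂Hom (Int.castRingHom R) fun i => c (0, i), fun j i => c (j + 1, i)⟩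

@[simp] theorem co_zero (x : TP p R) (i : ℕ) : x.co (0, i) = x.φ (X i) := rfl
@[simp] theorem co_succ (x : TP p R) (j i : ℕ) : x.co (j + 1, i) = x.T j i := rfl

theorem co_ofCo (c : ℕ × ℕ → R) : (ofCo c : TP p R).co = c := by
  funext ⟨j, i⟩
  rcases j with _ | j
  · simp [ofCo]
  · rfl

theorem co_map (θ : R →+* R') (x : TP p R) (ji : ℕ × ℕ) : (x.map θ).co ji = θ (x.co ji) := by
  obtain ⟨_ | j, i⟩ := ji <;> rfl

theorem co_sc (u : R) (x : TP p R) (ji : ℕ × ℕ) :
    (x.sc u).co ji = u ^ (p ^ (ji.2 + 1) - 1) * x.co ji := by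
  obtain ⟨_ | j, i⟩ := ji
  · exact scV_X p u x.φ i
  · rfl

theorem ext_co {x y : TP p R} (h : ∀ ji, x.co ji = y.co ji) : x = y :=
  TP.ext (VZ.ext fun i => h (0, i)) (funext fun j => funext fun i => h (j + 1, i))

variable [hp : Fact p.Prime] [PL p R] [PL p R']

/-- the parameters of the `k`-th law -/
def ph (x : TP p R) : ℕ → (VZ →+* R)
  | 0 => x.φ
  | k + 1 => etaT p (ph x k) (x.T k)

theorem ph_zero (x : TP p R) : x.ph 0 = x.φ := rfl
theorem ph_succ (x : TP p R) (k : ℕ) : x.ph (k + 1) = etaT p (x.ph k) (x.T k) := rfl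

/-- the isomorphism from the first law to the `k`-th law -/
def G (x : TP p R) : ℕ → strict R
  | 0 => 1
  | k + 1 => (⟨gT p (x.ph k) (x.T k), gT_mem p _ _⟩ : strict R)⁻¹ * G x k

theorem G_zero (x : TP p R) : x.G 0 = 1 := rfl
theorem val_G_succ (x : TP p R) (k : ℕ) :
    (x.G (k + 1) : InvSeries R) = (gT p (x.ph k) (x.T k))⁻¹ * x.G k := rfl

theorem G_smul (x : TP p R) (k : ℕ) : (x.G k : InvSeries R) • hz p x.φ = hz p (x.ph k) := by
  induction k with
  | zero => exact one_smul _ _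
  | succ k ih => rw [val_G_succ, mul_smul, ih, ph_succ, hz_etaT]

theorem G_mul_inv (x : TP p R) (k : ℕ) :
    (x.G k : InvSeries R) * (x.G (k + 1) : InvSeries R)⁻¹ = gT p (x.ph k) (x.T k) := by
  rw [val_G_succ]
  group

theorem T_eq (x : TP p R) (k : ℕ) :
    x.T k = tOf p (hz p (x.ph k)) ((x.G k : InvSeries R) * (x.G (k + 1) : InvSeries R)⁻¹) := by
  rw [G_mul_inv, tOf_gT]

theorem T_eq_of_G {x y : TP p R} (h0 : x.φ = y.φ) {k : ℕ} (h1 : x.G k = y.G k)
    (h2 : x.G (k + 1) = y.G (k + 1)) : x.T k = y.T k := by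
  rw [T_eq, T_eq, ← G_smul, ← G_smul, h0, h1, h2]

theorem ext_G {x y : TP p R} (h0 : x.φ = y.φ) (h : ∀ k, x.G k = y.G k) : x = y :=
  TP.ext h0 (funext fun k => T_eq_of_G h0 (h k) (h (k + 1)))

theorem ph_congr {x y : TP p R} (h0 : x.φ = y.φ) {n : ℕ} (h : ∀ k < n, x.T k = y.T k) :
    x.ph n = y.ph n := by
  induction n with
  | zero => exact h0
  | succ n ih => rw [ph_succ, ph_succ, ih fun k hk => h k (by omega), h n (Nat.lt_succ_self n)]

theorem G_congr {x y : TP p R} (h0 : x.φ = y.φ) {n : ℕ} (h : ∀ k < n, x.T k = y.T k) :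
    x.G n = y.G n := by
  induction n with
  | zero => rfl
  | succ n ih =>
    apply Subtype.ext
    rw [val_G_succ, val_G_succ, ih fun k hk => h k (by omega), h n (Nat.lt_succ_self n),
      ph_congr h0 fun k hk => h k (by omega)]

theorem ph_map (θ : R →+* R') (x : TP p R) (k : ℕ) : (x.map θ).ph k = θ.comp (x.ph k) := by
  induction k with
  | zero => rfl
  | succ k ih => rw [ph_succ, ph_succ, ih, comp_etaT]; rfl

theorem G_map (θ : R →+* R') (x : TP p R) (k : ℕ) : (x.map θ).G k = F3.smap θ (x.G k) := by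
  apply Subtype.ext
  induction k with
  | zero => exact (map_one (InvSeries.map θ)).symm
  | succ k ih =>
    rw [val_G_succ, F3.val_smap, val_G_succ, ih, map_mul, map_inv, map_gT, ph_map]
    rfl

theorem ph_sc (u : Rˣ) (x : TP p R) (k : ℕ) : (x.sc (u : R)).ph k = scV p (u : R) (x.ph k) := by
  induction k with
  | zero => rfl
  | succ k ih => rw [ph_succ, ph_succ, ih, ← etaT_scale]; rfl

theorem G_sc (u : Rˣ) (x : TP p R) : (x.sc (u : R)).G = F3.conjSeq u x.G := by
  funext k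
  apply Subtype.ext
  change _ = (InvSeries.lin u)⁻¹ * (x.G k : InvSeries R) * InvSeries.lin u
  induction k with
  | zero =>
    change (1 : InvSeries R) = (InvSeries.lin u)⁻¹ * 1 * InvSeries.lin u
    group
  | succ k ih =>
    rw [val_G_succ, val_G_succ, ih, ph_sc]
    have h := gT_scale p u (x.ph k) (x.T k)
    change gT p _ ((x.sc (u : R)).T k) = _ at h
    rw [h]
    group

/-- omit the `j`-th law -/
def del : ℕ → TP p R → TP p R
  | 0, x => ⟨x.ph 1, fun k => x.T (k + 1)⟩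
  | j + 1, x => ⟨x.φ, fun k => if k < j then x.T k else
      if k = j then delT p (x.ph j) (x.T j) (x.T (j + 1)) else x.T (k + 1)⟩

theorem del_zero_φ (x : TP p R) : (x.del 0).φ = x.ph 1 := rfl
theorem del_zero_T (x : TP p R) (k : ℕ) : (x.del 0).T k = x.T (k + 1) := rfl
theorem del_succ_φ (j : ℕ) (x : TP p R) : (x.del (j + 1)).φ = x.φ := rfl
theorem del_T_lt {j k : ℕ} (h : k < j) (x : TP p R) : (x.del (j + 1)).T k = x.T k := if_pos h
theorem del_T_self (j : ℕ) (x : TP p R) :
    (x.del (j + 1)).T j = delT p (x.ph j) (x.T j) (x.T (j + 1)) := by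
  change (if j < j then _ else if j = j then _ else _) = _
  rw [if_neg (lt_irrefl j), if_pos rfl]
theorem del_T_ge {j k : ℕ} (h : j ≤ k) (x : TP p R) : (x.del j).T k = x.T (k + 1) := by
  rcases j with _ | j
  · rfl
  · change (if k < j then _ else if k = j then _ else _) = _
    rw [if_neg (by omega), if_neg (by omega)]

theorem ph_del (j : ℕ) (x : TP p R) (k : ℕ) : (x.del j).ph k = F3.del j x.ph k := by
  induction k with
  | zero =>
    rcases j with _ | j
    · rfl
    · rfl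
  | succ k ih =>
    rw [ph_succ, ih]
    simp only [F3.del]
    rcases lt_trichotomy (k + 1) j with h | h | h
    · obtain ⟨j, rfl⟩ : ∃ j', j = j' + 1 := ⟨j - 1, by omega⟩
      rw [if_pos (by omega), if_pos h, del_T_lt (by omega), ph_succ]
    · subst h
      rw [if_pos (by omega), if_neg (by omega), del_T_self, etaT_delT]
      rfl
    · rw [if_neg (by omega), if_neg (by omega), del_T_ge (by omega)]
      rfl

theorem del_φ (j : ℕ) (x : TP p R) : (x.del j).φ = F3.del j x.ph 0 := ph_del j x 0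

theorem G_del (j : ℕ) (x : TP p R) (k : ℕ) :
    (x.del j).G k = F3.del j x.G k * (F3.del j x.G 0)⁻¹ := by
  induction k with
  | zero => rw [G_zero, mul_inv_cancel]
  | succ k ih =>
    apply Subtype.ext
    rw [val_G_succ, ih, ph_del, Subgroup.coe_mul, Subgroup.coe_mul, ← mul_assoc]
    congr 1
    simp only [F3.del]
    rcases lt_trichotomy (k + 1) j with h | h | h
    · obtain ⟨j, rfl⟩ : ∃ j', j = j' + 1 := ⟨j - 1, by omega⟩
      rw [if_pos (by omega), if_pos (by omega), if_pos h, del_T_lt (by omega), val_G_succ]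
    · subst h
      rw [if_pos (by omega), if_pos (by omega), if_neg (by omega), del_T_self, gT_delT,
        val_G_succ, val_G_succ, ph_succ, mul_inv_rev, mul_assoc]
    · rw [if_neg (by omega), if_neg (by omega), if_neg (by omega), del_T_ge (by omega)]
      exact (val_G_succ x (k + 1)).symm

omit [PL p R] [PL p R'] hp in
theorem del_mul {W : Type} [Group W] (j : ℕ) (g : ℕ → W) (c : W) :
    F3.del j (fun k => g k * c) = fun k => F3.del j g k * c := by
  funext k
  simp only [F3.del]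
  split_ifs <;> rfl

theorem del_del {i j : ℕ} (h : i ≤ j) (x : TP p R) :
    (x.del (j + 1)).del i = (x.del i).del j := by
  apply ext_G
  · rw [del_φ, del_φ, funext (ph_del (j + 1) x), funext (ph_del i x), P257.H93.del_del_lt h]
  · intro k
    rw [G_del, G_del, funext (G_del (j + 1) x), funext (G_del i x), del_mul, del_mul,
      P257.H93.del_del_lt h]
    group

theorem map_del (θ : R →+* R') (j : ℕ) (x : TP p R) : (x.del j).map θ = (x.map θ).del j := by
  rcases j with _ | j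
  · exact TP.ext (ph_map θ x 1).symm rfl
  · refine TP.ext rfl ?_
    funext k i
    change θ ((x.del (j + 1)).T k i) = _
    rcases lt_trichotomy k j with h | rfl | h
    · rw [del_T_lt h, del_T_lt h]; rfl
    · rw [del_T_self, del_T_self, map_delT, ph_map]; rfl
    · rw [del_T_ge h, del_T_ge h]; rfl

theorem sc_del (u : Rˣ) (j : ℕ) (x : TP p R) : (x.del j).sc (u : R) = (x.sc (u : R)).del j := by
  rcases j with _ | j
  · exact TP.ext (ph_sc u x 1).symm rfl
  · refine TP.ext rfl ?_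
    funext k i
    change (u : R) ^ _ * ((x.del (j + 1)).T k i) = _
    rcases lt_trichotomy k j with h | rfl | h
    · rw [del_T_lt h, del_T_lt h]; rfl
    · rw [del_T_self, del_T_self, ← delT_scale, ph_sc]; rfl
    · rw [del_T_ge h, del_T_ge h]; rfl

/-- `x` and `y` agree up to the `n`-th law -/
def Agr (n : ℕ) (x y : TP p R) : Prop := x.φ = y.φ ∧ ∀ k < n, x.T k = y.T k

theorem Agr.del {n : ℕ} {x y : TP p R} (h : Agr (n + 1) x y) (j : ℕ) :
    Agr n (x.del j) (y.del j) := by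
  rcases j with _ | j
  · exact ⟨ph_congr h.1 fun k hk => h.2 k (by omega), fun k hk => h.2 (k + 1) (by omega)⟩
  · refine ⟨h.1, fun k hk => ?_⟩
    rcases lt_trichotomy k j with h1 | rfl | h1
    · rw [del_T_lt h1, del_T_lt h1, h.2 k (by omega)]
    · rw [del_T_self, del_T_self, ph_congr h.1 fun l hl => h.2 l (by omega), h.2 k (by omega),
        h.2 (k + 1) (by omega)]
    · rw [del_T_ge h1, del_T_ge h1, h.2 (k + 1) (by omega)]

theorem agr_del {n j : ℕ} (h : n < j) (x : TP p R) : Agr n (x.del j) x := by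
  obtain ⟨j, rfl⟩ : ∃ j', j = j' + 1 := ⟨j - 1, by omega⟩
  exact ⟨rfl, fun k hk => del_T_lt (by omega) x⟩

omit [PL p R] [PL p R'] hp in
theorem Agr.co {n : ℕ} {x y : TP p R} (h : Agr n x y) {ji : ℕ × ℕ} (hj : ji.1 ≤ n) :
    x.co ji = y.co ji := by
  obtain ⟨_ | j, i⟩ := ji
  · rw [co_zero, co_zero, h.1]
  · rw [co_succ, co_succ, h.2 j hj]

/-- the point defined by a sequence of isomorphisms to Hazewinkel laws -/
def ofG (F : Law R) (g : ℕ → strict R) (h : ∀ k, IsHaz p ((g k : InvSeries R) • F)) : TP p R :=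
  ⟨(h 0).choose, fun k => tOf p ((g k : InvSeries R) • F)
    ((g k : InvSeries R) * (g (k + 1) : InvSeries R)⁻¹)⟩

theorem ofG_spec (F : Law R) (g : ℕ → strict R) (h : ∀ k, IsHaz p ((g k : InvSeries R) • F))
    (k : ℕ) : hz p ((ofG F g h).ph k) = (g k : InvSeries R) • F ∧
      (ofG F g h).G k = g k * (g 0)⁻¹ := by
  induction k with
  | zero => exact ⟨(h 0).choose_spec.symm, (mul_inv_cancel _).symm⟩
  | succ k ih =>
    have h1 : gT p ((ofG F g h).ph k) ((ofG F g h).T k) =
        (g k : InvSeries R) * (g (k + 1) : InvSeries R)⁻¹ := by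
      change gT p _ (tOf p ((g k : InvSeries R) • F) _) = _
      rw [← ih.1]
      refine gT_tOf p (mul_mem (g k).2 (inv_mem (g (k + 1)).2)) ?_
      rw [ih.1, mul_inv_rev, inv_inv, mul_smul, inv_smul_smul]
      exact h (k + 1)
    constructor
    · rw [ph_succ, hz_etaT, h1, ih.1, mul_inv_rev, inv_inv, mul_smul, inv_smul_smul]
    · apply Subtype.ext
      rw [val_G_succ, h1, ih.2]
      simp only [Subgroup.coe_mul, Subgroup.coe_inv]
      group

end TP

/-! ### the ring `Bi k` -/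

/-- `k[v, t^(0), t^(1), …]` -/
abbrev Bi (k : Type) [CommRing k] : Type := MvPolynomial (ℕ × ℕ) k

section ev

variable {p : ℕ} {k R R' : Type} [CommRing k] [CommRing R] [CommRing R']

/-- evaluation at a point -/
def evT (κ : k →+* R) (x : TP p R) : Bi k →+* R := eval₂Hom κ x.co

@[simp] theorem evT_X (κ : k →+* R) (x : TP p R) (ji : ℕ × ℕ) : evT κ x (X ji) = x.co ji := by
  simp [evT]

@[simp] theorem evT_C (κ : k →+* R) (x : TP p R) (c : k) : evT κ x (C c) = κ c := by
  simp [evT]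

theorem comp_evT (θ : R →+* R') (κ : k →+* R) (x : TP p R) :
    θ.comp (evT κ x) = evT (θ.comp κ) (x.map θ) := by
  refine ringHom_ext (fun c => by simp) fun ji => ?_
  rw [RingHom.comp_apply, evT_X, evT_X, TP.co_map]

theorem map_evT (θ : R →+* R') (κ : k →+* R) (x : TP p R) (z : Bi k) :
    θ (evT κ x z) = evT (θ.comp κ) (x.map θ) z := by
  rw [← comp_evT]
  rfl

variable (p k) in
/-- the universal point -/
def uT : TP p (Bi k) := TP.ofCo X

theorem co_uT (ji : ℕ × ℕ) : (uT p k).co ji = X ji := congrFun (TP.co_ofCo _) ji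

theorem uT_φ (i : ℕ) : (uT p k).φ (X i) = X (0, i) := co_uT (0, i)

theorem uT_T (j i : ℕ) : (uT p k).T j i = X (j + 1, i) := rfl

theorem evT_uT : evT C (uT p k) = RingHom.id (Bi k) :=
  ringHom_ext (fun c => by simp) fun ji => by rw [evT_X, co_uT]; rfl

theorem uT_map_evT (κ : k →+* R) (x : TP p R) : (uT p k).map (evT κ x) = x :=
  TP.ext_co fun ji => by rw [TP.co_map, co_uT, evT_X]

theorem evT_comp_C (κ : k →+* R) (x : TP p R) : (evT κ x).comp C = κ :=
  RingHom.ext fun c => evT_C κ x c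

theorem eq_evT (θ : Bi k →+* R) : θ = evT (θ.comp C) ((uT p k).map θ) := by
  rw [← comp_evT, evT_uT, RingHom.comp_id]

/-- `z` only depends on the first `n` isomorphisms -/
def Lev (n : ℕ) (z : Bi k) : Prop := z ∈ supported k {ji : ℕ × ℕ | ji.1 ≤ n}

theorem lev_iff {n : ℕ} {z : Bi k} :
    Lev n z ↔ ∀ m ∈ z.support, ∀ ji ∈ m.support, ji.1 ≤ n := by
  rw [Lev, mem_supported]
  constructor
  · intro h m hm ji hji
    exact h ((mem_vars_iff_mem_support ji).2 ⟨m, hm, hji⟩)
  · intro h ji hji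
    obtain ⟨m, hm, hji⟩ := (mem_vars_iff_mem_support ji).1 hji
    exact h m hm ji hji

theorem Lev.mono {n m : ℕ} {z : Bi k} (h : Lev n z) (hnm : n ≤ m) : Lev m z :=
  supported_mono (fun _ hji => le_trans hji hnm) h

theorem Lev.add {n : ℕ} {x y : Bi k} (hx : Lev n x) (hy : Lev n y) : Lev n (x + y) := add_mem hx hy
theorem Lev.sub {n : ℕ} {x y : Bi k} (hx : Lev n x) (hy : Lev n y) : Lev n (x - y) := sub_mem hx hy
theorem Lev.neg {n : ℕ} {x : Bi k} (hx : Lev n x) : Lev n (-x) := neg_mem hx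
theorem Lev.mul {n : ℕ} {x y : Bi k} (hx : Lev n x) (hy : Lev n y) : Lev n (x * y) := mul_mem hx hy
theorem Lev.zsmul {n : ℕ} {x : Bi k} (hx : Lev n x) (c : ℤ) : Lev n (c • x) := zsmul_mem hx c
theorem lev_zero (n : ℕ) : Lev n (0 : Bi k) := zero_mem _
theorem lev_one (n : ℕ) : Lev n (1 : Bi k) := one_mem _
theorem lev_C (n : ℕ) (c : k) : Lev n (C c : Bi k) := Subalgebra.algebraMap_mem _ c
theorem lev_X {n : ℕ} {ji : ℕ × ℕ} (h : ji.1 ≤ n) : Lev n (X ji : Bi k) :=
  Algebra.subset_adjoin ⟨ji, h, rfl⟩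
theorem Lev.sum {n : ℕ} {ι : Type} {s : Finset ι} {f : ι → Bi k} (h : ∀ i ∈ s, Lev n (f i)) :
    Lev n (∑ i ∈ s, f i) := sum_mem h

theorem Lev.hom_ext {n : ℕ} {z : Bi k} (h : Lev n z) {f g : Bi k →+* R}
    (hC : f.comp C = g.comp C) (hX : ∀ ji : ℕ × ℕ, ji.1 ≤ n → f (X ji) = g (X ji)) : f z = g z :=
  hom_congr_vars hC (fun ji hji _ => hX ji (mem_supported.1 h hji)) rfl

theorem Lev.evT_congr {n : ℕ} {z : Bi k} (h : Lev n z) (κ : k →+* R) {x y : TP p R}
    (hxy : TP.Agr n x y) : evT κ x z = evT κ y z :=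
  h.hom_ext (by rw [evT_comp_C, evT_comp_C]) fun ji hji => by rw [evT_X, evT_X, hxy.co hji]

theorem lev_of_hom {n : ℕ} (f : Bi k →+* Bi k) (hC : f.comp C = C) {m : ℕ} {z : Bi k}
    (hz : Lev m z) (hX : ∀ ji : ℕ × ℕ, ji.1 ≤ m → Lev n (f (X ji))) : Lev n (f z) := by
  induction hz using Algebra.adjoin_induction with
  | mem x hx =>
    obtain ⟨ji, hji, rfl⟩ := hx
    exact hX ji hji
  | algebraMap c =>
    change Lev n ((f.comp C) c)
    rw [hC]
    exact lev_C n c
  | add x y _ _ hx hy => rw [map_add]; exact hx.add hy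
  | mul x y _ _ hx hy => rw [map_mul]; exact hx.mul hy

theorem exists_lev (z : Bi k) : ∃ n, Lev n z :=
  ⟨z.vars.sup Prod.fst, mem_supported.2 fun _ hji => Finset.le_sup (f := Prod.fst) hji⟩

variable (p k) in
/-- the truncated universal point -/
def uTr (n : ℕ) : TP p (Bi k) := TP.ofCo fun ji => if ji.1 ≤ n then X ji else 0

theorem co_uTr (n : ℕ) (ji : ℕ × ℕ) : (uTr p k n).co ji = if ji.1 ≤ n then X ji else 0 :=
  congrFun (TP.co_ofCo _) ji

theorem agr_uTr (n : ℕ) : TP.Agr n (uTr p k n) (uT p k) :=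
  ⟨VZ.ext fun i => by
    rw [← TP.co_zero, co_uTr, if_pos (Nat.zero_le n), uT_φ], fun j hj => funext fun i => by
    rw [← TP.co_succ, co_uTr, if_pos (show j + 1 ≤ n from hj), uT_T]⟩

/-! ### weights -/

variable (p) in
/-- the weight of `v_(i+1)` and of `t_(i+1)` -/
def wz (i : ℕ) : ℤ := ((p ^ (i + 1) - 1 : ℕ) : ℤ)

variable (p) in
/-- the weights of the variables of `Bi k` -/
def wB (ji : ℕ × ℕ) : ℤ := wz p ji.2

variable (p) in
/-- homogeneous of weight `w` -/
abbrev Wt (w : ℤ) (z : Bi k) : Prop := z.IsWeightedHomogeneous (wB p) w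

theorem eval₂_scale {σ : Type} (n : σ → ℕ) (κ : k →+* R) (c : σ → R) (u : Rˣ) (m : σ →₀ ℕ) (a : k) :
    eval₂Hom κ (fun i => (u : R) ^ n i * c i) (monomial m a) =
      ((u ^ (Finsupp.weight (fun i => (n i : ℤ)) m) : Rˣ) : R) * eval₂Hom κ c (monomial m a) := by
  rw [eval₂Hom_monomial, eval₂Hom_monomial, mul_left_comm]
  congr 1
  induction m using Finsupp.induction_linear with
  | zero => simp
  | add f g hf hg =>
    rw [Finsupp.prod_add_index' (by simp) (fun _ _ _ => pow_add _ _ _),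
      Finsupp.prod_add_index' (by simp) (fun _ _ _ => pow_add _ _ _), hf, hg, map_add, zpow_add,
      Units.val_mul]
    ring
  | single i e =>
    rw [Finsupp.prod_single_index (by simp), Finsupp.prod_single_index (by simp),
      Finsupp.weight_single, mul_pow, ← pow_mul, nsmul_eq_mul, ← Nat.cast_mul, zpow_natCast,
      Units.val_pow_eq_pow_val, mul_comm e]

theorem eval₂_scale_of_wt {σ : Type} (n : σ → ℕ) (κ : k →+* R) (c : σ → R) (u : Rˣ) {w : ℤ}
    {z : MvPolynomial σ k} (hz : z.IsWeightedHomogeneous (fun i => (n i : ℤ)) w) :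
    eval₂Hom κ (fun i => (u : R) ^ n i * c i) z = ((u ^ w : Rˣ) : R) * eval₂Hom κ c z := by
  conv_lhs => rw [z.as_sum]
  conv_rhs => rw [z.as_sum]
  rw [map_sum, map_sum, Finset.mul_sum]
  refine Finset.sum_congr rfl fun m hm => ?_
  rw [eval₂_scale, hz (mem_support_iff.1 hm)]

open scoped LaurentPolynomial in
/-- the unit `T` -/
def uL (N : Type) [CommRing N] : (N[T;T⁻¹])ˣ where
  val := LaurentPolynomial.T 1
  inv := LaurentPolynomial.T (-1)
  val_inv := by rw [← LaurentPolynomial.T_add]; simp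
  inv_val := by rw [← LaurentPolynomial.T_add]; simp

open scoped LaurentPolynomial in
theorem uL_zpow (N : Type) [CommRing N] (w : ℤ) :
    ((uL N ^ w : (N[T;T⁻¹])ˣ) : N[T;T⁻¹]) = LaurentPolynomial.T w := by
  have h1 : ∀ k : ℕ, ((uL N ^ k : (N[T;T⁻¹])ˣ) : N[T;T⁻¹]) = LaurentPolynomial.T k := by
    intro k
    rw [Units.val_pow_eq_pow_val]
    change (LaurentPolynomial.T 1 : N[T;T⁻¹]) ^ k = _
    rw [LaurentPolynomial.T_pow, mul_one]
  cases w with
  | ofNat k => simpa using h1 k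
  | negSucc k =>
    rw [zpow_negSucc]
    apply Units.inv_eq_of_mul_eq_one_right
    rw [h1, ← LaurentPolynomial.T_add, Int.negSucc_eq]
    push_cast
    simp

open scoped LaurentPolynomial in
theorem wt_of_scale {σ : Type} (n : σ → ℕ) {w : ℤ} {z : MvPolynomial σ k}
    (h : eval₂Hom ((LaurentPolynomial.C : MvPolynomial σ k →+* _).comp C)
      (fun i => ((uL (MvPolynomial σ k) : (MvPolynomial σ k)[T;T⁻¹])) ^ n i *
        LaurentPolynomial.C (X i)) z =
      ((uL (MvPolynomial σ k) ^ w : _ˣ) : (MvPolynomial σ k)[T;T⁻¹]) * LaurentPolynomial.C z) :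
    z.IsWeightedHomogeneous (fun i => (n i : ℤ)) w := by
  classical
  intro d hd
  by_contra hne
  have e1 : eval₂Hom ((LaurentPolynomial.C : MvPolynomial σ k →+* _).comp C)
      (fun i => (LaurentPolynomial.C (X i) : (MvPolynomial σ k)[T;T⁻¹])) = LaurentPolynomial.C :=
    ringHom_ext (fun c => by simp) (fun i => by simp)
  have e2 : ∀ (a : MvPolynomial σ k) (v v' : ℤ), ((LaurentPolynomial.T v * LaurentPolynomial.C a :
      (MvPolynomial σ k)[T;T⁻¹])).coeff v' = if v = v' then a else 0 := by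
    intro a v v'
    rw [mul_comm, ← LaurentPolynomial.single_eq_C_mul_T, AddMonoidAlgebra.coeff_single,
      Finsupp.single_apply]
  conv_lhs at h => rw [z.as_sum]
  rw [map_sum] at h
  simp only [eval₂_scale, e1, uL_zpow] at h
  have h2 := congrArg (fun q : (MvPolynomial σ k)[T;T⁻¹] =>
    coeff d (q.coeff (Finsupp.weight (fun i => (n i : ℤ)) d))) h
  simp only [AddMonoidAlgebra.coeff_sum, Finsupp.coe_finsetSum, Finset.sum_apply, e2, coeff_sum] at h2
  rw [if_neg (Ne.symm hne), coeff_zero, Finset.sum_eq_single d, if_pos rfl, coeff_monomial,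
    if_pos rfl] at h2
  · exact hd h2
  · intro b _ hb
    split_ifs
    · rw [coeff_monomial, if_neg hb]
    · rfl
  · intro h3
    exact absurd (mem_support_iff.2 hd) h3

theorem evT_sc (κ : k →+* R) (x : TP p R) (u : Rˣ) {w : ℤ} {z : Bi k} (hz : Wt p w z) :
    evT κ (x.sc (u : R)) z = ((u ^ w : Rˣ) : R) * evT κ x z := by
  rw [evT, evT, funext (TP.co_sc (u : R) x)]
  exact eval₂_scale_of_wt (fun ji : ℕ × ℕ => p ^ (ji.2 + 1) - 1) κ x.co u hz

open scoped LaurentPolynomial in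
theorem wt_of_evT {w : ℤ} {z : Bi k}
    (h : evT ((LaurentPolynomial.C : Bi k →+* (Bi k)[T;T⁻¹]).comp C)
      (((uT p k).map LaurentPolynomial.C).sc (uL (Bi k) : (Bi k)[T;T⁻¹])) z =
      ((uL (Bi k) ^ w : _ˣ) : (Bi k)[T;T⁻¹]) * LaurentPolynomial.C z) : Wt p w z := by
  refine wt_of_scale (fun ji : ℕ × ℕ => p ^ (ji.2 + 1) - 1) ?_
  rw [← h, evT]
  congr 2
  funext ji
  rw [TP.co_sc, TP.co_map, co_uT]

end ev

/-! ### the cofaces -/

section D

variable {p : ℕ} [hp : Fact p.Prime] {k R : Type} [CommRing k] [CommRing R] [PL p k]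

variable (p k) in
/-- the cofaces -/
def D (j : ℕ) : Bi k →+* Bi k := evT C ((uT p k).del j)

theorem evT_D [PL p R] (κ : k →+* R) (x : TP p R) (j : ℕ) (z : Bi k) :
    evT κ x (D p k j z) = evT κ (x.del j) z := by
  rw [D, map_evT, evT_comp_C, TP.map_del, uT_map_evT]

theorem D_comp_C (j : ℕ) : (D p k j).comp C = C := evT_comp_C _ _

@[simp] theorem D_C (j : ℕ) (c : k) : D p k j (C c) = C c := evT_C _ _ _

theorem D_D {i j : ℕ} (h : i ≤ j) (z : Bi k) :
    D p k (j + 1) (D p k i z) = D p k i (D p k j z) := by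
  rw [D, evT_D, TP.del_del h, ← evT_D]
  rfl

theorem D_of_lev {n j : ℕ} (h : n < j) {z : Bi k} (hz : Lev n z) : D p k j z = z := by
  rw [D, hz.evT_congr C (TP.agr_del h _), evT_uT]
  rfl

theorem D_X_of_ge {j m : ℕ} (h : j ≤ m) (i : ℕ) :
    D p k j (X (m + 1, i)) = X (m + 2, i) := by
  rw [D, evT_X, TP.co_succ, TP.del_T_ge h, uT_T]

theorem D_zero_X (i : ℕ) : D p k 0 (X (0, i)) =
    etaT p (uT p k).φ (fun i => X (1, i)) (X i) := by
  rw [D, evT_X]
  rfl

theorem D_X_self (j i : ℕ) : D p k (j + 1) (X (j + 1, i)) =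
    delT p ((uT p k).ph j) (fun i => X (j + 1, i)) (fun i => X (j + 2, i)) i := by
  rw [D, evT_X, TP.co_succ, TP.del_T_self]
  rfl

omit hp [PL p k] in
theorem lev_evT_uTr (n : ℕ) (z : Bi k) : Lev n (evT C (uTr p k n) z) := by
  obtain ⟨m, hm⟩ := exists_lev z
  refine lev_of_hom _ (evT_comp_C _ _) hm fun ji _ => ?_
  rw [evT_X, co_uTr]
  split_ifs with h
  · exact lev_X h
  · exact lev_zero n

theorem Lev.D {n : ℕ} {z : Bi k} (hz : Lev n z) (j : ℕ) : Lev (n + 1) (D p k j z) := by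
  have h : Alg.D p k j z = evT C (uTr p k (n + 1)) (Alg.D p k j z) := by
    rw [evT_D, Alg.D]
    exact (hz.evT_congr C ((agr_uTr (n + 1)).del j)).symm
  rw [h]
  exact lev_evT_uTr _ _

open scoped LaurentPolynomial in
theorem Wt.D {w : ℤ} {z : Bi k} (hz : Wt p w z) (j : ℕ) : Wt p w (D p k j z) := by
  haveI : PL p (Bi k)[T;T⁻¹] := PL.of_hom p (LaurentPolynomial.C : Bi k →+* _)
  apply wt_of_evT
  rw [evT_D, ← TP.sc_del, evT_sc _ _ _ hz, ← TP.map_del, ← map_evT]
  rfl

variable (p k) in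
/-- the partial alternating sum `∑_{j < n} (-1)^j D j` -/
def dP (n : ℕ) : Bi k →+ Bi k :=
  ∑ j ∈ Finset.range n, ((-1 : ℤ) ^ j) • (D p k j).toAddMonoidHom

theorem dP_apply (n : ℕ) (z : Bi k) :
    dP p k n z = ∑ j ∈ Finset.range n, ((-1 : ℤ) ^ j) • D p k j z := by
  simp [dP, AddMonoidHom.finsetSum_apply]

theorem dP_succ (n : ℕ) (z : Bi k) :
    dP p k (n + 1) z = dP p k n z + ((-1 : ℤ) ^ n) • D p k n z := by
  rw [dP_apply, dP_apply, Finset.sum_range_succ]

theorem D_dP {n j : ℕ} (h : n ≤ j + 1) (z : Bi k) :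
    D p k (j + 1) (dP p k n z) = dP p k n (D p k j z) := by
  rw [dP_apply, dP_apply, map_sum]
  refine Finset.sum_congr rfl fun i hi => ?_
  rw [map_zsmul, D_D (by have := Finset.mem_range.1 hi; omega)]

theorem dP_dP (n : ℕ) (z : Bi k) : dP p k (n + 1) (dP p k n z) = 0 := by
  induction n with
  | zero => rw [dP_apply (n := 0), Finset.sum_range_zero, map_zero]
  | succ n ih =>
    rw [dP_succ (n + 1), D_dP le_rfl, dP_succ n z, map_add, ih, zero_add, map_zsmul, pow_succ,
      mul_neg_one, neg_smul, add_neg_cancel]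

theorem Lev.dP {n : ℕ} {z : Bi k} (hz : Lev n z) (m : ℕ) : Lev (n + 1) (dP p k m z) := by
  rw [dP_apply]
  exact Lev.sum fun j _ => (hz.D j).zsmul _

theorem wt_zsmul {w : ℤ} {z : Bi k} (hz : Wt p w z) (c : ℤ) : Wt p w (c • z) :=
  zsmul_mem (S := Submodule k (Bi k)) (K := weightedHomogeneousSubmodule k (wB p) w) hz c

theorem Wt.dP {w : ℤ} {z : Bi k} (hz : Wt p w z) (m : ℕ) : Wt p w (dP p k m z) := by
  rw [dP_apply]
  exact IsWeightedHomogeneous.sum _ _ _ fun j _ => wt_zsmul (Wt.D hz j) _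

variable (p k) in
/-- the differential of the cobar complex in degree `n` -/
def dB (n : ℕ) : Bi k →+ Bi k := dP p k (n + 2)

theorem dB_eq {n : ℕ} {z : Bi k} (hz : Lev n z) :
    dB p k n z = dP p k (n + 1) z + ((-1 : ℤ) ^ (n + 1)) • z := by
  rw [dB, dP_succ, D_of_lev (Nat.lt_succ_self n) hz]

end D

end Vale.Agent.P236K.Alg
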