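import Vale.Agent.P236K.Alg.Col

/-!
# P236K / Alg / Stair : the comparison `Th` of the cobar complex with the small complex
-/

set_option linter.unusedSectionVars false

noncomputable section

namespace Vale.Agent.P236K.Alg

open Vale.Agent.P251.F MvPolynomial

namespace Tw

variable (p : ℕ) {k G : Type} [CommRing k] [hp : Fact p.Prime] [PL p k] [Fintype G]
  [DecidableEq G] (τ : Tw k G)

/-- `Phi 0 ∘ … ∘ Phi (a - 1)` -/
def PhiN : ℕ → (G → Bi k) →+ (G → Bi k)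
  | 0 => AddMonoidHom.id _
  | a + 1 => (PhiN a).comp (τ.Phi p a)

theorem PhiN_zero (y : G → Bi k) : τ.PhiN p 0 y = y := rfl
theorem PhiN_succ (a : ℕ) (y : G → Bi k) : τ.PhiN p (a + 1) y = τ.PhiN p a (τ.Phi p a y) := rfl

/-- the comparison map -/
def Th (s : ℕ) : Bi k →+ (G → Av k) :=
  ((rA k).toAddMonoidHom.compLeft G).comp ((τ.PhiN p s).comp τ.sg)

theorem Th_apply (s : ℕ) (x : Bi k) (g : G) : τ.Th p s x g = rA k (τ.PhiN p s (τ.sg x) g) := rfl

/-- the action of a cochain `x` of degree `s` on `W` -/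
def Lx (s : ℕ) (x : Bi k) : (G → Av k) →+ (G → Av k) where
  toFun w h := rA k (τ.PhiN p s (fun g => x * al p k s (w g)) h)
  map_zero' := by
    funext h
    rw [show (fun g => x * al p k s ((0 : G → Av k) g)) = 0 from funext fun g => by simp,
      map_zero, Pi.zero_apply, map_zero, Pi.zero_apply]
  map_add' u v := by
    funext h
    rw [show (fun g => x * al p k s ((u + v) g)) =
      (fun g => x * al p k s (u g)) + fun g => x * al p k s (v g) from funext fun g => by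
        simp [mul_add], map_add, Pi.add_apply, map_add, Pi.add_apply]

theorem Lx_apply (s : ℕ) (x : Bi k) (w : G → Av k) (h : G) :
    τ.Lx p s x w h = rA k (τ.PhiN p s (fun g => x * al p k s (w g)) h) := rfl

variable {p τ}

theorem Lx_add (s : ℕ) (x y : Bi k) (w : G → Av k) :
    τ.Lx p s (x + y) w = τ.Lx p s x w + τ.Lx p s y w := by
  funext h
  rw [Lx_apply, show (fun g => (x + y) * al p k s (w g)) =
    (fun g => x * al p k s (w g)) + fun g => y * al p k s (w g) from funext fun g => add_mul _ _ _,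
    map_add, Pi.add_apply, map_add]
  rfl

theorem Th_eq_Lx (s : ℕ) (x : Bi k) : τ.Th p s x = τ.Lx p s x (Pi.single τ.g0 1) := by
  funext h
  have e : τ.sg x = fun g => x * al p k s ((Pi.single τ.g0 1 : G → Av k) g) := by
    funext g
    rw [sg_apply, Pi.single_apply, Pi.single_apply]
    split_ifs <;> simp
  rw [Th_apply, Lx_apply, e]

theorem lev_PhiN {a : ℕ} {y : G → Bi k} (hy : ∀ g, Lev a (y g)) (h : G) :
    Lev 0 (τ.PhiN p a y h) := by
  induction a generalizing y with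
  | zero => exact hy h
  | succ a ih => exact ih fun g => Lev.sum fun g' _ => (hy g').Ph1 _

theorem PhiN_mul {a : ℕ} {x : Bi k} (hx : Lev a x) (b : ℕ) (z : G → Bi k) :
    τ.PhiN p (a + b) (fun g => x * sh p k a (z g)) =
      τ.PhiN p a fun g => x * sh p k a (τ.PhiN p b z g) := by
  induction b generalizing z with
  | zero => rfl
  | succ b ih =>
    rw [← add_assoc, PhiN_succ, PhiN_succ, ← ih]
    congr 1
    funext h
    rw [Phi_apply, Phi_apply, map_sum, Finset.mul_sum]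
    refine Finset.sum_congr rfl fun g _ => ?_
    rw [Ph1_mul (hx.mono (Nat.le_add_right a b)), add_comm a b, Ph1_sh]

theorem Lx_cup {a b : ℕ} {x y : Bi k} (hx : Lev a x) (hy : Lev b y) (w : G → Av k) :
    τ.Lx p (a + b) (x * sh p k a y) w = τ.Lx p a x (τ.Lx p b y w) := by
  funext h
  have e : (fun g => x * sh p k a y * al p k (a + b) (w g)) =
      fun g => x * sh p k a (y * al p k b (w g)) := by
    funext g
    rw [map_mul, sh_al, add_comm b a, mul_assoc]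
  have e2 : (fun g => x * sh p k a (τ.PhiN p b (fun g => y * al p k b (w g)) g)) =
      fun g => x * al p k a (τ.Lx p b y w g) := by
    funext g
    rw [Lx_apply, ← sh_lv, (lev_PhiN (fun g => hy.mul (lev_al b _)) g).lv_rA]
  rw [Lx_apply, Lx_apply, e, PhiN_mul hx, e2]

theorem Th_cup {a b : ℕ} {x y : Bi k} (hx : Lev a x) (hy : Lev b y) :
    τ.Th p (a + b) (x * sh p k a y) = τ.Lx p a x (τ.Th p b y) := by
  rw [Th_eq_Lx, Th_eq_Lx, Lx_cup hx hy]

theorem Lx_zero (a : Av k) (w : G → Av k) (h : G) : τ.Lx p 0 (lv k 0 a) w h = a * w h := by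
  rw [Lx_apply, PhiN_zero, al_zero, ← map_mul, rA_lv]

theorem Lx_lv_mul (s : ℕ) (a : Av k) {x : Bi k} (hx : Lev s x) (w : G → Av k) (h : G) :
    τ.Lx p s (lv k 0 a * x) w h = a * τ.Lx p s x w h := by
  have h1 := congrFun (Lx_cup (τ := τ) (p := p) (lev_lv 0 a) hx w) h
  rwa [zero_add, Lx_zero] at h1

theorem Lx_be1 (y : Gam k) (w : G → Av k) : τ.Lx p 1 (be1 p k 0 y) w = τ.act p y w := by
  funext h
  rw [Lx_apply, PhiN_succ, PhiN_zero, Phi_apply, map_sum, act_apply]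
  refine Finset.sum_congr rfl fun g _ => ?_
  rw [← be1_etaA, ← map_mul, Ph1_be1, al_zero, rA_lv]

theorem sh_be1 (a n : ℕ) (y : Gam k) : sh p k a (be1 p k n y) = be1 p k (n + a) y := by
  have h : (sh p k a).comp (be1 p k n) = be1 p k (n + a) := by
    refine ringHom_ext (fun c => by simp [sh_al]) fun i => ?_
    rw [RingHom.comp_apply, be1_X, be1_X]
    induction a with
    | zero => rfl
    | succ a ih => rw [sh_succ, ih, D_X_of_ge (Nat.zero_le _)]; rfl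
  exact RingHom.congr_fun h y

theorem Lx_be1_mul (y : Gam k) {b : ℕ} {x : Bi k} (hx : Lev b x) (w : G → Av k) :
    τ.Lx p (1 + b) (be1 p k 0 y * D p k 0 x) w = τ.act p y (τ.Lx p b x w) := by
  rw [← Lx_be1, ← Lx_cup (lev_be1 0 y) hx]
  rfl

theorem lv_mem_KK {U : UpperSet Ex} {s : ℕ} {w : ℤ} {u : G → Av k} :
    (fun g => lv k 0 (u g)) ∈ τ.KK p U 0 s w ↔ u ∈ τ.WK p U s w := by
  constructor
  · intro h
    refine ⟨fun g => ⟨fun h1 => ?_, wt_lv.1 (h g).2.2.1⟩, fun g => lv_mem_JM.1 (h g).2.2.2⟩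
    have h2 : lv k 0 (u g) = 0 := (h g).1 h1
    rw [← rA_lv (u g), h2, map_zero]
  · intro h g
    exact ⟨fun h1 => by simp only [(h.1 g).1 h1, map_zero], lev_lv 0 _, wt_lv.2 (h.1 g).2,
      lv_mem_JM.2 (h.2 g)⟩

theorem KK.lv_rA {U : UpperSet Ex} {s : ℕ} {w : ℤ} {y : G → Bi k} (hy : y ∈ τ.KK p U 0 s w) :
    (fun g => lv k 0 (rA k (y g))) = y := funext fun g => (hy g).2.1.lv_rA

theorem vB_lv (u : G → Av k) :
    τ.vB p 0 (fun g => lv k 0 (u g)) = fun g => lv k 0 (τ.dW p u g) := by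
  funext h
  rw [vB_apply, dW_apply, map_sum]
  refine Finset.sum_congr rfl fun g _ => ?_
  rw [← al_zero (p := p), D_al le_rfl, ← be1_etaA, Ph1_be1]

variable {N : ℤ} {A B E : UpperSet Ex} {w : ℤ}

theorem Ok.PhiN_mem (H : τ.Ok p N A) {U : UpperSet Ex} {a s : ℕ} {y : G → Bi k}
    (hy : y ∈ τ.KK p U a s w) : τ.PhiN p a y ∈ τ.KK p U 0 (s + a) w := by
  induction a generalizing s y with
  | zero => exact hy
  | succ a ih =>
    rw [show s + (a + 1) = s + 1 + a by ring]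
    exact ih (H.Phi_mem hy)

theorem lv_Th {s : ℕ} {x : Bi k} (hx : Lev s x) :
    (fun g => lv k 0 (τ.Th p s x g)) = τ.PhiN p s (τ.sg x) := by
  funext g
  refine (lev_PhiN (fun g => ?_) g).lv_rA
  rw [sg_apply, Pi.single_apply]
  split_ifs
  · exact hx
  · exact lev_zero s

theorem Ok.Th_mem (H : τ.Ok p N A) {U : UpperSet Ex} {s : ℕ} {x : Bi k}
    (hx : x ∈ CK p k U s w) : τ.Th p s x ∈ τ.WK p U s w := by
  rw [← lv_mem_KK, lv_Th hx.1]
  simpa using H.PhiN_mem (H.sg_mem.2 hx)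

theorem Ok.dW_mem (H : τ.Ok p N A) {U : UpperSet Ex} (hU : Inv p k U) {s : ℕ} {u : G → Av k}
    (hu : u ∈ τ.WK p U s w) : τ.dW p u ∈ τ.WK p U (s + 1) w := by
  rw [← lv_mem_KK, ← vB_lv]
  exact H.vB_mem hU (lv_mem_KK.2 hu)

theorem Ok.Lx_mem (H : τ.Ok p N A) {U V W : UpperSet Ex} (hV : Inv p k V)
    (h : ∀ e ∈ U, ∀ e' ∈ V, e + e' ∈ W) {a s : ℕ} {w' : ℤ} {x : Bi k} (hx : x ∈ CK p k U a w')
    {u : G → Av k} (hu : u ∈ τ.WK p V s w) : τ.Lx p a x u ∈ τ.WK p W (s + a) (w' + w) := by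
  have h1 : (fun g => x * al p k a (u g)) ∈ τ.KK p W a s (w' + w) := fun g =>
    ⟨fun h1 => by simp only [(hu.1 g).1 h1, map_zero, mul_zero], hx.1.mul (lev_al a _), by
      rw [add_sub_assoc]; exact hx.2.1.mul (wt_al a (hu.1 g).2),
      mul_mem_JM h hx.2.2 (hV.al_mem a (hu.2 g))⟩
  have h2 := H.PhiN_mem h1
  rw [← KK.lv_rA h2] at h2
  exact lv_mem_KK.1 h2

theorem Hyp.Psi_succ (H : Hyp (p := p) τ N A B E w) {a r : ℕ} {y : G → Bi k}
    (hy : ∀ g, Lev a (y g)) : H.zig.Psi a (r + 1) y = τ.PhiN p a y := by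
  induction a generalizing r y with
  | zero => rfl
  | succ a ih =>
    have e : H.zig.φ a (r + 1) y = τ.Phi p a y := by
      funext h
      change Ph1 p _ a (τ.vB p (a + 1) y h) = _
      rw [vB_apply, Phi_apply, map_sum]
      exact Finset.sum_congr rfl fun g _ => by rw [Ph1_conv (hy g), conv_eps_left]
    rw [Zig.Psi_succ, PhiN_succ, e]
    exact ih fun g => Lev.sum fun g' _ => (hy g').Ph1 _

theorem Hyp.Psi_sg (H : Hyp (p := p) τ N A B E w) {s : ℕ} {x : Bi k} (hx : Lev s x) :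
    H.zig.Psi (s + 1) 0 (τ.sg x) = fun g => lv k 0 (τ.Th p s x g) := by
  have e : H.zig.φ s 0 (τ.sg x) = τ.sg x := by
    change (Ph1 p _ s).compLeft G (τ.sg x) = _
    rw [compLeft_sg, Ph1_eps_of_lev hx]
  rw [Zig.Psi_succ, e, lv_Th hx]
  refine H.Psi_succ fun g => ?_
  rw [sg_apply, Pi.single_apply]
  split_ifs
  · exact hx
  · exact lev_zero s

variable (p τ) in
/-- coboundaries of `W` -/
def WBd (U : UpperSet Ex) (w : ℤ) : ℕ → AddSubgroup (G → Av k)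
  | 0 => ⊥
  | s + 1 => (τ.WK p U s w).map (τ.dW p)

end Tw

/-- coboundaries of the cobar complex -/
def CBd (p : ℕ) [Fact p.Prime] (k : Type) [CommRing k] [PL p k] (U : UpperSet Ex) (w : ℤ) :
    ℕ → AddSubgroup (Bi k)
  | 0 => ⊥
  | s + 1 => (CK p k U s w).map (dB p k s)

namespace Tw

variable {p : ℕ} {k G : Type} [CommRing k] [hp : Fact p.Prime] [PL p k] [Fintype G]
  [DecidableEq G] {τ : Tw k G} {N : ℤ} {A B E : UpperSet Ex} {w : ℤ}

theorem Hyp.dW_dW (H : Hyp (p := p) τ N A B E w) {s : ℕ} {u : G → Av k}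
    (hu : u ∈ τ.WK p B s w) (g : G) : τ.dW p (τ.dW p u) g ∈ JA k E := by
  have h := H.vv (lv_mem_KK.2 hu)
  rw [vB_lv, vB_lv] at h
  exact (lv_mem_KK.1 h).2 g

theorem Hyp.Th_dB (H : Hyp (p := p) τ N A B E w) {s : ℕ} {x : Bi k} (hx : x ∈ CK p k B s w)
    (g : G) : τ.Th p (s + 1) (dB p k s x) g - τ.dW p (τ.Th p s x) g ∈ JA k E := by
  have h := Zig.Psi_h (Z := H.zig) (a := s + 1) (r := 0) ⟨x, hx, rfl⟩
  change H.zig.Psi (s + 1 + 1) 0 ((dB p k s).compLeft G (τ.sg x)) - τ.vB p 0 _ ∈ _ at h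
  rw [compLeft_sg, H.Psi_sg (x := dB p k s x) (hx.1.dP _), H.Psi_sg hx.1, vB_lv] at h
  rw [← lv_mem_JM, map_sub]
  exact (h g).2.2.2

theorem Hyp.Y_sg (H : Hyp (p := p) τ N A B E w) {s : ℕ} {x : Bi k} (hx : x ∈ CK p k B s w) :
    H.zig.Y (s + 1) 0 (τ.sg x) ↔ dB p k s x ∈ JM k E := by
  have e : H.zig.h (s + 1) (H.zig.v (s + 1) 0 (τ.sg x)) = τ.sg (dB p k s x) := compLeft_sg _ x
  have h1 := H.invB.dP_CK (s + 2) hx
  rw [Zig.Y, e]
  exact ⟨fun h => (H.ok.sg_mem.1 h.2).2.2, fun h => ⟨⟨x, hx, rfl⟩,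
    H.ok.sg_mem.2 ⟨h1.1.mono (Nat.le_succ _), h1.2.1, h⟩⟩⟩

theorem Hyp.mem_T_lv (H : Hyp (p := p) τ N A B E w) {s : ℕ} {u : G → Av k}
    (hu : u ∈ τ.WK p B s w) : (fun g => lv k 0 (u g)) ∈ H.zig.T 0 (s + 1) ↔
      ∃ b ∈ τ.WBd p B w s, ∀ g, u g - b g ∈ JA k E := by
  constructor
  · intro h
    obtain ⟨z1, h1, _, ⟨y, hy, rfl⟩, h3⟩ := Zig.mem_T h
    rw [AddSubgroup.mem_bot.1 h1, sub_zero] at h3
    rcases s with _ | s
    · rw [AddSubgroup.mem_bot.1 hy, map_zero, sub_zero] at h3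
      exact ⟨0, zero_mem _, fun g => by
        rw [Pi.zero_apply, sub_zero]; exact (lv_mem_KK.1 h3).2 g⟩
    · have hy' : y ∈ τ.KK p B 0 s w := hy
      rw [← KK.lv_rA hy'] at h3
      rw [← KK.lv_rA hy'] at hy'
      change _ - τ.vB p 0 _ ∈ _ at h3
      rw [vB_lv] at h3
      exact ⟨_, ⟨_, lv_mem_KK.1 hy', rfl⟩, fun g => by
        rw [← lv_mem_JM, map_sub]; exact (h3 g).2.2.2⟩
  · rintro ⟨b, hb, h⟩
    rcases s with _ | s
    · rw [AddSubgroup.mem_bot.1 hb] at h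
      exact Zig.mem_T_K' (lv_mem_KK.2 ⟨hu.1, fun g => by simpa using h g⟩)
    · obtain ⟨y, hy, rfl⟩ := hb
      have h1 : (fun g => lv k 0 (τ.dW p y g)) ∈ H.zig.Vs 0 (s + 1 + 1) :=
        ⟨_, lv_mem_KK.2 hy, vB_lv y⟩
      have h2 : (fun g => lv k 0 ((u - τ.dW p y) g)) ∈ H.zig.K' 0 (s + 1 + 1) :=
        lv_mem_KK.2 ⟨(sub_mem hu (H.ok.dW_mem H.invB hy)).1, h⟩
      have h3 := add_mem (Zig.mem_T_K' h2) (Zig.mem_T_V h1)
      convert h3 using 1
      funext g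
      simp

/-- injectivity of `Th` on cohomology -/
theorem Hyp.Th_inj (H : Hyp (p := p) τ N A B E w) {s : ℕ} (hs : ∀ r < s, τ.Exa p N r) {x : Bi k}
    (hx : x ∈ CK p k B s w) (hd : dB p k s x ∈ JM k E) {b : G → Av k} (hb : b ∈ τ.WBd p B w s)
    (h : ∀ g, τ.Th p s x g - b g ∈ JA k E) : ∃ c ∈ CBd p k B w s, x - c ∈ JM k E := by
  have h1 := Zig.T_of_Psi (fun r hr => H.col hs r (by omega)) ((H.Y_sg hx).2 hd) (by
    rw [H.Psi_sg hx.1]
    exact (H.mem_T_lv (H.ok.Th_mem hx)).2 ⟨b, hb, h⟩)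
  obtain ⟨_, ⟨y, hy, rfl⟩, z2, h2, x', hx', e⟩ := Zig.mem_T h1
  rw [AddSubgroup.mem_bot.1 h2, sub_zero] at e
  rcases s with _ | s
  · rw [AddSubgroup.mem_bot.1 hy, map_zero, sub_zero] at e
    have e' := congrFun e τ.g0
    rw [sg_apply, sg_apply, Pi.single_eq_same, Pi.single_eq_same] at e'
    exact ⟨0, zero_mem _, by rw [sub_zero, ← e']; exact hx'.2.2⟩
  · obtain ⟨y, hy, rfl⟩ := hy
    change _ = _ - (dB p k s).compLeft G (τ.sg y) at e
    rw [compLeft_sg, ← map_sub] at e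
    have e' := congrFun e τ.g0
    rw [sg_apply, sg_apply, Pi.single_eq_same, Pi.single_eq_same] at e'
    exact ⟨_, ⟨y, hy, rfl⟩, by rw [← e']; exact hx'.2.2⟩

/-- surjectivity of `Th` on cohomology -/
theorem Hyp.Th_surj (H : Hyp (p := p) τ N A B E w) {s : ℕ} (hs : ∀ r ≤ s, τ.Exa p N r)
    {u : G → Av k} (hu : u ∈ τ.WK p B s w) (hd : ∀ g, τ.dW p u g ∈ JA k E) :
    ∃ x ∈ CK p k B s w, dB p k s x ∈ JM k E ∧
      ∃ b ∈ τ.WBd p B w s, ∀ g, τ.Th p s x g - u g - b g ∈ JA k E := by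
  have h1 : H.zig.Y 0 (s + 1 + 0) fun g => lv k 0 (u g) := by
    refine ⟨lv_mem_KK.2 hu, H.zig.h_K' ?_⟩
    change τ.vB p 0 _ ∈ _
    rw [vB_lv]
    exact lv_mem_KK.2 ⟨(H.ok.dW_mem H.invB hu).1, hd⟩
  obtain ⟨y, hy, h2⟩ := Zig.exists_Psi (a := s + 1) (r := 0)
    (fun r hr => H.col (n := s + 1) (fun r hr => hs r (by omega)) r hr) h1
  obtain ⟨x, hx, rfl⟩ : y ∈ (CK p k B s w).map τ.sg := hy.1
  rw [H.Psi_sg hx.1] at h2
  refine ⟨x, hx, (H.Y_sg hx).1 hy, (H.mem_T_lv (sub_mem (H.ok.Th_mem hx) hu)).1 ?_⟩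
  convert h2 using 1
  funext g
  simp

end Tw

end Vale.Agent.P236K.Alg
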