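import Vale.Agent.P236K.Alg.Seq
import Vale.Agent.P236K.Alg.Gam

/-!
# P236K / Alg / Tw : monomial ideals, twisting data and the small complex `W = G → Av k`
-/

set_option linter.unusedSectionVars false

noncomputable section

namespace Vale.Agent.P236K.Alg

open MvPolynomial

/-! ### monomial ideals -/

section ideals

/-- the monomial ideal of an upper set of exponents -/
def JA (R : Type) [CommRing R] (U : UpperSet Ex) : Ideal (Av R) :=
  restrictSupportIdeal R (U : Set Ex) U.upper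

variable {R : Type} [CommRing R]

theorem mem_JA {U : UpperSet Ex} {a : Av R} : a ∈ JA R U ↔ ∀ e ∈ a.support, e ∈ U := Iff.rfl

theorem mem_JA' {U : UpperSet Ex} {a : Av R} : a ∈ JA R U ↔ ∀ e, e ∉ U → coeff e a = 0 := by
  rw [mem_JA]
  exact forall_congr' fun e => by rw [mem_support_iff, not_imp_comm]

theorem monomial_mem_JA {U : UpperSet Ex} {e : Ex} (he : e ∈ U) (c : R) :
    monomial e c ∈ JA R U := fun _ h => by
  classical
  rwa [Finset.mem_singleton.1 (support_monomial_subset h)]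

theorem JA_mono {U V : UpperSet Ex} (h : ∀ e ∈ U, e ∈ V) : JA R U ≤ JA R V :=
  fun _ ha => mem_JA.2 fun e he => h e (mem_JA.1 ha e he)

theorem map_JA_le {R' : Type} [CommRing R'] {U : UpperSet Ex} (θ : Av R →+* R') {J : Ideal R'}
    (h : ∀ e ∈ U, θ (monomial e 1) ∈ J) : (JA R U).map θ ≤ J := by
  rw [Ideal.map_le_iff_le_comap]
  intro a ha
  rw [Ideal.mem_comap, a.as_sum, map_sum]
  refine sum_mem fun e he => ?_
  rw [← mul_one (coeff e a), ← C_mul_monomial, map_mul]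
  exact J.mul_mem_left _ (h e (mem_JA.1 ha e he))

/-- all exponents -/
def Uall : UpperSet Ex := ⟨Set.univ, isUpperSet_univ⟩

/-- no exponent -/
def Unone : UpperSet Ex := ⟨∅, isUpperSet_empty⟩

/-- total degree at least `c` -/
def Ud (c : ℕ) : UpperSet Ex :=
  ⟨{e | c ≤ Finsupp.degree e}, (isUpperSet_Ici c).preimage Finsupp.degree_mono⟩

/-- divisible by `v_1^j` -/
def U1 (j : ℕ) : UpperSet Ex := ⟨{e | j ≤ e 0}, fun _ _ h he => le_trans he (h 0)⟩

/-- union -/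
def Uor (U V : UpperSet Ex) : UpperSet Ex := ⟨U ∪ V, U.upper.union V.upper⟩

/-- intersection -/
def Uand (U V : UpperSet Ex) : UpperSet Ex := ⟨U ∩ V, U.upper.inter V.upper⟩

/-- the upper set generated by `S` -/
def Ugen (S : Set Ex) : UpperSet Ex :=
  ⟨{e | ∃ e' ∈ S, e' ≤ e}, fun _ _ h ⟨e', h1, h2⟩ => ⟨e', h1, h2.trans h⟩⟩

theorem mem_Uall (e : Ex) : e ∈ Uall := Set.mem_univ e
theorem not_mem_Unone (e : Ex) : e ∉ Unone := fun h => h
theorem mem_Ud {c : ℕ} {e : Ex} : e ∈ Ud c ↔ c ≤ Finsupp.degree e := Iff.rfl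
theorem mem_U1 {j : ℕ} {e : Ex} : e ∈ U1 j ↔ j ≤ e 0 := Iff.rfl
theorem mem_Uor {U V : UpperSet Ex} {e : Ex} : e ∈ Uor U V ↔ e ∈ U ∨ e ∈ V := Iff.rfl
theorem mem_Uand {U V : UpperSet Ex} {e : Ex} : e ∈ Uand U V ↔ e ∈ U ∧ e ∈ V := Iff.rfl
theorem mem_Ugen {S : Set Ex} {e : Ex} : e ∈ Ugen S ↔ ∃ e' ∈ S, e' ≤ e := Iff.rfl

theorem mem_JA_all (a : Av R) : a ∈ JA R Uall := fun e _ => mem_Uall e

theorem mem_JA_none {a : Av R} : a ∈ JA R Unone ↔ a = 0 := by
  rw [mem_JA']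
  exact ⟨fun h => MvPolynomial.ext _ _ fun e => h e (not_mem_Unone e), fun h e _ => by
    rw [h, coeff_zero]⟩

theorem JA_Ud (c : ℕ) : JA R (Ud c) = idealOfVars ℕ R ^ c := (pow_idealOfVars c).symm

theorem mem_JA_one {a : Av R} : a ∈ JA R (Ud 1) ↔ cc R a = 0 := by
  rw [mem_JA', cc_apply]
  refine ⟨fun h => h 0 (by simp [mem_Ud]), fun h e he => ?_⟩
  rw [mem_Ud, Nat.one_le_iff_ne_zero, not_not, Finsupp.degree_eq_zero_iff] at he
  rw [he, h]

variable (p : ℕ) (k : Type) [CommRing k] [hp : Fact p.Prime] [PL p k]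

/-- invariance of a monomial ideal -/
def Inv (U : UpperSet Ex) : Prop :=
  ∀ e ∈ U, etaA p k (monomial e 1) ∈ (JA k U).map (C : Av k →+* Gam k)

variable {p k}

theorem Inv.map_le {U : UpperSet Ex} (h : Inv p k U) :
    (JA k U).map (etaA p k) ≤ (JA k U).map (C : Av k →+* Gam k) := map_JA_le _ h

theorem inv_of_le {U : UpperSet Ex}
    (h : (JA k U).map (etaA p k) ≤ (JA k U).map (C : Av k →+* Gam k)) : Inv p k U :=
  fun _ he => h (Ideal.mem_map_of_mem _ (monomial_mem_JA he 1))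

theorem inv_all : Inv p k Uall := fun _ _ => mem_map_C_iff.2 fun _ => mem_JA_all _

theorem inv_none : Inv p k Unone := fun _ he => absurd he (not_mem_Unone _)

theorem Inv.or {U V : UpperSet Ex} (hU : Inv p k U) (hV : Inv p k V) : Inv p k (Uor U V) := by
  rintro e (he | he)
  · exact Ideal.map_mono (JA_mono fun _ => Or.inl) (hU e he)
  · exact Ideal.map_mono (JA_mono fun _ => Or.inr) (hV e he)

theorem Inv.and {U V : UpperSet Ex} (hU : Inv p k U) (hV : Inv p k V) : Inv p k (Uand U V) :=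
  fun e he => mem_map_C_iff.2 fun b => mem_JA.2 fun e' he' =>
    ⟨mem_JA.1 (mem_map_C_iff.1 (hU e he.1) b) e' he',
      mem_JA.1 (mem_map_C_iff.1 (hV e he.2) b) e' he'⟩

theorem inv_gen {S : Set Ex}
    (h : ∀ e ∈ S, etaA p k (monomial e 1) ∈ (JA k (Ugen S)).map (C : Av k →+* Gam k)) :
    Inv p k (Ugen S) := by
  rintro e ⟨e', h1, h2⟩
  obtain ⟨d, rfl⟩ := le_iff_exists_add.1 h2
  rw [← one_mul (1 : k), ← monomial_mul, map_mul]
  exact Ideal.mul_mem_right _ _ (h e' h1)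

theorem inv_Ud (h0 : (p : k) = 0) (c : ℕ) : Inv p k (Ud c) := by
  apply inv_of_le
  rw [JA_Ud, Ideal.map_pow, Ideal.map_pow]
  refine Ideal.pow_right_mono ?_ c
  rw [← pow_one (idealOfVars ℕ k), ← JA_Ud, Ideal.map_le_iff_le_comap]
  intro a ha
  refine mem_map_C_iff.2 fun b => mem_JA_one.2 ?_
  rw [← coeff_mA, red_etaA h0, mem_JA_one.1 ha, map_zero, coeff_zero]

theorem inv_U1 (h0 : (p : k) = 0) (j : ℕ) : Inv p k (U1 j) := by
  intro e he
  obtain ⟨d, rfl⟩ := le_iff_exists_add.1 (Finsupp.single_le_iff.2 (mem_U1.1 he))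
  rw [← one_mul (1 : k), ← monomial_mul, map_mul, ← X_pow_eq_monomial, map_pow]
  refine Ideal.mul_mem_right _ _ ?_
  have h1 : etaA p k (X 0) ∈ Ideal.span {(C (X 0) : Gam k)} := by
    rw [etaA_X]
    refine etaT_mem_of (cast_eq_zero_of (C.comp C) h0) _ _ 0 fun i hi => ?_
    rw [Nat.le_zero.1 hi]
    exact Ideal.subset_span (by simp)
  obtain ⟨u, hu⟩ := Ideal.mem_span_singleton'.1 h1
  rw [← hu, mul_pow, ← map_pow, X_pow_eq_monomial]
  exact Ideal.mul_mem_left _ _ (Ideal.mem_map_of_mem _ (monomial_mem_JA (by simp [mem_U1]) 1))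

end ideals

/-! ### twisting data -/

/-- the weight of an exponent -/
def wE (p : ℕ) : Ex →+ ℤ := Finsupp.weight (wz p)

/-- homogeneous of weight `w` -/
abbrev WA (p : ℕ) {k : Type} [CommRing k] (w : ℤ) (a : Av k) : Prop :=
  a.IsWeightedHomogeneous (wz p) w

/-- twisting data: `lam g h b` is the coefficient of `h` in the image of `t^b g` -/
structure Tw (k G : Type) [CommRing k] where
  /-- homological degree -/
  sd : G → ℕ
  /-- weight -/
  dg : G → ℤ
  /-- the functionals -/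
  lam : G → G → Ex → Av k
  /-- the unit generator -/
  g0 : G

namespace Tw

variable (p : ℕ) {k G : Type} [CommRing k] [hp : Fact p.Prime] [PL p k] [Fintype G]
  [DecidableEq G] (τ : Tw k G)

/-- the action of `[y]` on `W` -/
def act (y : Gam k) : (G → Av k) →+ (G → Av k) where
  toFun w h := ∑ g, fn (τ.lam g h) (y * etaA p k (w g))
  map_zero' := by
    funext h
    simp
  map_add' x y := by
    funext h
    simp [mul_add, Finset.sum_add_distrib]

theorem act_apply (y : Gam k) (w : G → Av k) (h : G) :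
    τ.act p y w h = ∑ g, fn (τ.lam g h) (y * etaA p k (w g)) := rfl

/-- the differential of `W` -/
def dW : (G → Av k) →+ (G → Av k) := τ.act p 1

theorem dW_apply (w : G → Av k) (h : G) :
    τ.dW p w h = ∑ g, fn (τ.lam g h) (etaA p k (w g)) := by
  simp only [dW, act_apply, one_mul]

/-- the differential of `P ⊗ V` -/
def d0 (y : G → Av k) (h : G) : Av k := ∑ g, op0 p (fun b => cc k (τ.lam g h b)) (y g)

/-- the square of the differential -/
def tau (g l : G) (b : Ex) : Av k := ∑ h, conv p (τ.lam h l) (τ.lam g h) b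

/-- homogeneous of degree `s` and weight `w` -/
def Hom (s : ℕ) (w : ℤ) (y : G → Av k) : Prop :=
  ∀ g, (τ.sd g ≠ s → y g = 0) ∧ WA p (w - τ.dg g) (y g)

/-- the conditions (H1), (H2), (H3) -/
structure Ok (N : ℤ) (U : UpperSet Ex) : Prop where
  sd0 : τ.sd τ.g0 = 0
  dg0 : τ.dg τ.g0 = 0
  sd_lam : ∀ g h b, τ.sd h ≠ τ.sd g + 1 → τ.lam g h b = 0
  wt_lam : ∀ g h b, WA p (wE p b + τ.dg g - τ.dg h) (τ.lam g h b)
  tau_mem : ∀ g l b, wE p b + τ.dg g ≤ N → τ.tau p g l b ∈ JA k U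
  lam0 : ∀ h, τ.lam τ.g0 h 0 = 0

/-- the condition (H4) in degree `s` -/
def Exa (N : ℤ) : ℕ → Prop
  | 0 => ∀ u ≤ N, ∀ y, τ.Hom p 0 u y → τ.d0 p y = 0 → ∃ c : k, y = Pi.single τ.g0 (C c)
  | s + 1 => ∀ u ≤ N, ∀ y, τ.Hom p (s + 1) u y → τ.d0 p y = 0 →
      ∃ z, τ.Hom p s u z ∧ τ.d0 p z = y

/-- the part of `W` of degree `s`, weight `w`, with coefficients in the ideal of `U` -/
def WK (U : UpperSet Ex) (s : ℕ) (w : ℤ) : AddSubgroup (G → Av k) where
  carrier := {y | τ.Hom p s w y ∧ ∀ g, y g ∈ JA k U}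
  zero_mem' := ⟨fun _ => ⟨fun _ => rfl, isWeightedHomogeneous_zero _ _ _⟩, fun _ => zero_mem _⟩
  add_mem' := fun {x y} hx hy => ⟨fun g => ⟨fun h => by
      rw [Pi.add_apply, (hx.1 g).1 h, (hy.1 g).1 h, add_zero], (hx.1 g).2.add (hy.1 g).2⟩,
    fun g => add_mem (hx.2 g) (hy.2 g)⟩
  neg_mem' := fun {x} hx => ⟨fun g => ⟨fun h => by rw [Pi.neg_apply, (hx.1 g).1 h, neg_zero],
      neg_mem (s := weightedHomogeneousSubmodule k (wz p) _) (hx.1 g).2⟩,
    fun g => neg_mem (hx.2 g)⟩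

theorem mem_WK {U : UpperSet Ex} {s : ℕ} {w : ℤ} {y : G → Av k} :
    y ∈ τ.WK p U s w ↔ τ.Hom p s w y ∧ ∀ g, y g ∈ JA k U := Iff.rfl

end Tw

end Vale.Agent.P236K.Alg
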