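import Vale.Agent.P221.H246.TypS
import Vale.Agent.P257.H80.HazWt

/-!
# P236K / Alg / Typ : typical isomorphisms between Hazewinkel laws

`gT φ t` is the strict series `g = ∑^F t_i x^(p^i)` (`t_0 = 1`), `F` the Hazewinkel law of `φ`;
`g⁻¹ • F` is the Hazewinkel law of `etaT φ t`, and `gT φ t * gT (etaT φ t) t' = gT φ (delT φ t t')`.
-/

set_option linter.unusedSectionVars false

noncomputable section

namespace Vale.Agent.P236K.Alg

open Vale.Agent.P217 Vale.Agent.P251.F Vale.Agent.P257.H80 Vale.Agent.P221.H246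

/-- the primes different from `p` are invertible -/
class PL (p : ℕ) (B : Type) [CommRing B] : Prop where
  out : PLoc p B

theorem PL.of_hom (p : ℕ) {A B : Type} [CommRing A] [CommRing B] [h : PL p A] (φ : A →+* B) :
    PL p B := ⟨h.out.map φ⟩

instance PL.mvPoly (p : ℕ) {σ A : Type} [CommRing A] [PL p A] : PL p (MvPolynomial σ A) :=
  PL.of_hom p MvPolynomial.C

/-- `ℤ[v_1, v_2, …]` -/
abbrev VZ : Type := MvPolynomial ℕ ℤ

theorem VZ.ext {B : Type} [CommRing B] {φ ψ : VZ →+* B}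
    (h : ∀ i, φ (MvPolynomial.X i) = ψ (MvPolynomial.X i)) : φ = ψ :=
  MvPolynomial.ringHom_ext' (Subsingleton.elim _ _) h

variable (p : ℕ) {A B : Type} [CommRing A] [CommRing B]

/-! ### finite formal sums -/

/-- `x +_F t_0 x^p +_F … +_F t_{n-1} x^(p^n)` -/
def fs (F : Law B) (t : ℕ → B) : ℕ → PowerSeries B
  | 0 => PowerSeries.X
  | n + 1 => MvPowerSeries.subst
      ![fs F t n, (PowerSeries.C (t n) * PowerSeries.X ^ p ^ (n + 1) : PowerSeries B)] F.ps

theorem fs_succ (F : Law B) (t : ℕ → B) (n : ℕ) : fs p F t (n + 1) = MvPowerSeries.subst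
    ![fs p F t n, (PowerSeries.C (t n) * PowerSeries.X ^ p ^ (n + 1) : PowerSeries B)] F.ps := rfl

variable [hp : Fact p.Prime]

theorem cc_mono (a : B) (n : ℕ) : MvPowerSeries.constantCoeff
    (PowerSeries.C a * PowerSeries.X ^ p ^ n : PowerSeries B) = 0 := by
  change PowerSeries.constantCoeff (PowerSeries.C a * PowerSeries.X ^ p ^ n : PowerSeries B) = 0
  rw [map_mul, map_pow, PowerSeries.constantCoeff_X, zero_pow (pow_ne_zero _ hp.out.ne_zero),
    mul_zero]

theorem cc_fs (F : Law B) (t : ℕ → B) (n : ℕ) : MvPowerSeries.constantCoeff (fs p F t n) = 0 := by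
  induction n with
  | zero => exact PowerSeries.constantCoeff_X
  | succ n ih => exact constantCoeff_FG_subst F.toFG ih (cc_mono p _ _)

theorem fs_congr (F : Law B) {t t' : ℕ → B} {n : ℕ} (h : ∀ k < n, t k = t' k) :
    fs p F t n = fs p F t' n := by
  induction n with
  | zero => rfl
  | succ n ih => rw [fs_succ, fs_succ, ih fun k hk => h k (by omega), h n (Nat.lt_succ_self n)]

theorem map_fs (θ : A →+* B) (F : Law A) (t : ℕ → A) (n : ℕ) :
    PowerSeries.map θ (fs p F t n) = fs p (F.map θ) (fun k => θ (t k)) n := by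
  induction n with
  | zero => exact PowerSeries.map_X θ
  | succ n ih =>
    rw [fs_succ, fs_succ, ← ih]
    have h := map_cons_subst θ F.toFG (τ := Unit) (cc_fs p F t n) (cc_mono p (t n) (n + 1))
    refine h.trans ?_
    have h2 : MvPowerSeries.map θ (PowerSeries.C (t n) * PowerSeries.X ^ p ^ (n + 1) :
        PowerSeries A) = (PowerSeries.C (θ (t n)) * PowerSeries.X ^ p ^ (n + 1) : PowerSeries B) := by
      change PowerSeries.map θ _ = _
      rw [map_mul, map_pow, PowerSeries.map_C, PowerSeries.map_X]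
    rw [h2]
    rfl

theorem fs_zero (F : Law B) (n : ℕ) : fs p F (fun _ => 0) n = PowerSeries.X := by
  induction n with
  | zero => rfl
  | succ n ih =>
    rw [fs_succ, ih, map_zero, zero_mul]
    exact congrArg ZPt.val (add_zero (ZPt.mk F.toFG (τ := Unit) PowerSeries.X
      PowerSeries.constantCoeff_X))

/-- conjugation by a scaling -/
def cj (u : Bˣ) (a : PowerSeries B) : PowerSeries B :=
  PowerSeries.C ((u⁻¹ : Bˣ) : B) * PowerSeries.rescale (u : B) a

omit hp in
theorem coeff_cj (u : Bˣ) (a : PowerSeries B) (m : ℕ) :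
    PowerSeries.coeff (m + 1) (cj u a) = (u : B) ^ m * PowerSeries.coeff (m + 1) a := by
  rw [cj, PowerSeries.coeff_C_mul, PowerSeries.coeff_rescale, ← mul_assoc, pow_succ', ← mul_assoc,
    Units.inv_mul, one_mul]

omit hp in
theorem cj_mono (u : Bˣ) (a : B) (m : ℕ) :
    cj u (PowerSeries.C a * PowerSeries.X ^ (m + 1)) =
      PowerSeries.C ((u : B) ^ m * a) * PowerSeries.X ^ (m + 1) := by
  ext n
  rcases n with _ | n
  · simp [cj]
  · rw [coeff_cj, PowerSeries.coeff_C_mul, PowerSeries.coeff_C_mul, PowerSeries.coeff_X_pow]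
    split_ifs with h
    · obtain rfl : n = m := by omega
      ring
    · ring

omit hp in
theorem cc_rescale (u : B) {a : PowerSeries B} (ha : MvPowerSeries.constantCoeff a = 0) :
    MvPowerSeries.constantCoeff (PowerSeries.rescale u a) = 0 := by
  change PowerSeries.constantCoeff _ = 0
  change PowerSeries.constantCoeff _ = 0 at ha
  rw [← PowerSeries.coeff_zero_eq_constantCoeff_apply, PowerSeries.coeff_rescale,
    PowerSeries.coeff_zero_eq_constantCoeff_apply, ha, mul_zero]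

omit hp in
theorem cj_subst (u : Bˣ) (F : Law B) {a b : PowerSeries B}
    (ha : MvPowerSeries.constantCoeff a = 0) (hb : MvPowerSeries.constantCoeff b = 0) :
    cj u (MvPowerSeries.subst ![a, b] F.ps) =
      MvPowerSeries.subst ![cj u a, cj u b] ((InvSeries.lin u)⁻¹ • F).ps := by
  have h1 : ∀ c : PowerSeries B, MvPowerSeries.constantCoeff c = 0 →
      (PowerSeries.subst c ((InvSeries.lin u)⁻¹).val : PowerSeries B) =
        PowerSeries.C ((u⁻¹ : Bˣ) : B) * c := by
    intro c hc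
    rw [← map_inv, InvSeries.lin_val, psubst_C_mul _ _ hc,
      PowerSeries.subst_X (PowerSeries.HasSubst.of_constantCoeff_zero hc)]
    rfl
  have h2 := IsHom_subst_add (τ := Unit) (InvSeries.isHom_smul (InvSeries.lin u)⁻¹ F)
    (cc_rescale (u : B) ha) (cc_rescale (u : B) hb)
  rw [h1 _ (cc_rescale (u : B) ha), h1 _ (cc_rescale (u : B) hb),
    h1 _ (constantCoeff_FG_subst F.toFG (cc_rescale (u : B) ha) (cc_rescale (u : B) hb))] at h2
  refine Eq.trans ?_ h2
  rw [cj]
  congr 1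
  have h0 : PowerSeries.constantCoeff ((u : B) • PowerSeries.X : PowerSeries B) = 0 := by
    rw [PowerSeries.smul_eq_C_mul, map_mul, PowerSeries.constantCoeff_X, mul_zero]
  rw [PowerSeries.rescale_eq_subst, PowerSeries.rescale_eq_subst, PowerSeries.rescale_eq_subst,
    PowerSeries.subst_def, MvPowerSeries.subst_comp_subst_apply (hasSubst_cons ha hb)
      (PowerSeries.HasSubst.of_constantCoeff_zero h0).const]
  congr 1
  funext i
  fin_cases i <;> rfl

theorem pow_sub_one_add (k : ℕ) : p ^ k - 1 + 1 = p ^ k :=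
  Nat.sub_add_cancel (pow_pos hp.out.pos k)

theorem fs_scale (u : Bˣ) (F : Law B) (t : ℕ → B) (n : ℕ) :
    fs p ((InvSeries.lin u)⁻¹ • F) (fun k => (u : B) ^ (p ^ (k + 1) - 1) * t k) n =
      cj u (fs p F t n) := by
  induction n with
  | zero =>
    have h := cj_mono u (1 : B) 0
    simp only [pow_zero, mul_one, map_one, one_mul, zero_add, pow_one] at h
    exact h.symm
  | succ n ih =>
    rw [fs_succ, fs_succ, cj_subst u F (cc_fs p F t n) (cc_mono p _ _), ih]
    have h := cj_mono u (t n) (p ^ (n + 1) - 1)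
    rw [pow_sub_one_add] at h
    rw [h]

/-- the coefficient of `x^(p^(k+1))` in `∑^F t_i x^(p^i)` -/
def sT (F : Law B) (t : ℕ → B) (k : ℕ) : B :=
  t k + PowerSeries.coeff (p ^ (k + 1)) (fs p F t k)

theorem map_sT (θ : A →+* B) (F : Law A) (t : ℕ → A) (k : ℕ) :
    θ (sT p F t k) = sT p (F.map θ) (fun k => θ (t k)) k := by
  rw [sT, sT, map_add, ← map_fs, PowerSeries.coeff_map]

theorem sT_scale (u : Bˣ) (F : Law B) (t : ℕ → B) (k : ℕ) :
    sT p ((InvSeries.lin u)⁻¹ • F) (fun k => (u : B) ^ (p ^ (k + 1) - 1) * t k) k =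
      (u : B) ^ (p ^ (k + 1) - 1) * sT p F t k := by
  rw [sT, sT, fs_scale, mul_add]
  have h := coeff_cj u (fs p F t k) (p ^ (k + 1) - 1)
  rw [pow_sub_one_add] at h
  rw [h]

theorem existsUnique_sT (F : Law B) (s : ℕ → B) : ∃! t : ℕ → B, ∀ k, sT p F t k - s k = 0 :=
  exists_unique_triangular (fun t k => sT p F t k - s k) (fun _ => 1) (fun _ => isUnit_one)
    fun n c c' h => by
      rw [sT, sT, fs_congr p F h]
      ring

/-- the coordinates `t_i` of a series -/
def tOf (F : Law B) (g : InvSeries B) : ℕ → B :=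
  (existsUnique_sT p F fun k => g.c (p ^ (k + 1) - 1)).choose

theorem sT_tOf (F : Law B) (g : InvSeries B) (k : ℕ) :
    sT p F (tOf p F g) k = g.c (p ^ (k + 1) - 1) :=
  sub_eq_zero.1 ((existsUnique_sT p F fun k => g.c (p ^ (k + 1) - 1)).choose_spec.1 k)

theorem eq_tOf {F : Law B} {g : InvSeries B} {t : ℕ → B}
    (h : ∀ k, sT p F t k = g.c (p ^ (k + 1) - 1)) : t = tOf p F g :=
  (existsUnique_sT p F fun k => g.c (p ^ (k + 1) - 1)).choose_spec.2 t
    fun k => sub_eq_zero.2 (h k)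

theorem map_tOf (θ : A →+* B) (F : Law A) (g : InvSeries A) (k : ℕ) :
    θ (tOf p F g k) = tOf p (F.map θ) (InvSeries.map θ g) k :=
  congrFun (eq_tOf p (t := fun k => θ (tOf p F g k)) fun k => by
    rw [← map_sT, sT_tOf, InvSeries.c_map]) k

theorem tOf_scale (u : Bˣ) (F : Law B) (g : InvSeries B) (k : ℕ) :
    tOf p ((InvSeries.lin u)⁻¹ • F) ((InvSeries.lin u)⁻¹ * g * InvSeries.lin u) k =
      (u : B) ^ (p ^ (k + 1) - 1) * tOf p F g k :=
  (congrFun (eq_tOf p (t := fun k => (u : B) ^ (p ^ (k + 1) - 1) * tOf p F g k) fun k => by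
    rw [sT_scale, sT_tOf, c_conj_lin]) k).symm

theorem tOf_one (F : Law B) : tOf p F 1 = fun _ => 0 := by
  refine (eq_tOf p fun k => ?_).symm
  have h1 : 2 ≤ p ^ (k + 1) := two_le_pow hp.out (Nat.succ_ne_zero k)
  obtain ⟨m, hm⟩ : ∃ m, p ^ (k + 1) - 1 = m + 1 := ⟨p ^ (k + 1) - 2, by omega⟩
  rw [sT, fs_zero, hm, InvSeries.c_one_succ, zero_add, PowerSeries.coeff_X, if_neg (by omega)]

/-! ### typical isomorphisms -/

/-- the Hazewinkel law of `φ` -/
def hz (φ : VZ →+* B) : Law B := (haz p).map φ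

theorem map_hz (θ : A →+* B) (φ : VZ →+* A) : (hz p φ).map θ = hz p (θ.comp φ) :=
  Law.map_map _ _ _

theorem isHaz_hz (φ : VZ →+* B) : IsHaz p (hz p φ) := ⟨φ, rfl⟩

/-- scaling of the parameters -/
def scV (u : B) (φ : VZ →+* B) : VZ →+* B :=
  MvPolynomial.eval₂Hom (Int.castRingHom B) fun k => u ^ (p ^ (k + 1) - 1) * φ (MvPolynomial.X k)

omit hp in
@[simp] theorem scV_X (u : B) (φ : VZ →+* B) (k : ℕ) :
    scV p u φ (MvPolynomial.X k) = u ^ (p ^ (k + 1) - 1) * φ (MvPolynomial.X k) := by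
  simp [scV]

theorem hz_scV (u : Bˣ) (φ : VZ →+* B) :
    hz p (scV p (u : B) φ) = (InvSeries.lin u)⁻¹ • hz p φ := haz_lin p u (scV_X p _ φ)

variable [hA : PL p A] [hB : PL p B]

theorem hz_injective {φ ψ : VZ →+* B} (h : hz p φ = hz p ψ) : φ = ψ :=
  haz_map_injective p hB.out h

/-- the typical series `∑^F t_i x^(p^i)` -/
def gT (φ : VZ →+* B) (t : ℕ → B) : InvSeries B :=
  (exists_typical p hB.out (hz p φ) (sT p (hz p φ) t)).choose

theorem gT_mem (φ : VZ →+* B) (t : ℕ → B) : gT p φ t ∈ strict B :=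
  (exists_typical p hB.out (hz p φ) (sT p (hz p φ) t)).choose_spec.1

theorem gT_isHaz (φ : VZ →+* B) (t : ℕ → B) : IsHaz p ((gT p φ t)⁻¹ • hz p φ) :=
  (exists_typical p hB.out (hz p φ) (sT p (hz p φ) t)).choose_spec.2.1

theorem gT_c (φ : VZ →+* B) (t : ℕ → B) (k : ℕ) :
    (gT p φ t).c (p ^ (k + 1) - 1) = sT p (hz p φ) t k :=
  (exists_typical p hB.out (hz p φ) (sT p (hz p φ) t)).choose_spec.2.2 k

theorem tOf_gT (φ : VZ →+* B) (t : ℕ → B) : tOf p (hz p φ) (gT p φ t) = t :=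
  (eq_tOf p fun k => (gT_c p φ t k).symm).symm

theorem gT_tOf {φ : VZ →+* B} {g : InvSeries B} (hg : g ∈ strict B)
    (h : IsHaz p (g⁻¹ • hz p φ)) : gT p φ (tOf p (hz p φ) g) = g :=
  eq_of_typical p hB.out (gT_mem p _ _) hg (gT_isHaz p _ _) h fun k => by rw [gT_c, sT_tOf]

/-- the right unit -/
def etaT (φ : VZ →+* B) (t : ℕ → B) : VZ →+* B := (gT_isHaz p φ t).choose

theorem hz_etaT (φ : VZ →+* B) (t : ℕ → B) : hz p (etaT p φ t) = (gT p φ t)⁻¹ • hz p φ :=
  (gT_isHaz p φ t).choose_spec.symm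

theorem map_gT (θ : A →+* B) (φ : VZ →+* A) (t : ℕ → A) :
    InvSeries.map θ (gT p φ t) = gT p (θ.comp φ) fun k => θ (t k) := by
  have h1 : IsHaz p ((InvSeries.map θ (gT p φ t))⁻¹ • hz p (θ.comp φ)) := by
    have h := (gT_isHaz p φ t).map θ
    rwa [InvSeries.map_smul, map_inv, map_hz] at h
  rw [← gT_tOf p (map_mem_strict θ (gT_mem p φ t)) h1]
  congr 1
  funext k
  rw [← map_hz, ← map_tOf, tOf_gT]

theorem comp_etaT (θ : A →+* B) (φ : VZ →+* A) (t : ℕ → A) :
    θ.comp (etaT p φ t) = etaT p (θ.comp φ) fun k => θ (t k) := by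
  apply hz_injective p
  rw [← map_hz, hz_etaT, hz_etaT, InvSeries.map_smul, map_inv, map_gT, map_hz]

theorem map_etaT (θ : A →+* B) (φ : VZ →+* A) (t : ℕ → A) (x : VZ) :
    θ (etaT p φ t x) = etaT p (θ.comp φ) (fun k => θ (t k)) x := by
  rw [← comp_etaT]
  rfl

theorem gT_zero (φ : VZ →+* B) : gT p φ (fun _ => 0) = 1 := by
  rw [← tOf_one p (hz p φ)]
  refine gT_tOf p (one_mem _) ?_
  rw [inv_one, one_smul]
  exact isHaz_hz p φ

theorem etaT_zero (φ : VZ →+* B) : etaT p φ (fun _ => 0) = φ := by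
  apply hz_injective p
  rw [hz_etaT, gT_zero, inv_one, one_smul]

theorem gT_scale (u : Bˣ) (φ : VZ →+* B) (t : ℕ → B) :
    gT p (scV p (u : B) φ) (fun k => (u : B) ^ (p ^ (k + 1) - 1) * t k) =
      (InvSeries.lin u)⁻¹ * gT p φ t * InvSeries.lin u := by
  have hm : (InvSeries.lin u)⁻¹ * gT p φ t * InvSeries.lin u ∈ strict B := by
    have h := strict_normal.conj_mem _ (gT_mem p φ t) (InvSeries.lin u)⁻¹
    rwa [inv_inv] at h
  have h1 : IsHaz p (((InvSeries.lin u)⁻¹ * gT p φ t * InvSeries.lin u)⁻¹ •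
      hz p (scV p (u : B) φ)) := by
    rw [hz_scV, mul_inv_rev, mul_inv_rev, inv_inv, mul_smul, mul_smul, smul_inv_smul, ← hz_etaT,
      ← hz_scV]
    exact isHaz_hz p _
  rw [← gT_tOf p hm h1]
  congr 1
  funext k
  rw [hz_scV, tOf_scale, tOf_gT]

theorem etaT_scale (u : Bˣ) (φ : VZ →+* B) (t : ℕ → B) :
    etaT p (scV p (u : B) φ) (fun k => (u : B) ^ (p ^ (k + 1) - 1) * t k) =
      scV p (u : B) (etaT p φ t) := by
  apply hz_injective p
  rw [hz_etaT, gT_scale, hz_scV, hz_scV, hz_etaT, mul_inv_rev, mul_inv_rev, inv_inv, mul_smul,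
    mul_smul, smul_inv_smul]

/-- the coproduct -/
def delT (φ : VZ →+* B) (t t' : ℕ → B) : ℕ → B :=
  tOf p (hz p φ) (gT p φ t * gT p (etaT p φ t) t')

theorem gT_delT (φ : VZ →+* B) (t t' : ℕ → B) :
    gT p φ (delT p φ t t') = gT p φ t * gT p (etaT p φ t) t' := by
  refine gT_tOf p (mul_mem (gT_mem p _ _) (gT_mem p _ _)) ?_
  rw [mul_inv_rev, mul_smul, ← hz_etaT]
  exact gT_isHaz p _ _

theorem etaT_delT (φ : VZ →+* B) (t t' : ℕ → B) :
    etaT p φ (delT p φ t t') = etaT p (etaT p φ t) t' := by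
  apply hz_injective p
  rw [hz_etaT, hz_etaT, hz_etaT, gT_delT, mul_inv_rev, mul_smul]

theorem gT_injective (φ : VZ →+* B) {t t' : ℕ → B} (h : gT p φ t = gT p φ t') : t = t' := by
  rw [← tOf_gT p φ t, h, tOf_gT]

theorem delT_assoc (φ : VZ →+* B) (t t' t'' : ℕ → B) :
    delT p φ (delT p φ t t') t'' = delT p φ t (delT p (etaT p φ t) t' t'') := by
  apply gT_injective p φ
  rw [gT_delT, gT_delT, gT_delT, gT_delT, etaT_delT, mul_assoc]

theorem delT_zero_left (φ : VZ →+* B) (t : ℕ → B) : delT p φ (fun _ => 0) t = t := by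
  apply gT_injective p φ
  rw [gT_delT, gT_zero, etaT_zero, one_mul]

theorem delT_zero_right (φ : VZ →+* B) (t : ℕ → B) : delT p φ t (fun _ => 0) = t := by
  apply gT_injective p φ
  rw [gT_delT, gT_zero, mul_one]

theorem map_delT (θ : A →+* B) (φ : VZ →+* A) (t t' : ℕ → A) (k : ℕ) :
    θ (delT p φ t t' k) = delT p (θ.comp φ) (fun k => θ (t k)) (fun k => θ (t' k)) k := by
  rw [delT, delT, map_tOf, map_hz, map_mul, map_gT, map_gT, comp_etaT]

theorem delT_scale (u : Bˣ) (φ : VZ →+* B) (t t' : ℕ → B) (k : ℕ) :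
    delT p (scV p (u : B) φ) (fun k => (u : B) ^ (p ^ (k + 1) - 1) * t k)
      (fun k => (u : B) ^ (p ^ (k + 1) - 1) * t' k) k =
      (u : B) ^ (p ^ (k + 1) - 1) * delT p φ t t' k := by
  rw [delT, delT, etaT_scale, gT_scale, gT_scale, hz_scV, ← tOf_scale]
  congr 1
  group

end Vale.Agent.P236K.Alg
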