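import Vale.Agent.P236K.Alg.Psi
import Vale.Agent.P236K.Alg.Inv
import Vale.Agent.P251.F.T1Coc
import Mathlib.Algebra.MvPolynomial.Division

/-!
# P236K / Alg / V1 : twisting data certified only modulo `v_1 ^ a`

`Tors p k s u j` says that `v_1 ^ j` kills the cohomology of the cobar complex in degree `s` and
weight `u`.
-/

set_option linter.unusedSectionVars false

noncomputable section

namespace Vale.Agent.P236K.Alg

open Vale.Agent.P217 Vale.Agent.P251.F Vale.Agent.P257.H80 MvPolynomial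
open Vale.Agent.P251.S (IC)
open Vale.Agent.P236K.SS (ACob cupC)

section bi

variable {p : ℕ} [hp : Fact p.Prime] {k : Type} [CommRing k] [PL p k]

/-- the power `v_1 ^ j` -/
def vP (k : Type) [CommRing k] (j : ℕ) : Bi k := X (0, 0) ^ j

omit hp in
theorem vP_add (i j : ℕ) : vP k (i + j) = vP k i * vP k j := pow_add _ _ _

omit hp in
theorem vP_eq (j : ℕ) : vP k j = lv k 0 (X 0 ^ j) := by rw [map_pow, lv_X, vP]

omit hp in
theorem vP_JM (j : ℕ) : vP k j ∈ JM k (U1 j) := X_mem_JM (by simp [mem_U1])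

omit hp in
theorem lev_vP (n j : ℕ) : Lev n (vP k j) := by
  rw [vP_eq]
  exact (lev_lv 0 _).mono (Nat.zero_le n)

omit hp [PL p k] in
theorem wt_vP (j : ℕ) : Wt p (j * wz p 0) (vP k j) := by
  have h := (isWeightedHomogeneous_X k (wB p) ((0, 0) : ℕ × ℕ)).pow j
  rwa [nsmul_eq_mul] at h

omit hp [PL p k] in
theorem vP_mem (j : ℕ) : vP k j ∈ CK p k Uall 0 (j * wz p 0) :=
  ⟨lev_vP 0 j, wt_vP j, mem_JM_all _⟩

omit hp [PL p k] in
theorem vP_mul_mem {U : UpperSet Ex} {s : ℕ} {w w' : ℤ} {x : Bi k} (hx : x ∈ CK p k U s w) (j : ℕ)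
    (e : w + j * wz p 0 = w') : vP k j * x ∈ CK p k U s w' :=
  ⟨(lev_vP s j).mul hx.1, by rw [← e, add_comm]; exact (wt_vP j).mul hx.2.1,
    Ideal.mul_mem_left _ _ hx.2.2⟩

omit hp in
theorem vP_cancel {j : ℕ} {x : Bi k} (h : vP k j * x = 0) : x = 0 :=
  (isRegular_X_pow j).left (h.trans (mul_zero _).symm)

theorem D_vP (h0 : (p : k) = 0) (i j : ℕ) : D p k i (vP k j) = vP k j := by
  rcases i with _ | i
  · rw [vP, map_pow, D_zero_X, etaT_X_zero p (cast_eq_zero_of C h0), uT_φ]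
  · exact D_of_lev (Nat.succ_pos i) (lev_vP 0 j)

theorem dB_vP_mul (h0 : (p : k) = 0) (s j : ℕ) (x : Bi k) :
    dB p k s (vP k j * x) = vP k j * dB p k s x := by
  rw [dB, dP_apply, dP_apply, Finset.mul_sum]
  exact Finset.sum_congr rfl fun i _ => by rw [map_mul, D_vP h0, mul_smul_comm]

theorem dB_vP (h0 : (p : k) = 0) (j : ℕ) : dB p k 0 (vP k j) = 0 := by
  rw [dB, dP_succ, dP_succ, dP_apply, D_vP h0, D_vP h0]
  simp

theorem dB_dB {s : ℕ} (x : Bi k) : dB p k (s + 1) (dB p k s x) = 0 := dP_dP (s + 2) x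

omit hp [PL p k] in
/-- division by `v_1 ^ j` -/
theorem exists_div {s j : ℕ} {w w' : ℤ} {x : Bi k} (hx : x ∈ CK p k (U1 j) s w)
    (e : w' + j * wz p 0 = w) : ∃ y ∈ CK p k Uall s w', x = vP k j * y := by
  classical
  refine ⟨x.divMonomial (Finsupp.single (0, 0) j), ⟨lev_iff.2 fun m hm ji hji => ?_,
    fun m hm => ?_, mem_JM_all _⟩, ?_⟩
  · rw [mem_support_iff, coeff_divMonomial] at hm
    refine lev_iff.1 hx.1 _ (mem_support_iff.2 hm) ji ?_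
    rw [Finsupp.mem_support_iff] at hji ⊢
    rw [Finsupp.add_apply]
    omega
  · rw [coeff_divMonomial] at hm
    have h1 := hx.2.1 hm
    rw [map_add, Finsupp.weight_single, nsmul_eq_mul, ← e] at h1
    change j * wz p 0 + _ = _ at h1
    omega
  · have h1 : x.modMonomial (Finsupp.single (0, 0) j) = 0 := by
      ext m
      by_cases h : Finsupp.single ((0, 0) : ℕ × ℕ) j ≤ m
      · rw [coeff_modMonomial_of_le _ h, coeff_zero]
      · rw [coeff_modMonomial_of_not_le _ h, coeff_zero]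
        by_contra h2
        exact h (Finsupp.single_le_iff.2 (mem_JM.1 hx.2.2 m (mem_support_iff.2 h2)))
    have h2 := divMonomial_add_modMonomial x (Finsupp.single (0, 0) j)
    rw [h1, add_zero, ← X_pow_eq_monomial] at h2
    exact h2.symm

theorem CBd_CK {s : ℕ} {w : ℤ} {c : Bi k} (hc : c ∈ CBd p k Uall w s) :
    c ∈ CK p k Uall s w ∧ dB p k s c = 0 := by
  rcases s with _ | s
  · rw [AddSubgroup.mem_bot.1 hc]
    exact ⟨zero_mem _, map_zero _⟩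
  · obtain ⟨y, hy, rfl⟩ := hc
    exact ⟨inv_all.dP_CK _ hy, dB_dB y⟩

theorem vP_mul_CBd (h0 : (p : k) = 0) {s : ℕ} {w w' : ℤ} {c : Bi k} (hc : c ∈ CBd p k Uall w s)
    (j : ℕ) (e : w + j * wz p 0 = w') : vP k j * c ∈ CBd p k Uall w' s := by
  rcases s with _ | s
  · rw [AddSubgroup.mem_bot.1 hc, mul_zero]
    exact zero_mem _
  · obtain ⟨y, hy, rfl⟩ := hc
    exact ⟨_, vP_mul_mem hy j e, dB_vP_mul h0 s j y⟩

/-- a cocycle which is a coboundary modulo `v_1 ^ j` -/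
theorem exists_of_CT (h0 : (p : k) = 0) {s j : ℕ} {w w' : ℤ} {x : Bi k} (hx : x ∈ CK p k Uall s w)
    (hd : dB p k s x = 0) (h : x ∈ CT p k (U1 j) w s) (e : w' + j * wz p 0 = w) :
    ∃ y ∈ CK p k Uall s w', dB p k s y = 0 ∧ x - vP k j * y ∈ CBd p k Uall w s := by
  obtain ⟨c, hc, b, hb, rfl⟩ := AddSubgroup.mem_sup.1 h
  have h1 := sub_mem hx (CBd_CK hc).1
  rw [add_sub_cancel_left] at h1
  obtain ⟨y, hy, rfl⟩ := exists_div (x := b) ⟨h1.1, h1.2.1, hb⟩ e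
  rw [map_add, (CBd_CK hc).2, zero_add, dB_vP_mul h0] at hd
  exact ⟨y, hy, vP_cancel hd, by rwa [add_sub_cancel_right]⟩

variable (p k) in
/-- `v_1 ^ j` kills the cohomology in degree `s` and weight `u` -/
def Tors (s : ℕ) (u : ℤ) (j : ℕ) : Prop :=
  ∀ x ∈ CK p k Uall s u, dB p k s x = 0 → vP k j * x ∈ CBd p k Uall (u + j * wz p 0) s

theorem tors_neg (s : ℕ) {u : ℤ} (hu : u < 0) (j : ℕ) : Tors p k s u j := fun x hx _ => by
  rw [Wt.eq_zero hx.2.1 hu, mul_zero]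
  exact zero_mem _

theorem Tors.mono (h0 : (p : k) = 0) {s : ℕ} {u : ℤ} {j j' : ℕ} (h : Tors p k s u j)
    (hj : j ≤ j') : Tors p k s u j' := fun x hx hd => by
  obtain ⟨i, rfl⟩ := Nat.exists_eq_add_of_le' hj
  rw [vP_add, mul_assoc]
  exact vP_mul_CBd h0 (h x hx hd) i (by push_cast; ring)

theorem Tors.shift (h0 : (p : k) = 0) {s : ℕ} {u u' : ℤ} {j : ℕ} (h : Tors p k s u' j) (i : ℕ)
    (e : u + i * wz p 0 = u') : Tors p k s u (j + i) := fun x hx hd => by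
  have h1 := h _ (vP_mul_mem hx i e) (by rw [dB_vP_mul h0, hd, mul_zero])
  rw [vP_add, mul_assoc]
  convert h1 using 2
  rw [← e]
  push_cast
  ring

end bi

namespace Tw

variable {p : ℕ} [hp : Fact p.Prime] {k G : Type} [CommRing k] [PL p k] [Fintype G]
  [DecidableEq G] {τ : Tw k G} {N : ℤ} {a : ℕ}

theorem Ok.hyp1 (H : τ.Ok p N (U1 a)) (h0 : (p : k) = 0) {j : ℕ} (hj : j ≤ a) {w : ℤ}
    (hw : w ≤ N) : Hyp (p := p) τ N (U1 a) Uall (U1 j) w :=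
  ⟨h0, H, inv_U1 h0 a, inv_all, inv_U1 h0 j, fun _ _ _ he =>
    (U1 j).upper le_add_self (hj.trans he : _ ∈ U1 j), hw⟩

theorem Ok.mono {U V : UpperSet Ex} {N' : ℤ} (H : τ.Ok p N U) (h : ∀ e ∈ U, e ∈ V) (hN : N' ≤ N) :
    τ.Ok p N' V :=
  ⟨H.sd0, H.dg0, H.sd_lam, H.wt_lam, fun g l b hb => JA_mono h (H.tau_mem g l b (hb.trans hN)),
    H.lam0⟩

theorem WT_mono {U V : UpperSet Ex} (h : ∀ e ∈ U, e ∈ V) {w : ℤ} {s : ℕ} {u : G → Av k}
    (hu : u ∈ τ.WT p U w s) : u ∈ τ.WT p V w s := by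
  obtain ⟨b, hb, h1⟩ := mem_WT.1 hu
  exact mem_WT.2 ⟨b, hb, fun g => JA_mono h (h1 g)⟩

theorem WZ_mono {U V : UpperSet Ex} (h : ∀ e ∈ U, e ∈ V) {w : ℤ} {s : ℕ} {u : G → Av k}
    (hu : u ∈ τ.WZ p U w s) : u ∈ τ.WZ p V w s := ⟨hu.1, fun g => JA_mono h (hu.2 g)⟩

theorem Lx_vP (j : ℕ) (u : G → Av k) : τ.Lx p 0 (vP k j) u = (X 0 ^ j : Av k) • u :=
  funext fun g => by rw [vP_eq, Lx_zero, Pi.smul_apply, smul_eq_mul]

theorem Th_vP_mul {s : ℕ} (j : ℕ) {x : Bi k} (hx : Lev s x) :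
    τ.Th p s (vP k j * x) = (X 0 ^ j : Av k) • τ.Th p s x :=
  funext fun g => by rw [Th_eq_Lx, Th_eq_Lx, vP_eq, Lx_lv_mul _ _ hx, Pi.smul_apply, smul_eq_mul]

omit [Fintype G] [DecidableEq G] hp in
theorem smul_mem_JW (j : ℕ) (u : G → Av k) : (X 0 ^ j : Av k) • u ∈ JW k G (U1 j) := fun g => by
  rw [Pi.smul_apply, smul_eq_mul, X_pow_eq_monomial]
  exact Ideal.mul_mem_right _ _ (monomial_mem_JA (by simp [mem_U1]) 1)

variable {A E : UpperSet Ex} {w : ℤ}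

theorem Hyp.Th_WZ (H : Hyp (p := p) τ N A Uall E w) {s : ℕ} {x : Bi k} (hx : x ∈ CK p k Uall s w)
    (hd : dB p k s x ∈ JM k E) : τ.Th p s x ∈ τ.WZ p E w s := by
  have h1 := inv_all.dP_CK (s + 2) hx
  have h2 : τ.Th p (s + 1) (dB p k s x) ∈ JW k G E := (H.ok.Th_mem ⟨h1.1, h1.2.1, hd⟩).2
  have h3 := sub_mem h2 (show _ ∈ JW k G E from H.Th_dB hx)
  change _ - (_ - τ.dW p (τ.Th p s x)) ∈ _ at h3
  rw [sub_sub_cancel] at h3
  exact ⟨H.ok.Th_mem hx, h3⟩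

theorem Hyp.Th_WT (H : Hyp (p := p) τ N A Uall E w) {s : ℕ} {x : Bi k} (hx : x ∈ CK p k Uall s w)
    (h : x ∈ CT p k E w s) : τ.Th p s x ∈ τ.WT p E w s := by
  obtain ⟨c, hc, b, hb, rfl⟩ := AddSubgroup.mem_sup.1 h
  have h1 := sub_mem hx (CBd_CK hc).1
  rw [add_sub_cancel_left] at h1
  rw [map_add]
  refine add_mem ?_ (mem_WT_of_JW (H.ok.Th_mem ⟨h1.1, h1.2.1, hb⟩).2)
  rcases s with _ | s
  · rw [AddSubgroup.mem_bot.1 hc, map_zero]
    exact zero_mem _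
  · obtain ⟨y, hy, rfl⟩ := hc
    exact mem_WT.2 ⟨_, ⟨_, H.ok.Th_mem hy, rfl⟩, H.Th_dB hy⟩

theorem Hyp.CT_of_WT (H : Hyp (p := p) τ N A Uall E w) {s : ℕ} (hs : ∀ r < s, τ.Exa p N r)
    {x : Bi k} (hx : x ∈ CK p k Uall s w) (hd : dB p k s x ∈ JM k E)
    (h : τ.Th p s x ∈ τ.WT p E w s) : x ∈ CT p k E w s := by
  obtain ⟨b, hb, h2⟩ := mem_WT.1 h
  obtain ⟨c, hc, h3⟩ := H.Th_inj hs hx hd hb h2
  exact AddSubgroup.mem_sup.2 ⟨c, hc, _, h3, add_sub_cancel _ _⟩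

variable (p τ) in
/-- the finite condition on `W` in the rule for `Tors` -/
def WChk (a s : ℕ) (u : ℤ) (j l : ℕ) : Prop :=
  ∀ y ∈ τ.WZ p (U1 a) u s, (X 0 ^ j : Av k) • y ∈ τ.WT p (U1 (j + l)) (u + j * wz p 0) s

/-- the rule for `Tors` -/
theorem Ok.tors_rule (H : τ.Ok p N (U1 a)) (h0 : (p : k) = 0) {s : ℕ} (hs : ∀ r < s, τ.Exa p N r)
    {u u' : ℤ} {j l : ℕ} (hj : j + l ≤ a) (hu : u + j * wz p 0 ≤ N) (e : u' + l * wz p 0 = u)
    (h1 : τ.WChk p a s u j l) (h2 : Tors p k s u' (j + l)) : Tors p k s u j := by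
  intro x hx hd
  have h3 : (0 : ℤ) ≤ j * wz p 0 := mul_nonneg (Int.natCast_nonneg _) (Int.natCast_nonneg _)
  have h4 := h1 _ ((H.hyp1 h0 le_rfl (by omega)).Th_WZ hx (by rw [hd]; exact zero_mem _))
  have h5 : dB p k s (vP k j * x) = 0 := by rw [dB_vP_mul h0, hd, mul_zero]
  rw [← Th_vP_mul j hx.1] at h4
  have e' : u' + (j + l : ℕ) * wz p 0 = u + j * wz p 0 := by
    rw [← e]
    push_cast
    ring
  obtain ⟨y, hy, h6, h7⟩ := exists_of_CT h0 (vP_mul_mem hx j rfl) h5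
    ((H.hyp1 h0 hj hu).CT_of_WT hs (vP_mul_mem hx j rfl) (by rw [h5]; exact zero_mem _) h4) e'
  have h8 := add_mem h7 (e' ▸ h2 y hy h6)
  rwa [sub_add_cancel] at h8

/-- cocycles modulo `v_1 ^ (i + j)` lift modulo `v_1 ^ i` -/
theorem Ok.exists_Th {i j : ℕ} (H : τ.Ok p N (U1 a)) (h0 : (p : k) = 0) (ha : i + j ≤ a) {s : ℕ}
    (hs : ∀ r ≤ s, τ.Exa p N r) {w' : ℤ} (hw : w ≤ N) (e : w' + (i + j : ℕ) * wz p 0 = w)
    (h1 : Tors p k (s + 1) w' j) {u : G → Av k} (hu : u ∈ τ.WZ p (U1 (i + j)) w s) :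
    ∃ x ∈ CK p k Uall s w, dB p k s x = 0 ∧ τ.Th p s x - u ∈ τ.WT p (U1 i) w s := by
  obtain ⟨x, hx, h2, h3⟩ := (H.hyp1 h0 ha hw).Th_surj hs hu.1 hu.2
  have h4 := inv_all.dP_CK (s + 2) hx
  obtain ⟨y, hy, h5⟩ := exists_div (x := dB p k s x) ⟨h4.1, h4.2.1, h2⟩ e
  have h6 := dB_dB (p := p) (s := s) x
  rw [h5, dB_vP_mul h0] at h6
  obtain ⟨x', hx', h7⟩ := h1 y hy (vP_cancel h6)
  have h8 := vP_mul_mem hx' i (w' := w) (by rw [← e]; push_cast; ring)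
  refine ⟨x - vP k i * x', sub_mem hx h8, ?_, ?_⟩
  · rw [map_sub, dB_vP_mul h0, h7, h5, vP_add, mul_assoc, sub_self]
  · rw [map_sub, sub_right_comm, Th_vP_mul i hx'.1]
    exact sub_mem (WT_mono (fun _ he => le_trans (Nat.le_add_right i j) he)
      (mem_WT.2 h3 : τ.Th p s x - u ∈ _)) (mem_WT_of_JW (smul_mem_JW i _))

end Tw

/-! ### statements on `Cob Laz` modulo `p` -/

section cob

variable {p : ℕ} [hp : Fact p.Prime]

variable (p) in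
/-- `b` represents `v_1 ^ j` -/
structure IsV (j : ℕ) (b : Cob Laz 0) : Prop where
  wt : Cob.IsWt (j * wz p 0) b
  d : Cob.d 0 b ∈ IC p 1 1
  cm : cm p (ZMod p) 0 b = vP (ZMod p) j

theorem cm_zero {k : Type} [CommRing k] [PL p k] (z : Cob Laz 0) : cm p k 0 z = cmp p k 0 z := by
  rw [cm_apply, rv, show (Fin.rev : Fin (0 + 1) → Fin (0 + 1)) = id from
    funext fun _ => Subsingleton.elim (α := Fin 1) _ _, Cob.map_id]

theorem cm_v {k : Type} [CommRing k] [PL p k] (i : ℕ) :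
    cm p k 0 (C (Laz.v p (i + 1))) - X (0, i) ∈ HI p (uT p k).φ i := by
  rw [cm_zero, cmp_C, Laz.lift_v, ← uT_φ (p := p)]
  exact vv_haz_sub_mem p _ i

theorem d_pow_mem {J : Ideal (Cob Laz 1)} {b : Cob Laz 0} (h : Cob.d 0 b ∈ J) (j : ℕ) :
    Cob.d 0 (b ^ j) ∈ J := by
  rw [Cob.d_apply, Fin.sum_univ_two] at h ⊢
  simp only [Fin.val_zero, Fin.val_one, pow_zero, pow_one, one_smul, neg_smul, map_pow,
    ← sub_eq_add_neg] at h ⊢
  exact J.mem_of_dvd (sub_dvd_pow_sub_pow _ _ j) h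

variable (p) in
theorem isV_pow (j : ℕ) : IsV p j (C (Laz.v p 1) ^ j) where
  wt := (P251.F.isWt_v p 1 hp.out.pos 0).pow j
  d := by
    obtain ⟨t, ht⟩ := P251.F.T1 p
    refine d_pow_mem ?_ j
    rw [← show (p : ℤ) • t = _ from ht, zsmul_eq_mul, Int.cast_natCast,
      ← map_natCast (C : Laz →+* Cob Laz 1)]
    exact Ideal.mul_mem_right _ _ (Ideal.mem_map_of_mem _ (cpt_one p).mem)
  cm := by
    have h := cm_v (p := p) (k := ZMod p) 0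
    rw [HI_zero, cast_eq_zero_of C (ZMod.natCast_self p), Ideal.span_singleton_zero, Ideal.mem_bot,
      sub_eq_zero] at h
    rw [map_pow, h, vP]

theorem dB_cm {s : ℕ} {z : Cob Laz s} (hd : Cob.d s z ∈ IC p 1 (s + 1)) :
    dB p (ZMod p) s (cm p (ZMod p) s z) = 0 := mem_JM_none.1 (Tw.dB_cm_mem (cpt_one p) hd)

theorem aCob_of_CBd {s : ℕ} {w : ℤ} {z : Cob Laz s} (hz : Cob.IsWt w z)
    (hd : Cob.d s z ∈ IC p 1 (s + 1)) (h : cm p (ZMod p) s z ∈ CBd p (ZMod p) Uall w s) :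
    ACob p 1 w z := Tw.aCob_of_CT (cpt_one p) hz hd (AddSubgroup.mem_sup_left h)

theorem CBd_of_aCob {s : ℕ} {w : ℤ} {z : Cob Laz s} (h : ACob p 1 w z) :
    cm p (ZMod p) s z ∈ CBd p (ZMod p) Uall w s := by
  rcases s with _ | s
  · exact mem_JM_none.1 ((cpt_one p).cm_JC h)
  · obtain ⟨y, hy, h1⟩ := h
    have h2 := mem_JM_none.1 ((cpt_one p).cm_JC h1)
    rw [map_sub, sub_eq_zero, cm_d, ← map_zsmul] at h2
    exact ⟨_, zsmul_mem (cm_mem hy) _, h2.symm⟩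

/-- every cocycle of `Bi (ZMod p)` is the image of a cocycle modulo `p` -/
theorem exists_cm {s : ℕ} {w : ℤ} {x : Bi (ZMod p)} (hx : x ∈ CK p (ZMod p) Uall s w)
    (hd : dB p (ZMod p) s x = 0) : ∃ z : Cob Laz s, Cob.IsWt w z ∧ Cob.d s z ∈ IC p 1 (s + 1) ∧
      cm p (ZMod p) s z = x := by
  obtain ⟨z, hz, h⟩ := Cpt.exists_lift (H := cpt_one p) hx.1 hx.2.1
  exact ⟨z, hz, h.d.mem (by rw [hd, smul_zero]; exact zero_mem _),
    sub_eq_zero.1 (mem_JM_none.1 h.cm_sub)⟩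

theorem IsV.cm_cup {j : ℕ} {b : Cob Laz 0} (hb : IsV p j b) {s : ℕ} (z : Cob Laz s) :
    Alg.cm p (ZMod p) s (cupC (add_zero s) z b) = vP (ZMod p) j * Alg.cm p (ZMod p) s z := by
  rw [cm_cupC, hb.cm, sh_zero]

/-- `v_1 ^ j z` is a coboundary -/
theorem Tors.aCob {s j : ℕ} {w : ℤ} (h : Tors p (ZMod p) s w j) {b : Cob Laz 0} (hb : IsV p j b)
    {z : Cob Laz s} (hz : Cob.IsWt w z) (hd : Cob.d s z ∈ IC p 1 (s + 1)) :
    ACob p 1 (w + j * wz p 0) (cupC (add_zero s) z b) :=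
  aCob_of_CBd (SS.isWt_cupC _ hz hb.wt rfl) (SS.d_cupC_mem _ hd hb.d) (by
    rw [hb.cm_cup]; exact h _ (cm_mem hz) (dB_cm hd))

namespace Tw

variable {G : Type} [Fintype G] [DecidableEq G] {τ : Tw (ZMod p) G} {N : ℤ} {a j s : ℕ} {w w' : ℤ}
  (H : τ.Ok p N (U1 a)) (hw : w ≤ N)

include H hw

theorem Ok.rho_map (hj : j ≤ a) {z : Cob Laz s} (hz : Cob.IsWt w z)
    (hd : Cob.d s z ∈ IC p 1 (s + 1)) : τ.Ps p s z ∈ τ.WZ p (U1 j) w s := by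
  rw [Ps_apply]
  exact (H.hyp1 (ZMod.natCast_self p) hj hw).Th_WZ (cm_mem hz) (by rw [dB_cm hd]; exact zero_mem _)

theorem Ok.rho_cob (hj : j ≤ a) {z : Cob Laz s} (hz : Cob.IsWt w z) (h : ACob p 1 w z) :
    τ.Ps p s z ∈ τ.WT p (U1 j) w s := by
  rw [Ps_apply]
  exact (H.hyp1 (ZMod.natCast_self p) hj hw).Th_WT (cm_mem hz)
    (AddSubgroup.mem_sup_left (CBd_of_aCob h))

omit H hw in
theorem rho_v {b : Cob Laz 0} (hb : IsV p j b) (z : Cob Laz s) :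
    τ.Ps p s (cupC (add_zero s) z b) = (X 0 ^ j : Av (ZMod p)) • τ.Ps p s z := by
  rw [Ps_cupC, hb.cm, Lx_vP]

omit H hw in
theorem rho_v_mem {b : Cob Laz 0} (hb : IsV p j b) (z : Cob Laz s) :
    τ.Ps p s (cupC (add_zero s) z b) ∈ τ.WT p (U1 j) w s := by
  rw [rho_v hb]
  exact mem_WT_of_JW (smul_mem_JW j _)

/-- the kernel of the map to the cohomology of `W / v_1 ^ j` -/
theorem Ok.rho_ker (hj : j ≤ a) (hs : ∀ r < s, τ.Exa p N r) (e : w' + j * wz p 0 = w)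
    {b : Cob Laz 0} (hb : IsV p j b) {z : Cob Laz s} (hz : Cob.IsWt w z)
    (hd : Cob.d s z ∈ IC p 1 (s + 1)) (h : τ.Ps p s z ∈ τ.WT p (U1 j) w s) :
    ∃ z' : Cob Laz s, Cob.IsWt w' z' ∧ Cob.d s z' ∈ IC p 1 (s + 1) ∧
      ACob p 1 w (z - cupC (add_zero s) z' b) := by
  rw [Ps_apply] at h
  obtain ⟨y, hy, h1, h2⟩ := exists_of_CT (ZMod.natCast_self p) (cm_mem hz) (dB_cm hd)
    ((H.hyp1 (ZMod.natCast_self p) hj hw).CT_of_WT hs (cm_mem hz)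
      (by rw [dB_cm hd]; exact zero_mem _) h) e
  obtain ⟨z', hz', hd', rfl⟩ := exists_cm hy h1
  refine ⟨z', hz', hd', aCob_of_CBd
    ((Cob.wt Laz _ w).sub_mem hz (SS.isWt_cupC _ hz' hb.wt e)) ?_ ?_⟩
  · rw [map_sub]
    exact sub_mem hd (SS.d_cupC_mem _ hd' hb.d)
  · rwa [map_sub, hb.cm_cup]

theorem Ok.rho_inj (hj : j ≤ a) (hs : ∀ r < s, τ.Exa p N r) (e : w' + j * wz p 0 = w)
    (ht : Tors p (ZMod p) s w' j) {z : Cob Laz s} (hz : Cob.IsWt w z)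
    (hd : Cob.d s z ∈ IC p 1 (s + 1)) (h : τ.Ps p s z ∈ τ.WT p (U1 j) w s) : ACob p 1 w z := by
  rw [Ps_apply] at h
  obtain ⟨y, hy, h1, h2⟩ := exists_of_CT (ZMod.natCast_self p) (cm_mem hz) (dB_cm hd)
    ((H.hyp1 (ZMod.natCast_self p) hj hw).CT_of_WT hs (cm_mem hz)
      (by rw [dB_cm hd]; exact zero_mem _) h) e
  have h3 := add_mem h2 (e ▸ ht y hy h1)
  rw [sub_add_cancel] at h3
  exact aCob_of_CBd hz hd h3

theorem Ok.rho_surj {i : ℕ} (ha : i + j ≤ a) (hs : ∀ r ≤ s, τ.Exa p N r)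
    (e : w' + (i + j : ℕ) * wz p 0 = w) (ht : Tors p (ZMod p) (s + 1) w' j)
    {u : G → Av (ZMod p)} (hu : u ∈ τ.WZ p (U1 (i + j)) w s) :
    ∃ z : Cob Laz s, Cob.IsWt w z ∧ Cob.d s z ∈ IC p 1 (s + 1) ∧
      τ.Ps p s z - u ∈ τ.WT p (U1 i) w s := by
  obtain ⟨x, hx, h1, h2⟩ := H.exists_Th (ZMod.natCast_self p) ha hs hw e ht hu
  obtain ⟨z, hz, hd, rfl⟩ := exists_cm hx h1
  exact ⟨z, hz, hd, by rwa [Ps_apply]⟩

end Tw

end cob

end Vale.Agent.P236K.Alg
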